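import Vale.Agent.P101.KR.PowerDefs

/-!
# P101: the dimension drop algebra `Z_{n,n+1}` itself

`Mₙ ⊗ M_{n+1}` is `M_J` for `J = Option (Fin n) × Fin n`, the first index belonging to `M_{n+1}`,
the second to `Mₙ`.
-/

open scoped BoundedContinuousFunction
open scoped ComplexOrder
open unitInterval

namespace Vale.Agent.P101.KR

variable (n : ℕ)

/-- The indices of `M_{n+1} ⊗ Mₙ`. -/
abbrev DropIndex : Type := Option (Fin n) × Fin n

/-- The fibre `M_{n+1} ⊗ Mₙ`. -/
abbrev DropFibre : Type := CStarMatrix (DropIndex n) (DropIndex n) ℂ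

variable {n}

/-- `x ↦ 1 ⊗ x` for `x ∈ Mₙ`. -/
def embSmall (x : Matrix (Fin n) (Fin n) ℂ) : DropFibre n :=
  CStarMatrix.ofMatrix fun p q => if p.1 = q.1 then x p.2 q.2 else 0

/-- `y ↦ y ⊗ 1` for `y ∈ M_{n+1}`. -/
def embLarge (y : Matrix (Option (Fin n)) (Option (Fin n)) ℂ) : DropFibre n :=
  CStarMatrix.ofMatrix fun p q => if p.2 = q.2 then y p.1 q.1 else 0

@[simp] lemma embSmall_apply (x : Matrix (Fin n) (Fin n) ℂ) (p q : DropIndex n) :
    embSmall x p q = if p.1 = q.1 then x p.2 q.2 else 0 := rfl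

@[simp] lemma embLarge_apply (y : Matrix (Option (Fin n)) (Option (Fin n)) ℂ) (p q : DropIndex n) :
    embLarge y p q = if p.2 = q.2 then y p.1 q.1 else 0 := rfl

lemma embSmall_mul (x x' : Matrix (Fin n) (Fin n) ℂ) :
    embSmall x * embSmall x' = embSmall (x * x') := by
  ext ⟨j, a⟩ ⟨k, b⟩
  rw [CStarMatrix.mul_apply, Fintype.sum_prod_type]
  refine (Finset.sum_eq_single j (fun l _ hl => ?_) ?_).trans ?_
  · simp [Ne.symm hl]
  · simp
  · simp only [embSmall_apply, Matrix.mul_apply, if_true]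
    split_ifs <;> simp

lemma embLarge_mul (y y' : Matrix (Option (Fin n)) (Option (Fin n)) ℂ) :
    embLarge y * embLarge y' = embLarge (y * y') := by
  ext ⟨j, a⟩ ⟨k, b⟩
  rw [CStarMatrix.mul_apply, Fintype.sum_prod_type]
  refine (Finset.sum_congr rfl fun l _ => Finset.sum_eq_single a (fun e _ he => ?_) ?_).trans ?_
  · simp [Ne.symm he]
  · simp
  · simp only [embLarge_apply, Matrix.mul_apply, if_true]
    split_ifs <;> simp

lemma star_embSmall (x : Matrix (Fin n) (Fin n) ℂ) : star (embSmall x) = embSmall (star x) := by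
  ext p q
  simp [CStarMatrix.star_apply, Matrix.star_apply, eq_comm, apply_ite (starRingEnd ℂ)]

lemma star_embLarge (y : Matrix (Option (Fin n)) (Option (Fin n)) ℂ) :
    star (embLarge y) = embLarge (star y) := by
  ext p q
  simp [CStarMatrix.star_apply, Matrix.star_apply, eq_comm, apply_ite (starRingEnd ℂ)]

lemma embSmall_algebraMap (r : ℂ) :
    embSmall (algebraMap ℂ (Matrix (Fin n) (Fin n) ℂ) r) = algebraMap ℂ (DropFibre n) r := by
  ext ⟨j, a⟩ ⟨k, b⟩
  simp [Algebra.algebraMap_eq_smul_one, CStarMatrix.one_apply, Matrix.one_apply,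
    Prod.ext_iff]
  split_ifs <;> simp_all

lemma embLarge_algebraMap (r : ℂ) :
    embLarge (algebraMap ℂ (Matrix (Option (Fin n)) (Option (Fin n)) ℂ) r) =
      algebraMap ℂ (DropFibre n) r := by
  ext ⟨j, a⟩ ⟨k, b⟩
  simp [Algebra.algebraMap_eq_smul_one, CStarMatrix.one_apply, Matrix.one_apply,
    Prod.ext_iff]
  split_ifs <;> simp_all

/-- `Z_{n,n+1}`: the paths in `M_{n+1} ⊗ Mₙ` starting in `1 ⊗ Mₙ` and ending in `M_{n+1} ⊗ 1`. -/
def dropAlg (n : ℕ) : StarSubalgebra ℂ (I →ᵇ DropFibre n) where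
  carrier := {f | (∃ x, f 0 = embSmall x) ∧ ∃ y, f 1 = embLarge y}
  mul_mem' := by
    rintro f g ⟨⟨x, hx⟩, y, hy⟩ ⟨⟨x', hx'⟩, y', hy'⟩
    exact ⟨⟨x * x', by simp [hx, hx', embSmall_mul]⟩, y * y', by simp [hy, hy', embLarge_mul]⟩
  add_mem' := by
    rintro f g ⟨⟨x, hx⟩, y, hy⟩ ⟨⟨x', hx'⟩, y', hy'⟩
    refine ⟨⟨x + x', ?_⟩, y + y', ?_⟩ <;> ext p q
    · simp [hx, hx']; split_ifs <;> simp
    · simp [hy, hy']; split_ifs <;> simp
  algebraMap_mem' r := ⟨⟨_, (embSmall_algebraMap r).symm⟩, _, (embLarge_algebraMap r).symm⟩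
  star_mem' := by
    rintro f ⟨⟨x, hx⟩, y, hy⟩
    exact ⟨⟨star x, by simp [hx, star_embSmall]⟩, star y, by simp [hy, star_embLarge]⟩

lemma mem_dropAlg {f : I →ᵇ DropFibre n} :
    f ∈ dropAlg n ↔ (∃ x, f 0 = embSmall x) ∧ ∃ y, f 1 = embLarge y := Iff.rfl

/-- Continuity of one entry. -/
lemma continuous_entry {X : Type*} [TopologicalSpace X] {f : X → DropFibre n} (hf : Continuous f)
    (p q : DropIndex n) : Continuous fun t => f t p q :=
  (continuous_apply_apply p q).comp hf

/-- Continuity from the entries. -/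
lemma continuous_of_entries {X : Type*} [TopologicalSpace X] {f : X → DropFibre n}
    (hf : ∀ p q, Continuous fun t => f t p q) : Continuous f :=
  continuous_pi fun p => continuous_pi fun q => hf p q

lemma eq_embSmall [NeZero n] {A : DropFibre n} (h : ∃ x, A = embSmall x) :
    A = embSmall (Matrix.of fun a b => A (none, a) (none, b)) := by
  obtain ⟨x, rfl⟩ := h
  ext p q
  simp

lemma eq_embLarge [NeZero n] {A : DropFibre n} (h : ∃ y, A = embLarge y) :
    A = embLarge (Matrix.of fun j k => A (j, 0) (k, 0)) := by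
  obtain ⟨y, rfl⟩ := h
  ext p q
  simp

lemma isClosed_dropAlg [NeZero n] : IsClosed (dropAlg n : Set (I →ᵇ DropFibre n)) := by
  have key : ∀ t : I, ∀ p q, Continuous fun f : I →ᵇ DropFibre n => f t p q := fun t p q =>
    continuous_entry (continuous_eval_const t) p q
  have h : (dropAlg n : Set (I →ᵇ DropFibre n)) =
      {f | f 0 = embSmall (Matrix.of fun a b => f 0 (none, a) (none, b))} ∩
      {f | f 1 = embLarge (Matrix.of fun j k => f 1 (j, 0) (k, 0))} := by
    ext f
    exact ⟨fun h => ⟨eq_embSmall h.1, eq_embLarge h.2⟩, fun h => ⟨⟨_, h.1⟩, _, h.2⟩⟩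
  rw [h]
  refine (isClosed_eq (continuous_eval_const _)
    (continuous_of_entries fun p q => ?_)).inter (isClosed_eq
      (continuous_eval_const _) (continuous_of_entries fun p q => ?_)) <;>
    simp only [embSmall_apply, embLarge_apply, Matrix.of_apply] <;> split_ifs
  all_goals first
    | exact continuous_const
    | exact key _ _ _

instance [NeZero n] : IsClosed (dropAlg n : Set (I →ᵇ DropFibre n)) := isClosed_dropAlg

noncomputable instance instCStarAlgebraDropAlg [NeZero n] : CStarAlgebra (dropAlg n) :=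
  inferInstance

/-- The relations of `Z_{n,n+1}` give a unital `*`-homomorphism out of `Z_{n,n+1}`
(Rørdam-Winter, Proposition 5.1, the direction that is used). -/
def DropHomStatement : Prop :=
  ∀ (n : ℕ) [NeZero n] (F : Type) [CStarAlgebra F],
    DropDataN n F → Nonempty (dropAlg n →⋆ₐ[ℂ] F)

end Vale.Agent.P101.KR
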