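import Vale.Agent.P101.KR.Interfaces

/-!
# P101: maximal two-sided ideals, the prime lemma and bookkeeping for copies
-/

open Set TwoSidedIdeal
open scoped CStarAlgebra
open CStarAlgebra

namespace Vale.Agent.P101.KR

variable {B F : Type*} [CStarAlgebra B] [CStarAlgebra F]

/-- A maximal proper two-sided ideal. -/
structure IsMax (I : TwoSidedIdeal F) : Prop where
  one_notMem : (1 : F) ∉ I
  maximal : ∀ J : TwoSidedIdeal F, I ≤ J → (1 : F) ∉ J → J ≤ I

/-- The closure of a two-sided ideal. -/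
def idealClosure (I : TwoSidedIdeal F) : TwoSidedIdeal F :=
  .mk' (closure (I : Set F)) (subset_closure I.zero_mem)
    (fun hx hy => map_mem_closure₂ continuous_add hx hy fun _ ha _ hb => I.add_mem ha hb)
    (fun hx => map_mem_closure continuous_neg hx fun _ ha => I.neg_mem ha)
    (fun {a _} hy => map_mem_closure (continuous_const_mul a) hy fun _ hb => I.mul_mem_left a _ hb)
    (fun {_} {a} hx => map_mem_closure (f := fun z => z * a) (continuous_mul_const a) hx
      fun _ hb => I.mul_mem_right _ a hb)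

lemma mem_idealClosure {I : TwoSidedIdeal F} {x : F} :
    x ∈ idealClosure I ↔ x ∈ closure (I : Set F) := by
  rw [idealClosure, TwoSidedIdeal.mem_mk']

/-- A proper ideal stays away from one. -/
lemma one_le_norm_one_sub {I : TwoSidedIdeal F} (hI : (1 : F) ∉ I) {z : F} (hz : z ∈ I) :
    1 ≤ ‖1 - z‖ := by
  by_contra! h
  obtain ⟨u, hu⟩ := isUnit_one_sub_of_norm_lt_one (x := 1 - z) h
  rw [sub_sub_cancel] at hu
  have := I.mul_mem_left (↑u⁻¹) _ hz
  rw [← hu, Units.inv_mul] at this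
  exact hI this

lemma one_notMem_idealClosure {I : TwoSidedIdeal F} (hI : (1 : F) ∉ I) :
    (1 : F) ∉ idealClosure I := by
  rw [mem_idealClosure, Metric.mem_closure_iff]
  push Not
  exact ⟨1, one_pos, fun z hz => by rw [dist_eq_norm]; exact one_le_norm_one_sub hI hz⟩

lemma IsMax.isClosed {I : TwoSidedIdeal F} (h : IsMax I) : IsClosed (I : Set F) := by
  have hle := h.maximal (idealClosure I) (fun x hx => mem_idealClosure.2 (subset_closure hx))
    (one_notMem_idealClosure h.one_notMem)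
  exact isClosed_of_closure_subset fun x hx => hle (mem_idealClosure.2 hx)

lemma IsMax.one_le_norm {I : TwoSidedIdeal F} (h : IsMax I) {z : F} (hz : z ∈ I) :
    1 ≤ ‖1 - z‖ := one_le_norm_one_sub h.one_notMem hz

lemma IsMax.smul_mem {I : TwoSidedIdeal F} (_ : IsMax I) (c : ℂ) {z : F} (hz : z ∈ I) :
    c • z ∈ I := by
  rw [Algebra.smul_def]
  exact I.mul_mem_left _ _ hz

/-- A proper ideal lies in a maximal one. -/
lemma exists_isMax {J : TwoSidedIdeal F} (hJ : (1 : F) ∉ J) : ∃ I, J ≤ I ∧ IsMax I := by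
  have key : ∀ c ⊆ {I : TwoSidedIdeal F | (1 : F) ∉ I}, IsChain (· ≤ ·) c → ∀ I₀ ∈ c,
      ∃ ub ∈ {I : TwoSidedIdeal F | (1 : F) ∉ I}, ∀ z ∈ c, z ≤ ub := ?_
  · obtain ⟨I, hJI, hI⟩ := zorn_le_nonempty₀ _ key J hJ
    exact ⟨I, hJI, hI.1, fun K hIK hK => hI.2 hK hIK⟩
  intro c hc hchain I₀ hI₀
  have hdir : ∀ {x y}, (∃ I ∈ c, x ∈ I) → (∃ I ∈ c, y ∈ I) → ∃ I ∈ c, x + y ∈ I := by
    rintro x y ⟨I, hI, hx⟩ ⟨K, hK, hy⟩
    rcases hchain.total hI hK with h | h
    · exact ⟨K, hK, K.add_mem (h hx) hy⟩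
    · exact ⟨I, hI, I.add_mem hx (h hy)⟩
  refine ⟨.mk' {x | ∃ I ∈ c, x ∈ I} ⟨I₀, hI₀, I₀.zero_mem⟩ hdir
    (fun ⟨I, hI, hx⟩ => ⟨I, hI, I.neg_mem hx⟩)
    (fun ⟨I, hI, hx⟩ => ⟨I, hI, I.mul_mem_left _ _ hx⟩)
    (fun ⟨I, hI, hx⟩ => ⟨I, hI, I.mul_mem_right _ _ hx⟩), ?_, fun I hI x hx => ?_⟩
  · rw [Set.mem_ofPred_eq, TwoSidedIdeal.mem_mk']
    rintro ⟨I, hI, h1⟩
    exact hc hI h1
  · rw [TwoSidedIdeal.mem_mk']
    exact ⟨I, hI, hx⟩

/-- A set is full when no maximal ideal contains it. -/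
lemma full_iff {S : Set F} : Full S ↔ ∀ I : TwoSidedIdeal F, IsMax I → ∃ z ∈ S, z ∉ I := by
  constructor
  · intro h I hI
    by_contra! hc
    exact hI.one_notMem (mem_span_iff.1 h I hc)
  · intro h
    by_contra hc
    obtain ⟨I, hle, hI⟩ := exists_isMax hc
    obtain ⟨z, hz, hzI⟩ := h I hI
    exact hzI (hle (subset_span hz))

lemma full_singleton_iff {a : F} : Full {a} ↔ ∀ I : TwoSidedIdeal F, IsMax I → a ∉ I := by
  simp [full_iff]

lemma IsMax.notMem_of_full {I : TwoSidedIdeal F} (hI : IsMax I) {a : F} (h : Full {a}) : a ∉ I :=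
  full_singleton_iff.1 h I hI

/-- Fullness writes the unit as a finite combination. -/
lemma Full.exists_sum {S : Set F} (h : Full S) :
    ∃ (ι : Type) (_ : Fintype ι) (a b z : ι → F), (∀ i, z i ∈ S) ∧ ∑ i, a i * z i * b i = 1 := by
  rw [Full, mem_span_iff_mem_addSubgroup_closure] at h
  generalize hw : (1 : F) = w at h ⊢
  clear hw
  induction h using AddSubgroup.closure_induction with
  | mem w hw =>
    obtain ⟨-, ⟨a, -, z, hz, rfl⟩, b, -, rfl⟩ := hw
    exact ⟨Unit, inferInstance, fun _ => a, fun _ => b, fun _ => z, fun _ => hz, by simp⟩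
  | zero => exact ⟨Empty, inferInstance, Empty.elim, Empty.elim, Empty.elim, by simp, by simp⟩
  | add x y _ _ hx hy =>
    obtain ⟨ι, _, a, b, z, hz, rfl⟩ := hx
    obtain ⟨κ, _, a', b', z', hz', rfl⟩ := hy
    exact ⟨ι ⊕ κ, inferInstance, Sum.elim a a', Sum.elim b b', Sum.elim z z',
      fun i => by cases i <;> simp [hz, hz'], by simp [Fintype.sum_sum_type]⟩
  | neg x _ hx =>
    obtain ⟨ι, _, a, b, z, hz, rfl⟩ := hx
    exact ⟨ι, inferInstance, fun i => -a i, b, z, hz, by simp [neg_mul, Finset.sum_neg_distrib]⟩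

/-- Unital homomorphisms preserve fullness. -/
lemma Full.image {S : Set B} (h : Full S) (φ : B →⋆ₐ[ℂ] F) : Full (φ '' S) := by
  obtain ⟨ι, _, a, b, z, hz, hsum⟩ := h.exists_sum
  rw [Full, ← map_one φ, ← hsum, map_sum]
  refine TwoSidedIdeal.finsetSum_mem _ _ _ fun i _ => ?_
  rw [map_mul, map_mul]
  exact mul_mem_right _ _ _ (mul_mem_left _ _ _ (subset_span ⟨z i, hz i, rfl⟩))

lemma Full.mono {S T : Set F} (h : Full S) (hST : S ⊆ T) : Full T :=
  TwoSidedIdeal.span_mono hST h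

/-! ### Generated subalgebras -/

lemma subset_Cl (s : Set F) : s ⊆ Cl s := fun _ hx =>
  StarSubalgebra.le_topologicalClosure _ (StarAlgebra.subset_adjoin ℂ s hx)

lemma Cl_le {s : Set F} {S : StarSubalgebra ℂ F} (hS : IsClosed (S : Set F)) (h : s ⊆ S) :
    Cl s ≤ S :=
  StarSubalgebra.topologicalClosure_minimal (StarAlgebra.adjoin_le h) hS

lemma Cl_mono {s t : Set F} (h : s ⊆ t) : Cl s ≤ Cl t :=
  Cl_le (isClosed_Cl t) (h.trans (subset_Cl t))

/-- What commutes with a self-adjoint set commutes with what it generates. -/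
lemma commute_of_mem_Cl {s : Set F} {t : F} (h : ∀ x ∈ s, Commute t x ∧ Commute t (star x))
    {x : F} (hx : x ∈ Cl s) : Commute t x := by
  have hcl : IsClosed {x : F | Commute t x} := isClosed_eq (continuous_const_mul t) (continuous_mul_const t)
  refine closure_minimal (fun y hy => ?_) hcl hx
  suffices Commute t y ∧ Commute t (star y) from this.1
  induction hy using StarAlgebra.adjoin_induction with
  | mem y hy => exact h y hy
  | algebraMap r => exact ⟨(Algebra.commutes r t).symm, by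
      rw [← algebraMap_star_comm]; exact (Algebra.commutes _ t).symm⟩
  | add y z _ _ hy hz => exact ⟨hy.1.add_right hz.1, by simpa using hy.2.add_right hz.2⟩
  | mul y z _ _ hy hz => exact ⟨hy.1.mul_right hz.1, by simpa using hz.2.mul_right hy.2⟩
  | star y _ hy => exact ⟨hy.2, by simpa using hy.1⟩

/-- The prime lemma: two commuting subalgebras that generate. -/
theorem IsMax.prime {I : TwoSidedIdeal F} (hI : IsMax I) {M N : StarSubalgebra ℂ F}
    (hMN : ∀ a ∈ M, ∀ b ∈ N, Commute a b) (hgen : Cl ((M : Set F) ∪ N) = ⊤)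
    {r s : F} (hr : r ∈ M) (hs : s ∈ N) (hrs : r * s ∈ I) : r ∈ I ∨ s ∈ I := by
  let T : F → Prop := fun d =>
    ∀ c, (∀ u ∈ N, s * u * c * r ∈ I) → ∀ u ∈ N, s * u * (d * c) * r ∈ I
  have hM : ∀ d ∈ M, T d := fun d hd c hc u hu => by
    have h : Commute d (s * u) := (hMN d hd s hs).mul_right (hMN d hd u hu)
    rw [← mul_assoc, ← h.eq, mul_assoc d, mul_assoc d]
    exact I.mul_mem_left d _ (hc u hu)
  have hN : ∀ d ∈ N, T d := fun d hd c hc u hu => by
    simpa [mul_assoc] using hc (u * d) (mul_mem hu hd)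
  have hadj : ∀ d ∈ StarAlgebra.adjoin ℂ ((M : Set F) ∪ N), T d ∧ T (star d) := by
    intro d hd
    induction hd using StarAlgebra.adjoin_induction with
    | mem d hd =>
      rcases hd with hd | hd
      · exact ⟨hM d hd, hM _ (star_mem hd)⟩
      · exact ⟨hN d hd, hN _ (star_mem hd)⟩
    | algebraMap r => exact ⟨hN _ (algebraMap_mem N r), hN _ (star_mem (algebraMap_mem N r))⟩
    | add x y _ _ hx hy =>
      refine ⟨fun c hc u hu => ?_, fun c hc u hu => ?_⟩
      · simp only [add_mul, mul_add]; exact I.add_mem (hx.1 c hc u hu) (hy.1 c hc u hu)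
      · simp only [star_add, add_mul, mul_add]; exact I.add_mem (hx.2 c hc u hu) (hy.2 c hc u hu)
    | mul x y _ _ hx hy =>
      refine ⟨fun c hc u hu => ?_, fun c hc u hu => ?_⟩
      · simpa [mul_assoc] using hx.1 (y * c) (hy.1 c hc) u hu
      · simpa [mul_assoc] using hy.2 (star x * c) (hx.2 c hc) u hu
    | star x _ hx => exact ⟨hx.2, by simpa using hx.1⟩
  have hbase : ∀ u ∈ N, s * u * 1 * r ∈ I := fun u hu => by
    rw [mul_one, ← (hMN r hr (s * u) (mul_mem hs hu)).eq, ← mul_assoc]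
    exact I.mul_mem_right _ _ hrs
  have key : ∀ c, s * c * r ∈ I := by
    intro c
    have hc : c ∈ Cl ((M : Set F) ∪ N) := hgen ▸ StarSubalgebra.mem_top
    refine closure_minimal (fun d hd => ?_)
      (hI.isClosed.preimage ((continuous_const_mul s).mul continuous_const)) hc
    simpa using (hadj d hd).1 1 hbase 1 (one_mem N)
  by_contra! h
  obtain ⟨hrI, hsI⟩ := h
  have h1 : (1 : F) ∈ I ⊔ span {r} := by
    by_contra hc
    exact hrI (hI.maximal _ le_sup_left hc ((le_sup_right : span {r} ≤ I ⊔ span {r}) (subset_span rfl)))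
  obtain ⟨y, hy, z, hz, hyz⟩ := mem_sup.1 h1
  have hsz : s * z ∈ I := by
    rw [mem_span_iff_mem_addSubgroup_closure] at hz
    clear hyz
    induction hz using AddSubgroup.closure_induction with
    | mem w hw =>
      obtain ⟨-, ⟨a, -, z, rfl, rfl⟩, b, -, rfl⟩ := hw
      simpa [mul_assoc] using I.mul_mem_right _ b (key a)
    | zero => simp
    | add x y _ _ hx hy => rw [mul_add]; exact I.add_mem hx hy
    | neg x _ hx => rw [mul_neg]; exact I.neg_mem hx
  refine hsI ?_
  rw [← mul_one s, ← hyz, mul_add]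
  exact I.add_mem (I.mul_mem_left _ _ hy) hsz

/-! ### Copies -/

variable {m : ℕ}

/-- The subalgebra generated by the copies in a set of positions. -/
def Copies.alg (κ : Copies B F m) (P : Set (Fin m)) : StarSubalgebra ℂ F :=
  Cl (⋃ i ∈ P, Set.range (κ.hom i))

lemma Copies.hom_mem_alg (κ : Copies B F m) {P : Set (Fin m)} {i : Fin m} (hi : i ∈ P) (b : B) :
    κ.hom i b ∈ κ.alg P :=
  subset_Cl _ (Set.mem_biUnion hi ⟨b, rfl⟩)

lemma Copies.commute_alg (κ : Copies B F m) {P Q : Set (Fin m)} (h : Disjoint P Q) {a b : F}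
    (ha : a ∈ κ.alg P) (hb : b ∈ κ.alg Q) : Commute a b := by
  refine commute_of_mem_Cl (fun x hx => ?_) hb
  simp only [Set.mem_iUnion, Set.mem_range] at hx
  obtain ⟨j, hj, b, rfl⟩ := hx
  have : ∀ b, Commute a (κ.hom j b) := fun b => by
    refine (commute_of_mem_Cl (fun y hy => ?_) ha).symm
    simp only [Set.mem_iUnion, Set.mem_range] at hy
    obtain ⟨i, hi, a, rfl⟩ := hy
    have hij : j ≠ i := fun e => Set.disjoint_left.1 h hi (e ▸ hj)
    exact ⟨κ.comm j i hij b a, by rw [← map_star]; exact κ.comm j i hij b _⟩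
  exact ⟨this b, by rw [← map_star]; exact this _⟩

lemma Copies.Generates.prime {κ : Copies B F m} (hκ : κ.Generates) {I : TwoSidedIdeal F}
    (hI : IsMax I) {P Q : Set (Fin m)} (hd : Disjoint P Q) (hu : P ∪ Q = Set.univ) {r s : F}
    (hr : r ∈ κ.alg P) (hs : s ∈ κ.alg Q) (hrs : r * s ∈ I) : r ∈ I ∨ s ∈ I := by
  refine hI.prime (fun a ha b hb => κ.commute_alg hd ha hb) ?_ hr hs hrs
  refine top_le_iff.1 (hκ.symm.le.trans (Cl_mono (Set.iUnion_subset fun i => ?_)))
  rintro _ ⟨b, rfl⟩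
  have hi : i ∈ P ∪ Q := hu ▸ Set.mem_univ i
  exact hi.elim (fun h => .inl (κ.hom_mem_alg h b)) fun h => .inr (κ.hom_mem_alg h b)

/-- A product over distinct positions avoids a maximal ideal when every factor does. -/
lemma Copies.Generates.prod_notMem {κ : Copies B F m} (hκ : κ.Generates) {I : TwoSidedIdeal F}
    (hI : IsMax I) (f : Fin m → B) (l : List (Fin m)) (hl : l.Nodup)
    (h : ∀ i ∈ l, κ.hom i (f i) ∉ I) : (l.map fun i => κ.hom i (f i)).prod ∉ I := by
  induction l with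
  | nil => simpa using hI.one_notMem
  | cons i l ih =>
    rw [List.nodup_cons] at hl
    rw [List.map_cons, List.prod_cons]
    intro hmem
    have hrest : (l.map fun i => κ.hom i (f i)).prod ∈ κ.alg {i}ᶜ := by
      refine list_prod_mem ?_
      simp only [List.mem_map]
      rintro _ ⟨j, hj, rfl⟩
      have hji : j ∈ ({i}ᶜ : Set (Fin m)) := fun e : j = i => hl.1 (e ▸ hj)
      exact κ.hom_mem_alg hji _
    have hi : κ.hom i (f i) ∈ κ.alg {i} := κ.hom_mem_alg (Set.mem_singleton i) _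
    rcases hκ.prime hI (P := {i}) (Q := {i}ᶜ) disjoint_compl_right (Set.union_compl_self _)
      hi hrest hmem with h' | h'
    · exact h i (List.mem_cons_self ..) h'
    · exact ih hl.2 (fun j hj => h j (List.mem_cons_of_mem _ hj)) h'

/-- A homomorphism respects generation. -/
lemma hom_mem_Cl {s : Set F} (φ : Cl s →⋆ₐ[ℂ] F) (a : Cl s) :
    φ a ∈ Cl (φ '' (Subtype.val ⁻¹' s)) := by
  set T := Cl (φ '' (Subtype.val ⁻¹' s : Set (Cl s))) with hT
  let Y : StarSubalgebra ℂ F := (T.comap φ).map (Cl s).subtype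
  have hY : IsClosed (Y : Set F) :=
    (isClosed_Cl s).isClosedEmbedding_subtypeVal.isClosedMap _
      ((isClosed_Cl _).preimage (map_continuous φ))
  have hsY : s ⊆ Y := fun x hx =>
    ⟨⟨x, subset_Cl s hx⟩, subset_Cl _ ⟨⟨x, subset_Cl s hx⟩, hx, rfl⟩, rfl⟩
  obtain ⟨b, hb, hba⟩ := Cl_le hY hsY a.2
  rwa [Subtype.coe_injective hba] at hb

/-- The range of a homomorphism restricted to a larger target. -/
lemma exists_generating (hF : HasCopies F) {s : Set F} (hs : s.Countable) (m : ℕ) :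
    ∃ s' : Set F, s'.Countable ∧ ∃ κ : Copies (Cl s) (Cl s') m, κ.Generates := by
  obtain ⟨κ⟩ := hF s hs m
  set t : Set (Cl s) := Subtype.val ⁻¹' s
  have ht : t.Countable := hs.preimage Subtype.coe_injective
  set s' : Set F := ⋃ i, κ.hom i '' t
  have hmem : ∀ i a, κ.hom i a ∈ Cl s' := fun i a =>
    Cl_mono (Set.subset_iUnion (fun i => κ.hom i '' t) i) (hom_mem_Cl _ a)
  refine ⟨s', Set.countable_iUnion fun i => ht.image _,
    ⟨fun i => (κ.hom i).codRestrict _ (hmem i), fun i j h a b => Subtype.ext (κ.comm i j h a b)⟩, ?_⟩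
  rw [Copies.Generates, ← top_le_iff]
  rintro ⟨x, hx⟩ -
  let Y : StarSubalgebra ℂ F :=
    (Cl (⋃ i, Set.range ((κ.hom i).codRestrict (Cl s') (hmem i)))).map (Cl s').subtype
  have hY : IsClosed (Y : Set F) :=
    (isClosed_Cl s').isClosedEmbedding_subtypeVal.isClosedMap _ (isClosed_Cl _)
  have hsY : s' ⊆ Y := by
    rintro y hy
    obtain ⟨i, a, -, rfl⟩ := Set.mem_iUnion.1 hy
    exact ⟨_, subset_Cl _ (Set.mem_iUnion.2 ⟨i, a, rfl⟩), rfl⟩
  obtain ⟨b, hb, hba⟩ := Cl_le hY hsY hx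
  rwa [show b = ⟨x, hx⟩ from Subtype.ext hba] at hb

/-- Any element is approximated by right multiples through its square. -/
lemma exists_right_approx (z : F) {ε : ℝ} (hε0 : 0 < ε) :
    ∃ c : F, ‖z - z * (star z * z * c)‖ * ‖z - z * (star z * z * c)‖ ≤ ε := by
  let _ := CStarAlgebra.spectralOrder F
  let _ := CStarAlgebra.spectralOrderedRing F
  set A : F := star z * z with hA
  have hAsa : IsSelfAdjoint A := IsSelfAdjoint.star_mul_self z
  have hspec : ∀ t ∈ spectrum ℝ A, (0 : ℝ) ≤ t := fun t ht =>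
    spectrum_nonneg_of_nonneg (star_mul_self_nonneg z) ht
  have hne : ∀ t : ℝ, max t 0 + ε ≠ 0 := fun t => by
    have := le_max_right t 0
    linarith
  let g : ℝ → ℝ := fun t => (max t 0 + ε)⁻¹
  let u : ℝ → ℝ := fun t => 1 - t * g t
  have hgc : Continuous g := (by fun_prop : Continuous fun t : ℝ => max t 0 + ε).inv₀ hne
  have hi : ContinuousOn (fun t : ℝ => t) (spectrum ℝ A) := continuous_id.continuousOn
  have hg : ContinuousOn g (spectrum ℝ A) := hgc.continuousOn
  have h1 : ContinuousOn (fun _ : ℝ => (1 : ℝ)) (spectrum ℝ A) := continuousOn_const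
  have htg : ContinuousOn (fun t => t * g t) (spectrum ℝ A) := hi.mul hg
  have hu : ContinuousOn u (spectrum ℝ A) := h1.sub htg
  have htu : ContinuousOn (fun t => t * u t) (spectrum ℝ A) := hi.mul hu
  refine ⟨cfc g A, ?_⟩
  have hrw : z - z * (A * cfc g A) = z * cfc u A := by
    rw [show u = fun t => (fun _ : ℝ => (1 : ℝ)) t - (fun t => t * g t) t from rfl,
      cfc_sub (R := ℝ) _ _ A h1 htg, cfc_const_one ℝ A hAsa, mul_sub, mul_one,
      cfc_mul (R := ℝ) (fun t => t) g A hi hg, cfc_id' ℝ A hAsa]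
  rw [hrw, ← CStarRing.norm_star_mul_self, star_mul,
    (cfc_predicate u A : IsSelfAdjoint _).star_eq]
  rw [show cfc u A * star z * (z * cfc u A) = cfc u A * (A * cfc u A) by
    rw [hA]; noncomm_ring]
  rw [show A * cfc u A = cfc (fun t => t * u t) A by
    rw [cfc_mul (R := ℝ) (fun t => t) u A hi hu, cfc_id' ℝ A hAsa],
    ← cfc_mul (R := ℝ) u (fun t => t * u t) A hu htu]
  refine norm_cfc_le hε0.le fun t ht => ?_
  have ht0 := hspec t ht
  have e : u t = ε / (t + ε) := by
    simp only [u, g, max_eq_left ht0]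
    field_simp
    ring
  rw [e, Real.norm_eq_abs, abs_of_nonneg (by positivity)]
  rw [show ε / (t + ε) * (t * (ε / (t + ε))) = ε * (ε * t / (t + ε) ^ 2) by field_simp]
  refine mul_le_of_le_one_right hε0.le ?_
  rw [div_le_one (by positivity)]
  nlinarith

/-- A maximal ideal containing `star z * z` contains `z`. -/
lemma IsMax.mem_of_star_mul_self {I : TwoSidedIdeal F} (hI : IsMax I) {z : F}
    (h : star z * z ∈ I) : z ∈ I := by
  refine hI.isClosed.closure_subset (Metric.mem_closure_iff.2 fun δ hδ => ?_)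
  obtain ⟨c, hc⟩ := exists_right_approx z (ε := (δ / 2) ^ 2) (by positivity)
  refine ⟨z * (star z * z * c), I.mul_mem_left _ _ (I.mul_mem_right _ _ h), ?_⟩
  rw [dist_eq_norm]
  by_contra! hlt
  nlinarith

end Vale.Agent.P101.KR
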