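import Vale.Agent.P101.KR.Base

/-!
# P101: one element which is nowhere scalar, in finitely many copies
-/

open Set TwoSidedIdeal Finset
open scoped CStarAlgebra

namespace Vale.Agent.P101.KR

variable {B D : Type} [CStarAlgebra B] [CStarAlgebra D]

lemma isSelfAdjoint_hom {m : ℕ} (κ : Copies B D m) (i : Fin m) {b : B} (hb : IsSelfAdjoint b) :
    IsSelfAdjoint (κ.hom i b) := by
  rw [isSelfAdjoint_iff, ← map_star, hb.star_eq]

/-- Step 1 of the note. -/
theorem nonScalar_of : NonScalarStatement := by
  intro B _ N x hN hx hfull D _ κ hgen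
  classical
  let z : Fin (2 * N) → B := fun j => ∑ c : Fin N, ((j : ℕ) : ℝ) ^ (c : ℕ) • x c
  have hz : ∀ j, IsSelfAdjoint (z j) := fun j =>
    isSelfAdjoint_sum _ fun c _ => (IsSelfAdjoint.all _).smul (hx c)
  let term : Fin (2 * N) → Fin (2 * N) → D := fun l l' =>
    if l < l' then κ.hom l (z l') * κ.hom l' (z l) else 0
  refine ⟨∑ l, ∑ l', term l l', isSelfAdjoint_sum _ fun l _ => isSelfAdjoint_sum _ fun l' _ => ?_, ?_⟩
  · show IsSelfAdjoint (term l l')
    by_cases h : l < l'
    · simp only [term, if_pos h]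
      exact ((isSelfAdjoint_hom κ l (hz l')).commute_iff (isSelfAdjoint_hom κ l' (hz l))).1
        (κ.comm l l' h.ne _ _)
    · simp [term, h]
  set H := ∑ l, ∑ l', term l l' with hH
  rw [full_iff]
  intro I hI
  by_contra! hall
  have hbr : ∀ c, H * c - c * H ∈ I := fun c => hall _ ⟨c, rfl⟩
  -- the bad partners of one position
  let bad : Fin (2 * N) → Finset (Fin (2 * N)) := fun i =>
    Finset.univ.filter fun j => ∀ p, κ.hom i (z j * p - p * z j) ∈ I
  have hbad : ∀ i, (bad i).card ≤ N - 1 := by
    intro i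
    by_contra! hcard
    obtain ⟨t, hts, htc⟩ := exists_subset_card_eq (s := bad i) (n := N) (by omega)
    let e : Fin N → Fin (2 * N) := t.orderEmbOfFin htc
    have he : Function.Injective fun r => (((e r : ℕ) : ℝ)) := fun r r' h =>
      (t.orderEmbOfFin htc).injective (Fin.ext (Nat.cast_injective (R := ℝ) h))
    let V : Matrix (Fin N) (Fin N) ℝ := Matrix.vandermonde fun r => ((e r : ℕ) : ℝ)
    have hV : IsUnit V.det := isUnit_iff_ne_zero.2 (Matrix.det_vandermonde_ne_zero_iff.2 he)
    have hxz : ∀ c, x c = ∑ r, V⁻¹ c r • z (e r) := by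
      intro c
      have hVV : ∀ d, ∑ r, V⁻¹ c r * V r d = if c = d then 1 else 0 := fun d => by
        rw [← Matrix.mul_apply, Matrix.nonsing_inv_mul V hV, Matrix.one_apply]
      calc x c = ∑ d, (∑ r, V⁻¹ c r * V r d) • x d := by simp [hVV]
        _ = ∑ r, V⁻¹ c r • z (e r) := by
          simp only [z, V, Matrix.vandermonde_apply, Finset.sum_smul, Finset.smul_sum, mul_smul]
          exact Finset.sum_comm
    have hzI : ∀ r p, κ.hom i (z (e r) * p - p * z (e r)) ∈ I := fun r =>
      (Finset.mem_filter.1 (hts (t.orderEmbOfFin_mem htc r))).2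
    have hxI : ∀ c p, κ.hom i (x c * p - p * x c) ∈ I := by
      intro c p
      rw [hxz c, Finset.sum_mul, Finset.mul_sum, ← Finset.sum_sub_distrib, map_sum]
      refine TwoSidedIdeal.finsetSum_mem _ _ _ fun r _ => ?_
      rw [smul_mul_assoc, mul_smul_comm, ← smul_sub, ← Complex.coe_smul, map_smul]
      exact hI.smul_mem _ (hzI r p)
    obtain ⟨w, hw, hwI⟩ := full_iff.1 (hfull.image (κ.hom i)) I hI
    obtain ⟨u, hu, rfl⟩ := hw
    simp only [Set.mem_iUnion, Set.mem_singleton_iff] at hu
    obtain ⟨c, d, rfl⟩ := hu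
    exact hwI (hxI c (x d))
  -- a good pair
  obtain ⟨i, j, hij, hji, hji'⟩ : ∃ i j, i < j ∧ j ∉ bad i ∧ i ∉ bad j := by
    by_contra! h
    set U : Finset (Fin (2 * N) × Fin (2 * N)) :=
      (Finset.univ.sigma bad).image fun p => (p.1, p.2) with hU
    have hcard : U.card ≤ 2 * N * (N - 1) := by
      refine Finset.card_image_le.trans ?_
      rw [Finset.card_sigma]
      exact (Finset.sum_le_card_nsmul _ _ _ fun i _ => hbad i).trans (by simp)
    have hsub : (Finset.univ : Finset (Fin (2 * N))).offDiag ⊆ U ∪ U.image Prod.swap := by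
      rintro ⟨a, b⟩ hab
      have hne : a ≠ b := (Finset.mem_offDiag.1 hab).2.2
      have key : b ∈ bad a ∨ a ∈ bad b := by
        rcases lt_or_gt_of_ne hne with hlt | hlt
        · by_cases hb : b ∈ bad a
          · exact .inl hb
          · exact .inr (h a b hlt hb)
        · by_cases hb : a ∈ bad b
          · exact .inr hb
          · exact .inl (h b a hlt hb)
      have hmem : ∀ {a b}, b ∈ bad a → (a, b) ∈ U := fun {a b} hb =>
        Finset.mem_image.2 ⟨⟨a, b⟩, Finset.mem_sigma.2 ⟨Finset.mem_univ _, hb⟩, rfl⟩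
      rcases key with hk | hk
      · exact Finset.mem_union_left _ (hmem hk)
      · exact Finset.mem_union_right _ (Finset.mem_image.2 ⟨(b, a), hmem hk, rfl⟩)
    have hle := (Finset.card_le_card hsub).trans (Finset.card_union_le _ _)
    rw [Finset.offDiag_card, Finset.card_univ, Fintype.card_fin] at hle
    have hle' : 2 * N * (2 * N) - 2 * N ≤ 2 * (2 * N * (N - 1)) :=
      hle.trans (by linarith [Finset.card_image_le (s := U) (f := Prod.swap)])
    obtain ⟨N', rfl⟩ : ∃ N', N = N' + 1 := ⟨N - 1, by omega⟩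
    simp only [Nat.add_sub_cancel] at hle'
    have : 2 * (N' + 1) * (2 * (N' + 1)) ≤ 2 * (2 * (N' + 1) * N') + 2 * (N' + 1) := by omega
    nlinarith
  obtain ⟨p, hp⟩ : ∃ p, κ.hom i (z j * p - p * z j) ∉ I := by simpa [bad] using hji
  obtain ⟨q, hq⟩ : ∃ q, κ.hom j (z i * q - q * z i) ∉ I := by simpa [bad] using hji'
  set P := κ.hom i p
  set Q := κ.hom j q
  -- only one term survives the double commutator
  let br : D → D := fun w => (w * P - P * w) * Q - Q * (w * P - P * w)
  have hbr0 : ∀ l l', ¬ (l = i ∧ l' = j) → br (term l l') = 0 := by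
    intro l l' hne
    simp only [br, term]
    split_ifs with hll
    swap
    · simp
    by_cases hl : l = i
    · subst hl
      have hl' : l' ≠ j := fun e => hne ⟨rfl, e⟩
      have h1 : κ.hom l (z l') * κ.hom l' (z l) * P - P * (κ.hom l (z l') * κ.hom l' (z l)) =
          κ.hom l (z l' * p - p * z l') * κ.hom l' (z l) := by
        rw [map_sub, map_mul, map_mul, sub_mul, mul_assoc, (κ.comm l' l hll.ne' (z l) p).eq]
        simp only [P, mul_assoc]
      rw [h1, sub_eq_zero]
      exact ((κ.comm l j hij.ne _ q).mul_left (κ.comm l' j hl' _ q)).eq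
    · by_cases hl' : l' = i
      · subst hl'
        have hlj : l ≠ j := (hll.trans hij).ne
        have h1 : κ.hom l (z l') * κ.hom l' (z l) * P - P * (κ.hom l (z l') * κ.hom l' (z l)) =
            κ.hom l (z l') * κ.hom l' (z l * p - p * z l) := by
          rw [map_sub, map_mul, map_mul, mul_sub, ← mul_assoc P, ← (κ.comm l l' hl (z l') p).eq]
          simp only [P, mul_assoc]
        rw [h1, sub_eq_zero]
        exact ((κ.comm l j hlj _ q).mul_left (κ.comm l' j hij.ne _ q)).eq
      · rw [sub_eq_zero.2 ((κ.comm l i hl (z l') p).mul_left (κ.comm l' i hl' (z l) p)).eq]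
        simp
  have hbrH : br H = br (term i j) := by
    have hsum : br H = ∑ l, ∑ l', br (term l l') := by
      simp only [br, hH, Finset.sum_mul, Finset.mul_sum, ← Finset.sum_sub_distrib]
    rw [hsum, Finset.sum_eq_single i (fun l _ hl => Finset.sum_eq_zero fun l' _ =>
      hbr0 l l' fun h => hl h.1) (by simp), Finset.sum_eq_single j (fun l' _ hl' =>
      hbr0 i l' fun h => hl' h.2) (by simp)]
  have hprod : κ.hom i (z j * p - p * z j) * κ.hom j (z i * q - q * z i) ∈ I := by
    have h1 : br H ∈ I :=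
      I.sub_mem (I.mul_mem_right _ _ (hbr P)) (I.mul_mem_left _ _ (hbr P))
    rw [hbrH] at h1
    convert h1 using 1
    have e1 : κ.hom j (z i) * P = P * κ.hom j (z i) := (κ.comm j i hij.ne' _ _).eq
    have e2 : Q * κ.hom i (z j * p - p * z j) = κ.hom i (z j * p - p * z j) * Q :=
      (κ.comm j i hij.ne' _ _).eq
    have h2 : term i j * P - P * term i j =
        κ.hom i (z j * p - p * z j) * κ.hom j (z i) := by
      simp only [term, if_pos hij]
      rw [map_sub, map_mul, map_mul, sub_mul, mul_assoc, e1]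
      simp only [P, mul_assoc]
    simp only [br, h2]
    rw [← mul_assoc Q, e2, mul_assoc, mul_assoc, ← mul_sub]
    simp only [Q, map_sub, map_mul]
  rcases hgen.prime hI (P := {i}) (Q := {i}ᶜ) disjoint_compl_right (Set.union_compl_self _)
    (κ.hom_mem_alg (Set.mem_singleton i) _)
    (κ.hom_mem_alg (show j ∈ ({i}ᶜ : Set _) from fun h : j = i => hij.ne' h) _) hprod with h | h
  · exact hp h
  · exact hq h

end Vale.Agent.P101.KR
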