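import Vale.Agent.P101.KR.Start
import Vale.Agent.P101.KR.NonScalar

/-!
# P101: the chain of steps, and the converse
-/

open Set
open scoped CStarAlgebra

namespace Vale.Agent.P101.KR

/-- The relations of `Z_{2,3}` exclude characters. -/
theorem DropData.noCharacter {F : Type*} [CStarAlgebra F] (d : DropData F) : NoCharacter F := by
  refine ⟨fun χ => ?_⟩
  have hm : ∀ a b c e, χ (d.P a b) * χ (d.P c e) =
      if b = c then χ (diag d.P) * χ (d.P a e) else 0 := fun a b c e => by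
    rw [← map_mul, d.orderZero.mul_eq]
    split_ifs <;> simp
  have h01 : χ (d.P 0 1) = 0 := by simpa using hm 0 1 0 1
  have h00 : χ (diag d.P) * χ (d.P 0 0) = 0 := by simpa [h01] using (hm 0 1 1 0).symm
  have hP : χ (d.P 0 0) = 0 := by
    have h := hm 0 0 0 0
    rw [if_pos rfl, h00] at h
    exact mul_self_eq_zero.1 h
  have hv : χ d.v = 0 := by
    rw [← d.fix_v, map_mul, hP, zero_mul]
  have hQ : χ (d.P 1 1) = 0 := by
    have h11 : χ (diag d.P) * χ (d.P 1 1) = 0 := by simpa [h01] using (hm 1 0 0 1).symm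
    have h := hm 1 1 1 1
    rw [if_pos rfl, h11] at h
    exact mul_self_eq_zero.1 h
  have h := congrArg χ d.star_mul_v
  simp [diag, hP, hQ, hv] at h

/-- Without characters some separable unital subalgebra carries a seed. -/
theorem exists_seed (hOrth : OrthStatement) (hGlimm : GlimmStatement) (hSeed : SeedStatement)
    {F : Type} [CStarAlgebra F] (hF : HasCopies F) (h : NoCharacter F) :
    ∃ s : Set F, s.Countable ∧ ∃ k, Nonempty (Seed (Cl s) k) := by
  obtain ⟨s₀, hs₀, N, x, hx, hfull⟩ := start_of F h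
  let x' : Fin (N + 1) → Cl s₀ := Fin.cons 0 x
  have hx' : ∀ c, IsSelfAdjoint (x' c) := Fin.cases (.zero _) fun c => by simpa [x'] using hx c
  have hfull' : Full (⋃ c, ⋃ d, {x' c * x' d - x' d * x' c}) := by
    refine hfull.mono ?_
    simp only [Set.iUnion_subset_iff, Set.singleton_subset_iff, Set.mem_iUnion,
      Set.mem_singleton_iff]
    exact fun c d => ⟨c.succ, d.succ, by simp [x']⟩
  obtain ⟨s₁, hs₁, κ₁, hκ₁⟩ := exists_generating hF hs₀ (2 * (N + 1))
  obtain ⟨H, hH, hHfull⟩ := nonScalar_of _ (N + 1) x' N.succ_pos hx' hfull' _ κ₁ hκ₁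
  obtain ⟨M, hM⟩ := hOrth _ H hH hHfull
  obtain ⟨s₂, hs₂, κ₂, hκ₂⟩ := exists_generating hF hs₁ M
  obtain ⟨a, b, ha, hb, hab, hafull, hbfull⟩ := hM _ κ₂ hκ₂
  obtain ⟨m, hm⟩ := hGlimm _ a b ha hb hab hafull hbfull
  obtain ⟨s₃, hs₃, κ₃, hκ₃⟩ := exists_generating hF hs₂ m
  obtain ⟨y, hy, hyfull⟩ := hm _ κ₃ hκ₃
  exact ⟨s₃, hs₃, hSeed _ y hy hyfull⟩

/-- The chain of all steps. -/
theorem core_of_steps (hOrth : OrthStatement) (hGlimm : GlimmStatement) (hSeed : SeedStatement)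
    (hCover : CoverStatement) : CoreStatement := by
  intro F _ hF h
  obtain ⟨s, hs, k, ⟨σ⟩⟩ := exists_seed hOrth hGlimm hSeed hF h
  obtain ⟨κ⟩ := hF s hs (k * k + 1)
  exact hCover _ F k σ κ

end Vale.Agent.P101.KR
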