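import Vale.Agent.P101.KR.Base

/-!
# P101, step 3: two orthogonal full elements give a full element of square zero

`ideal (a B b)` is everything, so finitely many `a u b` generate. Patterns in `a, b` on further
positions give orthogonal multipliers avoiding every maximal ideal.
-/

namespace Vale.Agent.P101.KR

open TwoSidedIdeal

variable {B D : Type*} [CStarAlgebra B] [CStarAlgebra D]

/-- Two full elements with anything in between generate. -/
lemma full_sandwich {a b : B} (ha : Full {a}) (hb : Full {b}) :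
    Full (Set.range fun u => a * u * b) := by
  obtain ⟨ι, _, p, q, z, hz, hp⟩ := ha.exists_sum
  obtain ⟨κ, _, p', q', z', hz', hq⟩ := hb.exists_sum
  have h : ∑ i, ∑ j, p i * z i * q i * (p' j * z' j * q' j) = 1 := by
    rw [← Finset.sum_mul_sum, hp, hq, one_mul]
  rw [Full, ← h]
  refine finsetSum_mem _ _ _ fun i _ => finsetSum_mem _ _ _ fun j _ => ?_
  rw [Set.mem_singleton_iff.1 (hz i), Set.mem_singleton_iff.1 (hz' j),
    show p i * a * q i * (p' j * b * q' j) = p i * (a * (q i * p' j) * b) * q' j by noncomm_ring]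
  exact mul_mem_right _ _ _ (mul_mem_left _ _ _ (subset_span ⟨_, rfl⟩))

variable {m : ℕ}

/-- Products over distinct positions multiply positionwise. -/
lemma Copies.prod_mul_prod (κ : Copies B D m) (f g : Fin m → B) (l : List (Fin m))
    (hl : l.Nodup) :
    (l.map fun i => κ.hom i (f i)).prod * (l.map fun i => κ.hom i (g i)).prod =
      (l.map fun i => κ.hom i (f i * g i)).prod := by
  induction l with
  | nil => simp
  | cons i l ih =>
    rw [List.nodup_cons] at hl
    have hc : Commute (κ.hom i (g i)) (l.map fun j => κ.hom j (f j)).prod := by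
      refine Commute.list_prod_right _ _ fun x hx => ?_
      obtain ⟨j, hj, rfl⟩ := List.mem_map.1 hx
      exact κ.comm i j (fun e => hl.1 (e ▸ hj)) _ _
    simp only [List.map_cons, List.prod_cons]
    rw [map_mul, ← ih hl.2, mul_assoc (κ.hom i (f i)), mul_assoc (κ.hom i (f i)), ← mul_assoc _ (κ.hom i (g i)),
      ← hc.eq, mul_assoc]

/-- Step 3: a full element of square zero. -/
theorem glimm_of : GlimmStatement := by
  intro B _ a b ha hb hab hfa hfb
  have hba : b * a = 0 := by
    simpa [star_mul, ha.star_eq, hb.star_eq] using congrArg star hab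
  obtain ⟨ι, _, c, d, z, hz, hsum⟩ := (full_sandwich hfa hfb).exists_sum
  classical
  let e := Fintype.equivFin ι
  refine ⟨Fintype.card ι + 1, fun D _ κ hκ => ?_⟩
  let pat : ι → Fin (Fintype.card ι + 1) → B := fun r l => if l = (e r).succ then a else b
  let L : List (Fin (Fintype.card ι + 1)) := List.ofFn Fin.succ
  have hL : L.Nodup := List.nodup_ofFn.2 (Fin.succ_injective _)
  let E : ι → D := fun r => (L.map fun l => κ.hom l (pat r l)).prod
  let Z : ι → D := fun r => κ.hom 0 (z r)
  have hE : ∀ r, E r ∈ κ.alg ({0}ᶜ) := fun r => by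
    refine list_prod_mem fun x hx => ?_
    obtain ⟨l, hl, rfl⟩ := List.mem_map.1 hx
    obtain ⟨j, rfl⟩ := (List.mem_ofFn' _ _).1 hl
    exact κ.hom_mem_alg (Fin.succ_ne_zero j) _
  have hZ : ∀ r, Z r ∈ κ.alg {0} := fun r => κ.hom_mem_alg (Set.mem_singleton _) _
  have hcomm : ∀ r s, Commute (Z r) (E s) := fun r s =>
    κ.commute_alg disjoint_compl_right (hZ r) (hE s)
  have hEE : ∀ r s, r ≠ s → E r * E s = 0 := fun r s hrs => by
    simp only [E]
    rw [κ.prod_mul_prod _ _ L hL]
    refine List.prod_eq_zero (List.mem_map.2 ⟨(e r).succ, (List.mem_ofFn' _ _).2 ⟨e r, rfl⟩, ?_⟩)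
    simp [pat, hrs, hab]
  have hZZ : ∀ r s, Z r * Z s = 0 := fun r s => by
    obtain ⟨u, hu⟩ := hz r
    obtain ⟨v, hv⟩ := hz s
    simp only [Z, ← map_mul, ← hu, ← hv]
    rw [show a * u * b * (a * v * b) = a * u * (b * a) * v * b by noncomm_ring, hba]
    simp
  refine ⟨∑ r, Z r * E r, ?_, full_singleton_iff.2 fun I hI hy => ?_⟩
  · rw [Finset.sum_mul_sum]
    refine Finset.sum_eq_zero fun r _ => Finset.sum_eq_zero fun s _ => ?_
    rw [mul_assoc (Z r), ← mul_assoc (E r), ← (hcomm s r).eq, ← mul_assoc, ← mul_assoc,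
      hZZ r s]
    simp
  have hsquare : ∀ r, E r * E r ∉ I := fun r => by
    simp only [E]
    rw [κ.prod_mul_prod _ _ L hL]
    refine hκ.prod_notMem hI _ L hL fun l _ hmem => ?_
    have hsa : IsSelfAdjoint (pat r l) := by
      simp only [pat]; split <;> assumption
    have hfull : Full {pat r l} := by
      simp only [pat]; split <;> assumption
    refine hI.notMem_of_full (a := κ.hom l (pat r l)) ?_ (hI.mem_of_star_mul_self ?_)
    · simpa using hfull.image (κ.hom l)
    · rwa [← map_star, ← map_mul, hsa.star_eq]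
  have hZI : ∀ r, Z r ∈ I := fun r => by
    have h : Z r * (E r * E r) ∈ I := by
      rw [show Z r * (E r * E r) = (∑ s, Z s * E s) * E r from ?_]
      · exact I.mul_mem_right _ _ hy
      rw [Finset.sum_mul, Finset.sum_eq_single r (fun s _ hs => by
        rw [mul_assoc, hEE s r hs, mul_zero]) (fun h => absurd (Finset.mem_univ r) h), mul_assoc]
    exact (hκ.prime hI disjoint_compl_right (Set.union_compl_self _) (hZ r)
      (mul_mem (hE r) (hE r)) h).resolve_right (hsquare r)
  refine hI.one_notMem ?_
  rw [← map_one (κ.hom 0), ← hsum, map_sum]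
  refine finsetSum_mem _ _ _ fun r _ => ?_
  rw [map_mul, map_mul]
  exact I.mul_mem_right _ _ (I.mul_mem_left _ _ (hZI r))

end Vale.Agent.P101.KR
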