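import Vale.Agent.P101.KR.Base

/-!
# P101: two orthogonal full elements (step 2 of the note)
-/

open Set
open scoped CStarAlgebra
open CStarAlgebra

namespace Vale.Agent.P101.KR

noncomputable section

/-- A ramp from `0` at `z - δ` to `1` at `z`. -/
def rampFn (δ z t : ℝ) : ℝ := max 0 (min 1 ((t - z) / δ + 1))

/-- The `j`-th hat of the grid `a + jδ`. -/
def hatFn (δ a : ℝ) (j : ℕ) (t : ℝ) : ℝ := rampFn δ (a + j * δ) t - rampFn δ (a + (j + 1 : ℕ) * δ) t

/-- A plateau equal to `1` within `δ` of `z` and vanishing outside `2δ`. -/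
def plateauFn (δ z t : ℝ) : ℝ := max 0 (min 1 (2 - |t - z| / δ))

theorem continuous_rampFn (δ z : ℝ) : Continuous (rampFn δ z) := by unfold rampFn; fun_prop

theorem continuous_hatFn (δ a : ℝ) (j : ℕ) : Continuous (hatFn δ a j) := by
  unfold hatFn rampFn; fun_prop

theorem continuous_plateauFn (δ z : ℝ) : Continuous (plateauFn δ z) := by
  unfold plateauFn; fun_prop

theorem rampFn_eq_zero {δ z t : ℝ} (hδ : 0 < δ) (h : t ≤ z - δ) : rampFn δ z t = 0 := by
  have : (t - z) / δ ≤ -1 := by rw [div_le_iff₀ hδ]; linarith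
  rw [rampFn, max_eq_left]
  exact min_le_of_right_le (by linarith)

theorem rampFn_eq_one {δ z t : ℝ} (hδ : 0 < δ) (h : z ≤ t) : rampFn δ z t = 1 := by
  have : 0 ≤ (t - z) / δ := div_nonneg (by linarith) hδ.le
  rw [rampFn, min_eq_left (by linarith), max_eq_right (by norm_num)]

theorem hatFn_nonneg {δ a : ℝ} (hδ : 0 < δ) (j : ℕ) (t : ℝ) : 0 ≤ hatFn δ a j t := by
  rw [hatFn, sub_nonneg]
  refine max_le_max le_rfl (min_le_min le_rfl ?_)
  gcongr
  push_cast
  linarith

theorem hatFn_eq_zero {δ a : ℝ} (hδ : 0 < δ) {j : ℕ} {t : ℝ} (h : δ ≤ |t - (a + j * δ)|) :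
    hatFn δ a j t = 0 := by
  rw [hatFn]
  push_cast
  rcases le_abs'.1 h with h | h
  · rw [rampFn_eq_zero hδ (by linarith), rampFn_eq_zero hδ (by linarith), sub_zero]
  · rw [rampFn_eq_one hδ (by linarith), rampFn_eq_one hδ (by linarith), sub_self]

theorem sum_hatFn {δ a : ℝ} (hδ : 0 < δ) {J : ℕ} {t : ℝ} (h0 : a ≤ t) (h1 : t ≤ a + J * δ) :
    ∑ j ∈ Finset.range (J + 1), hatFn δ a j t = 1 := by
  simp only [hatFn]
  rw [Finset.sum_range_sub' (fun j => rampFn δ (a + (j : ℕ) * δ) t),
    rampFn_eq_one hδ (by simpa using h0), rampFn_eq_zero hδ (by push_cast; linarith), sub_zero]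

theorem hatFn_le_one {δ a : ℝ} (hδ : 0 < δ) (j : ℕ) (t : ℝ) : hatFn δ a j t ≤ 1 := by
  rw [hatFn]
  have h1 : rampFn δ (a + j * δ) t ≤ 1 := max_le (by norm_num) (min_le_left _ _)
  have h2 : 0 ≤ rampFn δ (a + (j + 1 : ℕ) * δ) t := le_max_left _ _
  linarith

theorem plateauFn_eq_one {δ z t : ℝ} (hδ : 0 < δ) (h : |t - z| ≤ δ) : plateauFn δ z t = 1 := by
  have : |t - z| / δ ≤ 1 := by rwa [div_le_iff₀ hδ, one_mul]
  rw [plateauFn, min_eq_left (by linarith), max_eq_right (by norm_num)]

theorem abs_plateauFn_le (δ z t : ℝ) : |plateauFn δ z t| ≤ 1 := by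
  rw [plateauFn, abs_of_nonneg (le_max_left _ _)]
  exact max_le (by norm_num) (min_le_left _ _)

theorem plateauFn_mul_sub {δ z t : ℝ} (hδ : 0 < δ) : |plateauFn δ z t * (t - z)| ≤ 2 * δ := by
  rw [abs_mul]
  rcases le_or_gt |t - z| (2 * δ) with h | h
  · exact (mul_le_of_le_one_left (abs_nonneg _) (abs_plateauFn_le _ _ _)).trans h
  · have : 2 ≤ |t - z| / δ := by rw [le_div_iff₀ hδ]; linarith
    rw [plateauFn, max_eq_left (min_le_of_right_le (by linarith)), abs_zero, zero_mul]
    positivity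

/-- The positive part of a shifted sine. -/
def sinPos (σ t : ℝ) : ℝ := max (Real.sin (t + σ)) 0

theorem continuous_sinPos (σ : ℝ) : Continuous (sinPos σ) := by unfold sinPos; fun_prop

theorem sinPos_lipschitz (σ s t : ℝ) : |sinPos σ s - sinPos σ t| ≤ |s - t| := by
  refine (abs_max_sub_max_le_abs _ _ _).trans ?_
  have := Real.lipschitzWith_sin.dist_le_mul (s + σ) (t + σ)
  simpa [Real.dist_eq] using this

theorem sinPos_mul (t : ℝ) : sinPos 0 t * sinPos Real.pi t = 0 := by
  simp only [sinPos, add_zero, Real.sin_add_pi]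
  rcases le_total (Real.sin t) 0 with h | h
  · rw [max_eq_right h, zero_mul]
  · rw [max_eq_right (neg_nonpos.2 h), mul_zero]

theorem half_le_sin {θ : ℝ} (h1 : Real.pi / 6 ≤ θ) (h2 : θ ≤ Real.pi / 6 + 1) :
    1 / 2 ≤ Real.sin θ := by
  have hpi := Real.two_le_pi
  have hpi3 := Real.pi_gt_three
  rcases le_total θ (Real.pi / 2) with h | h
  · rw [← Real.sin_pi_div_six]
    exact Real.sin_le_sin_of_le_of_le_pi_div_two (by linarith) h h1
  · rw [← Real.sin_pi_div_six, ← Real.sin_pi_sub θ]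
    exact Real.sin_le_sin_of_le_of_le_pi_div_two (by linarith) (by linarith) (by linarith)

/-- A chain with steps at most one and length at least `8` meets every translate of `[a, a+1]`. -/
theorem chain_hit (a : ℝ) (c : ℕ → ℝ) (M : ℕ) (hstep : ∀ i < M, c (i + 1) ≤ c i + 1)
    (hlen : c 0 + 8 ≤ c M) :
    ∃ i ≤ M, ∃ k : ℤ, a + 2 * Real.pi * k ≤ c i ∧ c i ≤ a + 2 * Real.pi * k + 1 := by
  have hpi : (0 : ℝ) < 2 * Real.pi := by positivity
  have hpi4 := Real.pi_lt_four
  set k : ℤ := ⌈(c 0 - a) / (2 * Real.pi)⌉ with hk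
  have h1 : c 0 ≤ a + 2 * Real.pi * k := by
    have := (div_le_iff₀ hpi).1 (Int.le_ceil ((c 0 - a) / (2 * Real.pi)))
    rw [hk]; linarith
  have h2 : a + 2 * Real.pi * k ≤ c M := by
    have := Int.ceil_lt_add_one ((c 0 - a) / (2 * Real.pi))
    have h' := mul_lt_mul_of_pos_left this hpi
    rw [mul_add, mul_div_cancel₀ _ hpi.ne', ← hk] at h'
    linarith
  classical
  have hex : ∃ i, a + 2 * Real.pi * k ≤ c i := ⟨M, h2⟩
  refine ⟨Nat.find hex, Nat.find_le h2, k, Nat.find_spec hex, ?_⟩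
  rcases Nat.eq_zero_or_pos (Nat.find hex) with h0 | h0
  · rw [h0]; linarith
  · obtain ⟨i, hi⟩ := Nat.exists_eq_add_of_le' h0
    have hlt : ¬ a + 2 * Real.pi * k ≤ c i := Nat.find_min hex (by omega)
    have := hstep i (by have := Nat.find_le (h := hex) h2; omega)
    rw [hi]; push Not at hlt
    linarith

section

variable {D : Type} [CStarAlgebra D]

theorem norm_prod_mul_le {m : ℕ} (f : Fin m → D) (y : D) (i : Fin m) (hf : ∀ j, ‖f j‖ ≤ 1)
    (hy : ∀ j, j ≠ i → Commute (f j) y) (l : List (Fin m)) (hl : l.Nodup) (hi : i ∈ l) :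
    ‖(l.map f).prod * y‖ ≤ ‖f i * y‖ := by
  induction l with
  | nil => simp at hi
  | cons j l ih =>
    rw [List.nodup_cons] at hl
    rw [List.map_cons, List.prod_cons, mul_assoc]
    have hrest : ∀ l : List (Fin m), ‖(l.map f).prod * (f i * y)‖ ≤ ‖f i * y‖ := fun l => by
      induction l with
      | nil => simp
      | cons k l ih =>
        rw [List.map_cons, List.prod_cons, mul_assoc]
        exact (norm_mul_le _ _).trans (le_trans (mul_le_mul_of_nonneg_right (hf k) (norm_nonneg _))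
          (by rw [one_mul]; exact ih))
    rcases eq_or_ne j i with rfl | hji
    · have hc : Commute (l.map f).prod y := Commute.list_prod_left _ _ (by
        simp only [List.mem_map]
        rintro _ ⟨k, hk, rfl⟩
        exact hy k fun e => hl.1 (e ▸ hk))
      rw [hc.eq, ← mul_assoc]
      refine (norm_mul_le _ _).trans (mul_le_of_le_one_right (norm_nonneg _) ?_)
      clear hc hi ih hl hrest
      induction l with
      | nil => simp only [List.map_nil, List.prod_nil]
               rcases subsingleton_or_nontrivial D with _ | _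
               · simp [Subsingleton.elim (1 : D) 0]
               · exact CStarRing.norm_one.le
      | cons k l ih =>
        rw [List.map_cons, List.prod_cons]
        exact (norm_mul_le _ _).trans (mul_le_one₀ (hf k) (norm_nonneg _) ih)
    · refine (norm_mul_le _ _).trans (le_trans (mul_le_mul_of_nonneg_right (hf j) (norm_nonneg _)) ?_)
      rw [one_mul]
      exact ih hl.2 ((List.mem_cons.1 hi).resolve_left (Ne.symm hji))

theorem norm_prod_le_one {m : ℕ} (f : Fin m → D) (hf : ∀ j, ‖f j‖ ≤ 1) (l : List (Fin m)) :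
    ‖(l.map f).prod‖ ≤ 1 := by
  induction l with
  | nil =>
    simp only [List.map_nil, List.prod_nil]
    rcases subsingleton_or_nontrivial D with _ | _
    · simp [Subsingleton.elim (1 : D) 0]
    · exact CStarRing.norm_one.le
  | cons k l ih =>
    rw [List.map_cons, List.prod_cons]
    exact (norm_mul_le _ _).trans (mul_le_one₀ (hf k) (norm_nonneg _) ih)

theorem prod_mul_prod {m : ℕ} (f g : Fin m → D) (h : ∀ i j, i ≠ j → Commute (g i) (f j))
    (l : List (Fin m)) (hl : l.Nodup) :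
    (l.map f).prod * (l.map g).prod = (l.map fun i => f i * g i).prod := by
  induction l with
  | nil => simp
  | cons j l ih =>
    rw [List.nodup_cons] at hl
    simp only [List.map_cons, List.prod_cons]
    have hc : Commute (g j) (l.map f).prod := Commute.list_prod_right _ _ (by
      simp only [List.mem_map]
      rintro _ ⟨k, hk, rfl⟩
      exact h j k fun e => hl.1 (e ▸ hk))
    rw [← ih hl.2, mul_assoc (f j), ← mul_assoc (l.map f).prod, ← hc.eq]
    noncomm_ring

end

variable {B : Type} [CStarAlgebra B]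

theorem abs_le_norm_of_mem_spectrum {H : B} {t : ℝ} (ht : t ∈ spectrum ℝ H) : |t| ≤ ‖H‖ := by
  rcases subsingleton_or_nontrivial B with hB | hB
  · rw [spectrum.of_subsingleton] at ht
    exact absurd ht (notMem_empty t)
  · exact spectrum.norm_le_norm_of_mem ht

theorem sum_cfc_hatFn {H : B} (hH : IsSelfAdjoint H) {δ : ℝ} (hδ : 0 < δ) {J : ℕ}
    (hJ : 2 * ‖H‖ ≤ J * δ) :
    ∑ j ∈ Finset.range (J + 1), cfc (hatFn δ (-‖H‖) j) H = 1 := by
  have hc : ∀ j, ContinuousOn (hatFn δ (-‖H‖) j) (spectrum ℝ H) := fun j =>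
    (continuous_hatFn _ _ _).continuousOn
  rw [← cfc_sum (hatFn δ (-‖H‖)) H _ fun j _ => hc j, ← cfc_const_one ℝ H hH]
  refine cfc_congr fun t ht => ?_
  have := abs_le.1 (abs_le_norm_of_mem_spectrum ht)
  rw [Finset.sum_apply, sum_hatFn hδ this.1 (by linarith)]

/-- In a maximal ideal, the hats which survive spread over more than `2η`. -/
theorem exists_far_nodes {ι : Type} [Fintype ι] {H : B} (hH : IsSelfAdjoint H) (a b c : ι → B)
    (hsum : ∑ i, a i * (H * c i - c i * H) * b i = 1) {δ η : ℝ} (hδ : 0 < δ) (hη : 0 ≤ η)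
    (hK : 2 * (∑ i, ‖a i‖ * ‖c i‖ * ‖b i‖) * (η + δ) < 1) {J : ℕ} (hJ : 2 * ‖H‖ ≤ J * δ)
    {D : Type} [CStarAlgebra D] (φ : B →⋆ₐ[ℂ] D) {I : TwoSidedIdeal D} (hI : IsMax I) :
    ∃ i ≤ J, ∃ j ≤ J, φ (cfc (hatFn δ (-‖H‖) i) H) ∉ I ∧ φ (cfc (hatFn δ (-‖H‖) j) H) ∉ I ∧
      2 * η ≤ (j : ℝ) * δ - (i : ℝ) * δ := by
  classical
  set A := -‖H‖ with hA
  set u : ℕ → B := fun j => cfc (hatFn δ A j) H with hu
  set S := (Finset.range (J + 1)).filter fun j => φ (u j) ∉ I with hS
  have hsum1 : ∑ j ∈ Finset.range (J + 1), u j = 1 := sum_cfc_hatFn hH hδ hJ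
  have hne : S.Nonempty := by
    by_contra h
    refine hI.one_notMem ?_
    rw [← map_one φ, ← hsum1, map_sum]
    refine TwoSidedIdeal.finsetSum_mem _ _ _ fun j hj => ?_
    by_contra hjI
    exact h ⟨j, Finset.mem_filter.2 ⟨hj, hjI⟩⟩
  obtain ⟨i₀, hi₀, hmin⟩ := Finset.exists_min_image S (fun j => (j : ℝ)) hne
  obtain ⟨j₀, hj₀, hmax⟩ := Finset.exists_max_image S (fun j => (j : ℝ)) hne
  have hiJ : i₀ ≤ J := Nat.lt_succ_iff.1 (Finset.mem_range.1 (Finset.mem_filter.1 hi₀).1)
  have hjJ : j₀ ≤ J := Nat.lt_succ_iff.1 (Finset.mem_range.1 (Finset.mem_filter.1 hj₀).1)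
  refine ⟨i₀, hiJ, j₀, hjJ, (Finset.mem_filter.1 hi₀).2, (Finset.mem_filter.1 hj₀).2, ?_⟩
  by_contra! hclose
  -- the element `H` is close to a scalar modulo `I`
  set lam : ℝ := A + ((i₀ : ℝ) + j₀) / 2 * δ with hlam
  set f : ℝ → ℝ := fun t => (t - lam) * ∑ j ∈ S, hatFn δ A j t with hf
  set e : B := cfc f H with he
  have hfc : Continuous f := by
    rw [hf]
    exact (continuous_id.sub continuous_const).mul (continuous_finsetSum S fun j _ => continuous_hatFn δ A j)
  have henorm : ‖e‖ ≤ η + δ := by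
    refine norm_cfc_le (by linarith) fun t ht => ?_
    rw [Real.norm_eq_abs, hf, abs_mul]
    by_cases hz : ∀ j ∈ S, hatFn δ A j t = 0
    · rw [Finset.sum_eq_zero hz, abs_zero, mul_zero]; linarith
    · push Not at hz
      obtain ⟨j, hj, hjt⟩ := hz
      have hnear : |t - (A + j * δ)| < δ := not_le.1 fun h => hjt (hatFn_eq_zero hδ h)
      have hle : ∑ j ∈ S, hatFn δ A j t ≤ 1 := by
        have hb := abs_le.1 (abs_le_norm_of_mem_spectrum ht)
        rw [← sum_hatFn hδ (J := J) (a := A) (t := t) hb.1 (by rw [hA]; linarith)]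
        exact Finset.sum_le_sum_of_subset_of_nonneg (Finset.filter_subset _ _)
          fun k _ _ => hatFn_nonneg hδ k t
      have h0 : 0 ≤ ∑ j ∈ S, hatFn δ A j t := Finset.sum_nonneg fun k _ => hatFn_nonneg hδ k t
      rw [abs_of_nonneg h0]
      refine (mul_le_of_le_one_right (abs_nonneg _) hle).trans (abs_le.2 ?_)
      have hlo := mul_le_mul_of_nonneg_right (hmin j hj) hδ.le
      have hhi := mul_le_mul_of_nonneg_right (hmax j hj) hδ.le
      rw [abs_lt] at hnear
      rw [hlam]
      constructor <;> nlinarith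
  have hzI : φ (H - algebraMap ℝ B lam - e) ∈ I := by
    have e1 : H - algebraMap ℝ B lam - e
        = (H - algebraMap ℝ B lam) * ∑ j ∈ (Finset.range (J + 1)).filter (fun j => ¬ φ (u j) ∉ I), u j := by
      have hlin : cfc (fun t : ℝ => t - lam) H = H - algebraMap ℝ B lam := by
        rw [cfc_sub (fun t : ℝ => t) (fun _ => lam) H continuousOn_id continuousOn_const,
          cfc_id' ℝ H hH, cfc_const lam H hH]
      have he' : e = (H - algebraMap ℝ B lam) * ∑ j ∈ S, u j := by
        rw [he, hf, cfc_mul (fun t : ℝ => t - lam) (fun t => ∑ j ∈ S, hatFn δ A j t) H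
          (continuous_id.sub continuous_const).continuousOn
          (continuous_finsetSum S fun j _ => continuous_hatFn δ A j).continuousOn, hlin]
        congr 1
        rw [← cfc_sum (hatFn δ A) H S fun j _ => (continuous_hatFn _ _ _).continuousOn]
        exact cfc_congr fun t _ => (Finset.sum_apply t S _).symm
      rw [he', sub_eq_iff_eq_add, ← mul_add, add_comm, hS, Finset.sum_filter_add_sum_filter_not,
        hsum1, mul_one]
    rw [e1, map_mul, map_sum]
    refine I.mul_mem_left _ _ (TwoSidedIdeal.finsetSum_mem _ _ _ fun j hj => ?_)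
    exact not_not.1 (Finset.mem_filter.1 hj).2
  set w := ∑ i, a i * (e * c i - c i * e) * b i with hw
  have h1w : 1 - φ w ∈ I := by
    have e2 : (1 : B) - w = ∑ i, a i * ((H - algebraMap ℝ B lam - e) * c i
        - c i * (H - algebraMap ℝ B lam - e)) * b i := by
      rw [← hsum, hw, ← Finset.sum_sub_distrib]
      refine Finset.sum_congr rfl fun i _ => ?_
      have hc : algebraMap ℝ B lam * c i = c i * algebraMap ℝ B lam := Algebra.commutes lam (c i)
      simp only [sub_mul, mul_sub]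
      rw [hc]
      abel
    rw [← map_one φ, ← map_sub, e2, map_sum]
    refine TwoSidedIdeal.finsetSum_mem _ _ _ fun i _ => ?_
    rw [map_mul, map_mul, map_sub φ ((H - algebraMap ℝ B lam - e) * c i), map_mul, map_mul φ (c i)]
    exact I.mul_mem_right _ _ (I.mul_mem_left _ _ (I.sub_mem (I.mul_mem_right _ _ hzI)
      (I.mul_mem_left _ _ hzI)))
  have hlt : ‖φ w‖ < 1 := by
    refine lt_of_le_of_lt ((NonUnitalStarAlgHom.norm_apply_le φ w).trans ?_) hK
    rw [mul_assoc, Finset.sum_mul, Finset.mul_sum]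
    refine (norm_sum_le _ _).trans (Finset.sum_le_sum fun i _ => ?_)
    calc ‖a i * (e * c i - c i * e) * b i‖ ≤ ‖a i‖ * (‖e‖ * ‖c i‖ + ‖c i‖ * ‖e‖) * ‖b i‖ := by
          refine (norm_mul_le _ _).trans (mul_le_mul_of_nonneg_right ?_ (norm_nonneg _))
          refine (norm_mul_le _ _).trans (mul_le_mul_of_nonneg_left ?_ (norm_nonneg _))
          exact (norm_sub_le _ _).trans (add_le_add (norm_mul_le _ _) (norm_mul_le _ _))
      _ = 2 * (‖a i‖ * ‖c i‖ * ‖b i‖ * ‖e‖) := by ring
      _ ≤ 2 * (‖a i‖ * ‖c i‖ * ‖b i‖ * (η + δ)) := by gcongr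
  have := hI.one_le_norm h1w
  rw [sub_sub_cancel] at this
  linarith

theorem isUnit_algebraMap_sub {D : Type} [CStarAlgebra D] {c : ℝ} {k : D} (h : ‖k‖ < c) :
    IsUnit (algebraMap ℝ D c - k) := by
  have hc : 0 < c := (norm_nonneg k).trans_lt h
  have h1 : ‖(c⁻¹ : ℝ) • k‖ < 1 := by
    rw [norm_smul, Real.norm_eq_abs, abs_of_pos (inv_pos.2 hc), ← div_eq_inv_mul, div_lt_one hc]
    exact h
  have h2 := (isUnit_one_sub_of_norm_lt_one h1)
  have e : algebraMap ℝ D c - k = algebraMap ℝ D c * (1 - (c⁻¹ : ℝ) • k) := by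
    rw [mul_sub, mul_one, ← Algebra.smul_def, smul_smul, mul_inv_cancel₀ hc.ne', one_smul]
  rw [e]
  exact ((IsUnit.mk0 c hc.ne').map _).mul h2

/-- Step 2: two orthogonal full elements. -/
theorem orth_of : OrthStatement := by
  intro B _ H hH hfull
  obtain ⟨ι, _, a, b, z, hz, hsum⟩ := hfull.exists_sum
  choose c hc using hz
  simp only [← hc] at hsum
  set K : ℝ := ∑ i, ‖a i‖ * ‖c i‖ * ‖b i‖ with hK
  have hK0 : 0 ≤ K := Finset.sum_nonneg fun i _ => by positivity
  set η : ℝ := 1 / (8 * (K + 1)) with hη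
  have hη0 : 0 < η := by positivity
  set t : ℝ := 1 / (2 * (‖H‖ + 1)) with ht
  have ht0 : 0 < t := by positivity
  obtain ⟨M, hM⟩ := exists_nat_ge (8 / (t * (2 * η)))
  refine ⟨M, fun D _ κ hκ => ?_⟩
  set δ : ℝ := min η (min 1 (1 / (16 * t * (M + 1)))) with hδ
  have hδ0 : 0 < δ := by positivity
  have hKd : 2 * K * (η + δ) < 1 := by
    have : δ ≤ η := min_le_left _ _
    have h8 : η * (8 * (K + 1)) = 1 := by rw [hη]; field_simp
    nlinarith
  obtain ⟨J, hJ, hJ'⟩ : ∃ J : ℕ, 2 * ‖H‖ ≤ J * δ ∧ (J : ℝ) * δ ≤ 2 * ‖H‖ + δ := by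
    refine ⟨⌈2 * ‖H‖ / δ⌉₊, (div_le_iff₀ hδ0).1 (Nat.le_ceil _), ?_⟩
    have := (Nat.ceil_lt_add_one (a := 2 * ‖H‖ / δ) (by positivity)).le
    have := mul_le_mul_of_nonneg_right this hδ0.le
    rwa [add_mul, one_mul, div_mul_cancel₀ _ hδ0.ne'] at this
  set h : Fin M → D := fun l => κ.hom l H with hh
  set S : D := t • ∑ l, h l with hS
  have hSsa : IsSelfAdjoint S := by
    have : IsSelfAdjoint (∑ l, h l) := by
      rw [IsSelfAdjoint, star_sum]
      exact Finset.sum_congr rfl fun l _ => by rw [hh, ← map_star, hH.star_eq]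
    exact IsSelfAdjoint.smul (star_trivial t) this
  have key : ∀ σ : ℝ, ∀ I : TwoSidedIdeal D, IsMax I → cfc (sinPos σ) S ∉ I := by
    intro σ I hI hmem
    have hnodes := fun l => exists_far_nodes hH a b c hsum hδ0 hη0.le hKd hJ (κ.hom l) hI
    choose i hiJ j hjJ hiI hjI hfar using hnodes
    set x : Fin M → ℝ := fun l => -‖H‖ + i l * δ with hx
    set y : Fin M → ℝ := fun l => -‖H‖ + j l * δ with hy
    set ch : ℕ → ℝ := fun n => t * ∑ l : Fin M, if (l : ℕ) < n then y l else x l with hch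
    have hstep : ∀ n < M, ch (n + 1) ≤ ch n + 1 := by
      intro n hn
      have e : ch (n + 1) - ch n = t * (y ⟨n, hn⟩ - x ⟨n, hn⟩) := by
        simp only [hch, ← mul_sub, ← Finset.sum_sub_distrib]
        rw [Finset.sum_eq_single (⟨n, hn⟩ : Fin M) (fun l _ hl => by
          have : (l : ℕ) ≠ n := fun e => hl (Fin.ext e)
          by_cases hln : (l : ℕ) < n
          · simp [hln, Nat.lt_succ_of_lt hln]
          · simp [hln, show ¬ (l : ℕ) < n + 1 by omega]) (by simp)]
        simp
      have hw : y ⟨n, hn⟩ - x ⟨n, hn⟩ ≤ 2 * ‖H‖ + 1 := by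
        simp only [hx, hy]
        have h1 : (j ⟨n, hn⟩ : ℝ) * δ ≤ J * δ :=
          mul_le_mul_of_nonneg_right (Nat.cast_le.2 (hjJ _)) hδ0.le
        have h2 : 0 ≤ (i ⟨n, hn⟩ : ℝ) * δ := by positivity
        have h3 : δ ≤ 1 := (min_le_right _ _).trans (min_le_left _ _)
        linarith
      have ht2 : t * (2 * (‖H‖ + 1)) = 1 := by rw [ht]; field_simp
      nlinarith
    have hlen : ch 0 + 8 ≤ ch M := by
      have e : ch M - ch 0 = t * ∑ l, (y l - x l) := by
        simp only [hch, ← mul_sub, ← Finset.sum_sub_distrib]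
        congr 1
        exact Finset.sum_congr rfl fun l _ => by simp [l.isLt]
      have h1 : (M : ℝ) * (2 * η) ≤ ∑ l, (y l - x l) := by
        have := Finset.sum_le_sum (s := Finset.univ) (f := fun _ : Fin M => 2 * η)
          (g := fun l => y l - x l) fun l _ => by
            simp only [hx, hy]; linarith [hfar l]
        simpa using this
      rw [div_le_iff₀ (by positivity)] at hM
      nlinarith
    obtain ⟨n, -, k, hn1, hn2⟩ := chain_hit (Real.pi / 6 - σ) ch M hstep hlen
    set s₀ := ch n with hs₀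
    have hval : 1 / 2 ≤ sinPos σ s₀ := by
      refine le_max_of_le_left ?_
      rw [← Real.sin_sub_int_mul_two_pi (s₀ + σ) k]
      exact half_le_sin (by linarith) (by linarith)
    set p : Fin M → ℕ := fun l => if (l : ℕ) < n then j l else i l with hp
    have hpI : ∀ l, κ.hom l (cfc (hatFn δ (-‖H‖) (p l)) H) ∉ I := fun l => by
      simp only [hp]; split_ifs
      · exact hjI l
      · exact hiI l
    set pz : Fin M → ℝ := fun l => -‖H‖ + p l * δ with hpz
    have hs₀p : s₀ = t * ∑ l, pz l := by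
      simp only [hs₀, hch, hpz, hp, hx, hy]
      congr 1
      refine Finset.sum_congr rfl fun l _ => ?_
      split_ifs <;> rfl
    set L := List.finRange M with hL
    have hLn : L.Nodup := List.nodup_finRange M
    set Q : D := (L.map fun l => κ.hom l (cfc (hatFn δ (-‖H‖) (p l)) H)).prod with hQ
    set pf : Fin M → D := fun l => κ.hom l (cfc (plateauFn δ (pz l)) H) with hpf
    set P : D := (L.map pf).prod with hP
    have hpf1 : ∀ l, ‖pf l‖ ≤ 1 := fun l =>
      (NonUnitalStarAlgHom.norm_apply_le (κ.hom l) _).trans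
        (norm_cfc_le zero_le_one fun s _ => by rw [Real.norm_eq_abs]; exact abs_plateauFn_le _ _ _)
    have hQP : Q * P = Q := by
      rw [hQ, hP, prod_mul_prod _ _ (fun l l' hll' => κ.comm l l' hll' _ _) L hLn]
      refine congrArg List.prod (List.map_congr_left fun l _ => ?_)
      rw [← map_mul, ← cfc_mul _ _ H (continuous_hatFn _ _ _).continuousOn
        (continuous_plateauFn _ _).continuousOn]
      refine congrArg (κ.hom l) (cfc_congr fun s _ => ?_)
      rcases le_or_gt δ |s - pz l| with hd | hd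
      · rw [hatFn_eq_zero hδ0 hd, zero_mul]
      · rw [plateauFn_eq_one hδ0 hd.le, mul_one]
    have hPS : ‖P * (S - algebraMap ℝ D s₀)‖ ≤ 1 / 8 := by
      have e : S - algebraMap ℝ D s₀ = t • ∑ l, κ.hom l (H - algebraMap ℝ B (pz l)) := by
        have hal : ∀ (l : Fin M) (r : ℝ), κ.hom l (algebraMap ℝ B r) = algebraMap ℝ D r := fun l r => by
          rw [IsScalarTower.algebraMap_apply ℝ ℂ B, AlgHomClass.commutes,
            ← IsScalarTower.algebraMap_apply]
        rw [hs₀p, map_mul, ← Algebra.smul_def, map_sum, hS, ← smul_sub, ← Finset.sum_sub_distrib]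
        exact congrArg _ (Finset.sum_congr rfl fun l _ => by rw [map_sub, hal, hh])
      rw [e, mul_smul_comm, norm_smul, Real.norm_eq_abs, abs_of_pos ht0, Finset.mul_sum]
      have hterm : ∀ l, ‖P * κ.hom l (H - algebraMap ℝ B (pz l))‖ ≤ 2 * δ := fun l => by
        refine (norm_prod_mul_le pf _ l hpf1 (fun l' hl' => κ.comm l' l hl' _ _) L hLn
          (List.mem_finRange l)).trans ?_
        rw [hpf, ← map_mul]
        refine (NonUnitalStarAlgHom.norm_apply_le (κ.hom l) _).trans ?_
        have hlin : cfc (fun s : ℝ => s - pz l) H = H - algebraMap ℝ B (pz l) := by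
          rw [cfc_sub (fun s : ℝ => s) (fun _ => pz l) H continuousOn_id continuousOn_const,
            cfc_id' ℝ H hH, cfc_const (pz l) H hH]
        rw [← hlin, ← cfc_mul (plateauFn δ (pz l)) (fun s : ℝ => s - pz l) H
          (continuous_plateauFn _ _).continuousOn (continuous_id.sub continuous_const).continuousOn]
        exact norm_cfc_le (by positivity) fun s _ => by
          rw [Real.norm_eq_abs]; exact plateauFn_mul_sub hδ0
      have hsum' := (norm_sum_le (Finset.univ : Finset (Fin M)) _).trans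
        (Finset.sum_le_sum fun l _ => hterm l)
      refine (mul_le_mul_of_nonneg_left hsum' ht0.le).trans ?_
      simp only [Finset.sum_const, Finset.card_univ, Fintype.card_fin, nsmul_eq_mul]
      have h16 : δ * (16 * t * (M + 1)) ≤ 1 :=
        (le_div_iff₀ (by positivity)).1 ((min_le_right _ _).trans (min_le_right _ _))
      nlinarith
    set g₀ := sinPos σ s₀ with hg₀
    set cf : ℝ → ℝ := fun s => g₀ - sinPos σ s with hcf
    set rf : ℝ → ℝ := fun s => cf s * (s - s₀) / max ((s - s₀) ^ 2) ((1 / 8) ^ 2) with hrf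
    have hpos : ∀ s : ℝ, 0 < max ((s - s₀) ^ 2) ((1 / 8 : ℝ) ^ 2) := fun s =>
      lt_max_of_lt_right (by norm_num)
    have hcfc : Continuous cf := continuous_const.sub (continuous_sinPos σ)
    have hrfc : Continuous rf := (hcfc.mul (continuous_id.sub continuous_const)).div
      (((continuous_id.sub continuous_const).pow 2).max continuous_const) fun s => (hpos s).ne'
    have hcabs : ∀ s, |cf s| ≤ |s - s₀| := fun s => by
      rw [abs_sub_comm s]; exact sinPos_lipschitz σ s₀ s
    have hr1 : ‖cfc rf S‖ ≤ 1 := by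
      refine norm_cfc_le zero_le_one fun s _ => ?_
      rw [Real.norm_eq_abs, hrf, abs_div, abs_of_pos (hpos s), div_le_one (hpos s), abs_mul]
      refine le_trans ?_ (le_max_left _ _)
      nlinarith [mul_le_mul_of_nonneg_right (hcabs s) (abs_nonneg (s - s₀)), sq_abs (s - s₀)]
    have hr2 : ‖cfc cf S - cfc (fun s => s - s₀) S * cfc rf S‖ ≤ 1 / 8 := by
      rw [← cfc_mul (fun s : ℝ => s - s₀) rf S (continuous_id.sub continuous_const).continuousOn
          hrfc.continuousOn, ← cfc_sub cf (fun s => (s - s₀) * rf s) S hcfc.continuousOn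
          ((continuous_id.sub continuous_const).mul hrfc).continuousOn]
      refine norm_cfc_le (by norm_num) fun s _ => ?_
      rw [Real.norm_eq_abs, hrf]
      simp only
      rcases le_total ((1 / 8 : ℝ) ^ 2) ((s - s₀) ^ 2) with hle | hle
      · rw [max_eq_left hle]
        have hne : s - s₀ ≠ 0 := fun e => by rw [e] at hle; norm_num at hle
        rw [show cf s - (s - s₀) * (cf s * (s - s₀) / (s - s₀) ^ 2) = 0 by field_simp; ring, abs_zero]
        norm_num
      · rw [max_eq_right hle]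
        rw [show cf s - (s - s₀) * (cf s * (s - s₀) / (1 / 8) ^ 2)
          = cf s * (1 - (s - s₀) ^ 2 / (1 / 8) ^ 2) by ring, abs_mul]
        have h1 : (s - s₀) ^ 2 / (1 / 8 : ℝ) ^ 2 ≤ 1 := (div_le_one (by norm_num)).2 hle
        have h2 : 0 ≤ (s - s₀) ^ 2 / (1 / 8 : ℝ) ^ 2 := by positivity
        have h3 : |s - s₀| ≤ 1 / 8 := abs_le_of_sq_le_sq hle (by norm_num)
        rw [abs_of_nonneg (by linarith : 0 ≤ 1 - (s - s₀) ^ 2 / (1 / 8 : ℝ) ^ 2)]
        exact (mul_le_of_le_one_right (abs_nonneg _) (by linarith)).trans ((hcabs s).trans h3)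
    have hlinS : cfc (fun s : ℝ => s - s₀) S = S - algebraMap ℝ D s₀ := by
      rw [cfc_sub (fun s : ℝ => s) (fun _ => s₀) S continuousOn_id continuousOn_const,
        cfc_id' ℝ S hSsa, cfc_const s₀ S hSsa]
    have hk : ‖P * cfc cf S‖ < g₀ := by
      have e : P * cfc cf S = P * (cfc cf S - cfc (fun s => s - s₀) S * cfc rf S)
          + P * (S - algebraMap ℝ D s₀) * cfc rf S := by rw [hlinS]; noncomm_ring
      rw [e]
      refine lt_of_le_of_lt (norm_add_le _ _) ?_
      have h1 : ‖P * (cfc cf S - cfc (fun s => s - s₀) S * cfc rf S)‖ ≤ 1 / 8 :=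
        (norm_mul_le _ _).trans ((mul_le_mul_of_nonneg_right (norm_prod_le_one pf hpf1 L)
          (norm_nonneg _)).trans (by rw [one_mul]; exact hr2))
      have h2 : ‖P * (S - algebraMap ℝ D s₀) * cfc rf S‖ ≤ 1 / 8 :=
        (norm_mul_le _ _).trans ((mul_le_mul hPS hr1 (norm_nonneg _) (by norm_num)).trans (by norm_num))
      linarith
    have hQI : Q * (algebraMap ℝ D g₀ - P * cfc cf S) ∈ I := by
      have e : Q * (algebraMap ℝ D g₀ - P * cfc cf S) = Q * cfc (sinPos σ) S := by
        rw [mul_sub, ← mul_assoc, hQP, ← mul_sub, hcf,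
          cfc_sub (fun _ => g₀) (sinPos σ) S continuousOn_const (continuous_sinPos σ).continuousOn,
          cfc_const g₀ S hSsa, sub_sub_cancel]
      rw [e]
      exact I.mul_mem_left _ _ hmem
    obtain ⟨U, hU⟩ := isUnit_algebraMap_sub hk
    have hQmem : Q ∈ I := by
      have := I.mul_mem_right _ (↑U⁻¹ : D) hQI
      rwa [← hU, mul_assoc, Units.mul_inv, mul_one] at this
    exact hκ.prod_notMem hI (fun l => cfc (hatFn δ (-‖H‖) (p l)) H) L hLn (fun l _ => hpI l) hQmem
  refine ⟨cfc (sinPos 0) S, cfc (sinPos Real.pi) S, cfc_predicate _ _, cfc_predicate _ _, ?_,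
    full_singleton_iff.2 (key 0), full_singleton_iff.2 (key Real.pi)⟩
  rw [← cfc_mul _ _ S (continuous_sinPos _).continuousOn (continuous_sinPos _).continuousOn]
  exact (cfc_congr fun s _ => sinPos_mul s).trans (cfc_const_zero ℝ S)

end

end Vale.Agent.P101.KR
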