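import Vale.Agent.P101.KR.Interfaces

/-!
# P101: the polar limit `w = lim x (|x| + 1/n)⁻¹ p`
-/

namespace Vale.Agent.P101.KR

open Filter Topology

/-- The polar limit. -/
theorem polar_of : PolarStatement := by
  intro D _ x p d hp hd
  let _ : PartialOrder D := CStarAlgebra.spectralOrder D
  have : StarOrderedRing D := CStarAlgebra.spectralOrderedRing D
  have hQ : 0 ≤ star x * x := star_mul_self_nonneg x
  have hple : p * p ≤ star x * x := sub_nonneg.1 (hd ▸ star_mul_self_nonneg d)
  set a := CFC.sqrt (star x * x) with ha_def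
  have ha : 0 ≤ a := CFC.sqrt_nonneg _
  have has : IsSelfAdjoint a := IsSelfAdjoint.of_nonneg ha
  have haa : a * a = star x * x := CFC.sqrt_mul_sqrt_self _ hQ
  have hsp : ∀ t ∈ spectrum ℝ a, 0 ≤ t := fun t ht => spectrum_nonneg_of_nonneg ha ht
  -- the two norm comparisons
  have hx : ∀ z, ‖x * z‖ = ‖a * z‖ := fun z => by
    have h : star (x * z) * (x * z) = star (a * z) * (a * z) := by
      rw [star_mul, star_mul, has.star_eq, mul_assoc, mul_assoc, ← mul_assoc (star x),
        ← mul_assoc a, haa]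
    have h2 := congrArg (‖·‖) h
    simp only [CStarRing.norm_star_mul_self] at h2
    exact (mul_self_inj (norm_nonneg _) (norm_nonneg _)).1 h2
  have hz : ∀ z, ‖z * p‖ ≤ ‖z * a‖ := fun z => by
    have h0 : 0 ≤ z * (p * p) * star z :=
      star_right_conjugate_nonneg (IsSelfAdjoint.mul_self_nonneg hp) z
    have h := CStarAlgebra.norm_le_norm_of_nonneg_of_le h0
      (star_right_conjugate_le_conjugate (hple.trans_eq haa.symm) z)
    rw [show z * (p * p) * star z = z * p * star (z * p) by
        rw [star_mul, hp]; noncomm_ring,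
      show z * (a * a) * star z = z * a * star (z * a) by
        rw [star_mul, has.star_eq]; noncomm_ring,
      CStarRing.norm_self_mul_star, CStarRing.norm_self_mul_star] at h
    nlinarith [norm_nonneg (z * p), norm_nonneg (z * a)]
  -- approximate inverses
  let ε : ℕ → ℝ := fun n => 1 / (n + 1)
  have hε : ∀ n, 0 < ε n := fun n => by positivity
  have hε0 : Tendsto ε atTop (𝓝 0) := tendsto_one_div_add_atTop_nhds_zero_nat
  let u : ℕ → D := fun n => cfc (fun t : ℝ => (t + ε n)⁻¹) a
  have hcont : ∀ n, ContinuousOn (fun t : ℝ => (t + ε n)⁻¹) (spectrum ℝ a) := fun n =>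
    (continuousOn_id.add continuousOn_const).inv₀ fun t ht =>
      (add_pos_of_nonneg_of_pos (hsp t ht) (hε n)).ne'
  have hau : ∀ n, a * u n = cfc (fun t : ℝ => t * (t + ε n)⁻¹) a := fun n => by
    rw [cfc_mul (fun t : ℝ => t) (fun t : ℝ => (t + ε n)⁻¹) a continuousOn_id (hcont n), cfc_id' ℝ a]
  have hua : ∀ n, u n * a = cfc (fun t : ℝ => (t + ε n)⁻¹ * t) a := fun n => by
    rw [cfc_mul (fun t : ℝ => (t + ε n)⁻¹) (fun t : ℝ => t) a (hcont n) continuousOn_id, cfc_id' ℝ a]
  let w : ℕ → D := fun n => x * u n * p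
  have hdiff : ∀ m n, ‖w m - w n‖ ≤ ε m + ε n := fun m n => by
    have h1 : w m - w n = x * ((u m - u n) * p) := by simp only [w]; noncomm_ring
    rw [h1, hx, ← mul_assoc]
    refine (hz _).trans ?_
    have h2 : a * (u m - u n) * a
        = cfc (fun t : ℝ => t * (((t + ε m)⁻¹ - (t + ε n)⁻¹) * t)) a := by
      rw [mul_assoc]
      have hc : ContinuousOn (fun t : ℝ => ((t + ε m)⁻¹ - (t + ε n)⁻¹) * t) (spectrum ℝ a) :=
        ((hcont m).sub (hcont n)).mul continuousOn_id
      have e : (u m - u n) * a = cfc (fun t : ℝ => ((t + ε m)⁻¹ - (t + ε n)⁻¹) * t) a := by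
        rw [cfc_mul (fun t : ℝ => (t + ε m)⁻¹ - (t + ε n)⁻¹) (fun t : ℝ => t) a
          ((hcont m).sub (hcont n)) continuousOn_id, cfc_id' ℝ a,
          cfc_sub (fun t : ℝ => (t + ε m)⁻¹) (fun t : ℝ => (t + ε n)⁻¹) a (hcont m) (hcont n)]
      rw [cfc_mul (fun t : ℝ => t) _ a continuousOn_id hc, cfc_id' ℝ a, e]
    rw [h2]
    refine norm_cfc_le (by positivity) fun t ht => ?_
    have ht0 := hsp t ht
    have key : ∀ e : ℝ, 0 < e → t - e ≤ t * t / (t + e) ∧ t * t / (t + e) ≤ t := fun e he => by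
      have hte : 0 < t + e := by linarith
      rw [le_div_iff₀ hte, div_le_iff₀ hte]
      constructor <;> nlinarith
    obtain ⟨h3, h4⟩ := key _ (hε m)
    obtain ⟨h5, h6⟩ := key _ (hε n)
    have h7 : t * (((t + ε m)⁻¹ - (t + ε n)⁻¹) * t) = t * t / (t + ε m) - t * t / (t + ε n) := by
      ring
    rw [h7, Real.norm_eq_abs, abs_le]
    constructor <;> linarith [hε m, hε n]
  have hC : CauchySeq w := by
    refine Metric.cauchySeq_iff.2 fun e he => ?_
    obtain ⟨N, hN⟩ := Filter.eventually_atTop.1 (hε0.eventually_lt_const (half_pos he))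
    exact ⟨N, fun m hm n hn => by
      rw [dist_eq_norm]
      linarith [hdiff m n, hN m hm, hN n hn]⟩
  obtain ⟨w', hw⟩ := cauchySeq_tendsto_of_complete hC
  refine ⟨w', ?_, fun l hl => ?_⟩
  · have herr : ∀ n, ‖star (w n) * w n - p * p‖ ≤ 2 * ε n * ‖p‖ := fun n => by
      have hus : star (u n) = u n := (cfc_predicate (fun t : ℝ => (t + ε n)⁻¹) a).star_eq
      have h1 : star (w n) * w n - p * p = p * ((u n * (a * a) * u n - 1) * p) := by
        simp only [w, star_mul, hus, hp]
        rw [haa]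
        noncomm_ring
      rw [h1]
      have h2 : (u n * (a * a) * u n - 1) * a
          = cfc (fun t : ℝ => ((t + ε n)⁻¹ * t * (t * (t + ε n)⁻¹) - 1) * t) a := by
        have hc1 : ContinuousOn (fun t : ℝ => (t + ε n)⁻¹ * t) (spectrum ℝ a) :=
          (hcont n).mul continuousOn_id
        have hc2 : ContinuousOn (fun t : ℝ => t * (t + ε n)⁻¹) (spectrum ℝ a) :=
          continuousOn_id.mul (hcont n)
        rw [cfc_mul (fun t : ℝ => (t + ε n)⁻¹ * t * (t * (t + ε n)⁻¹) - 1) (fun t : ℝ => t) a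
            ((hc1.mul hc2).sub continuousOn_const) continuousOn_id, cfc_id' ℝ a,
          cfc_sub (fun t : ℝ => (t + ε n)⁻¹ * t * (t * (t + ε n)⁻¹)) (fun _ => 1) a
            (hc1.mul hc2) continuousOn_const, cfc_const_one ℝ a,
          cfc_mul _ _ a hc1 hc2, ← hau, ← hua]
        noncomm_ring
      have h3 : ‖(u n * (a * a) * u n - 1) * a‖ ≤ 2 * ε n := by
        rw [h2]
        refine norm_cfc_le (by positivity) fun t ht => ?_
        have ht0 := hsp t ht
        have hte : 0 < t + ε n := by linarith [hε n]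
        set q := t * (t + ε n)⁻¹ with hq
        have hq0 : 0 ≤ q := by positivity
        have hqt : q * (t + ε n) = t := by rw [hq, mul_assoc, inv_mul_cancel₀ hte.ne', mul_one]
        have hq1 : q ≤ 1 := by nlinarith [hε n]
        rw [mul_comm ((t + ε n)⁻¹) t, ← hq, Real.norm_eq_abs, abs_le]
        constructor <;> nlinarith [hε n, mul_nonneg hq0 ht0, mul_nonneg (hε n).le hq0]
      calc _ ≤ ‖p‖ * ‖(u n * (a * a) * u n - 1) * p‖ := norm_mul_le _ _
        _ ≤ ‖p‖ * (2 * ε n) := by
              refine mul_le_mul_of_nonneg_left ((hz _).trans h3) (norm_nonneg _)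
        _ = _ := mul_comm _ _
    have h1 : Tendsto (fun n => star (w n) * w n) atTop (𝓝 (star w' * w')) :=
      ((continuous_star.tendsto _).comp hw).mul hw
    refine tendsto_nhds_unique h1 (tendsto_iff_norm_sub_tendsto_zero.2 ?_)
    refine squeeze_zero (fun _ => norm_nonneg _) herr ?_
    simpa using (hε0.const_mul 2).mul_const ‖p‖
  · refine tendsto_nhds_unique (hw.const_mul l) (hw.congr fun n => ?_)
    simp only [w, ← mul_assoc, hl]

end Vale.Agent.P101.KR
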