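import Vale.Agent.P101.KR.Interfaces

/-!
# P101: order zero maps of `Mₙ` and the relations of `Z_{n,n+1}`
-/

namespace Vale.Agent.P101.KR

variable {F : Type*} [CStarAlgebra F]

/-- The sum of the diagonal entries, the image of `1` under the map. -/
def diagN {n : ℕ} (P : Fin n → Fin n → F) : F := ∑ a, P a a

/-- The values `P a b = φ(e_ab)` of an order zero completely positive map of `Mₙ`, up to the norm
bound, which `DropDataN` supplies. -/
structure OrderZeroN {n : ℕ} (P : Fin n → Fin n → F) : Prop where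
  star_eq : ∀ a b, star (P a b) = P b a
  mul_eq : ∀ a b c d, P a b * P c d = if b = c then diagN P * P a d else 0
  pos : ∀ a, ∃ c, P a a = star c * c

/-- The relations of `Z_{n,n+1}`: an order zero `φ` and `v` with `v*v = 1 - φ(1)`,
`φ(e₀₀) v = v`. -/
structure DropDataN (n : ℕ) [NeZero n] (F : Type*) [CStarAlgebra F] where
  P : Fin n → Fin n → F
  v : F
  orderZero : OrderZeroN P
  star_mul_v : star v * v = 1 - diagN P
  fix_v : P 0 0 * v = v

/-- The data of one position, with an order zero map of `Mₙ`. -/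
structure SeedN (B : Type*) [CStarAlgebra B] (k n : ℕ) [NeZero n] where
  θ : Fin n → Fin n → B
  s : B
  x : Fin k → B
  orderZero : OrderZeroN θ
  star_s : star s = s
  mul_self_s : s * s = 1 - diagN θ * diagN θ
  comm_s : ∀ a b, Commute s (θ a b)
  fix_x : ∀ c, θ 0 0 * x c = x c
  sum_x : ∑ c, star (x c) * x c = 1

/-- The ordered product of the roots `s` over all positions. -/
def sProdN {B D : Type*} [CStarAlgebra B] [CStarAlgebra D] {k n m : ℕ} [NeZero n]
    (κ : Copies B D m) (σ : SeedN B k n) : D :=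
  (List.ofFn fun l => κ.hom l σ.s).prod

/-- Step 5 of the note, for `Mₙ`: merging the order zero maps of all positions. -/
def MergeStatementN : Prop :=
  ∀ (B D : Type) [CStarAlgebra B] [CStarAlgebra D] (k n m : ℕ) [NeZero n] (σ : SeedN B k n)
    (κ : Copies B D m),
    ∃ (P : Fin n → Fin n → D) (r : D), OrderZeroN P ∧ star r = r ∧
      Commute r (sProdN κ σ) ∧ 1 - diagN P = sProdN κ σ * sProdN κ σ * (r * r) ∧
      ∀ l, ∃ U : D, (∀ l', Commute U (κ.hom l' σ.s) ∧ Commute U (κ.hom l' (diagN σ.θ))) ∧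
        ∀ e, κ.hom l (σ.θ 0 0) * e = e → P 0 0 * (U * e) = U * e ∧ star U * (U * e) = e

/-- Step 6 of the note, for `Mₙ`: the covering. -/
def CoverStatementN : Prop :=
  ∀ (B D : Type) [CStarAlgebra B] [CStarAlgebra D] (k n : ℕ) [NeZero n] (_ : 2 ≤ n)
    (_ : SeedN B k n) (_ : Copies B D (k * k + 1)), Nonempty (DropDataN n D)

end Vale.Agent.P101.KR
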