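import Vale.Agent.P101.KR.Base
import Vale.Agent.P101.KR.PowerMerge

/-!
# P101: seeds for `M_{2^K}` from commuting copies of a seed for `M₂`
-/

namespace Vale.Agent.P101.KR

variable {D : Type*} [CStarAlgebra D]

/-- A product of two commuting positives is a `star c * c`. -/
lemma exists_eq_star_mul_self_mul {p q c e : D} (hp : p = star c * c) (hq : q = star e * e)
    (h : Commute p q) : ∃ w, p * q = star w * w := by
  let _ : PartialOrder D := CStarAlgebra.spectralOrder D
  have : StarOrderedRing D := CStarAlgebra.spectralOrderedRing D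
  exact CStarAlgebra.nonneg_iff_eq_star_mul_self.1
    (h.mul_nonneg (hp ▸ star_mul_self_nonneg c) (hq ▸ star_mul_self_nonneg e))

/-- A root of a sum of two squares. -/
lemma exists_root_sum_sq {h c d : D} (hc : star c = c) (hd : star d = d)
    (hh : h = c * c + d * d) :
    ∃ q : D, star q = q ∧ q * q = h ∧ ∀ z, Commute h z → Commute q z := by
  let _ : PartialOrder D := CStarAlgebra.spectralOrder D
  have : StarOrderedRing D := CStarAlgebra.spectralOrderedRing D
  have hh0 : 0 ≤ h := hh ▸ add_nonneg (IsSelfAdjoint.mul_self_nonneg hc)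
    (IsSelfAdjoint.mul_self_nonneg hd)
  refine ⟨CFC.sqrt h, (IsSelfAdjoint.of_nonneg (CFC.sqrt_nonneg _)).star_eq,
    CFC.sqrt_mul_sqrt_self _ hh0, fun z hz => ?_⟩
  rw [CFC.sqrt_eq_cfc]
  exact hz.cfc_nnreal _

/-- One more position. -/
lemma SeedN.step {k k' n n' : ℕ} [NeZero n] [NeZero n'] (σ : SeedN D k n) (η : SeedN D k' n')
    (hθ : ∀ a b c d, Commute (σ.θ a b) (η.θ c d)) (hx : ∀ i c d, Commute (η.θ c d) (σ.x i)) :
    ∃ τ : SeedN D (k * k') (n * n'), ∀ z, (∀ a b, Commute z (σ.θ a b)) →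
      (∀ i, Commute z (σ.x i)) → (∀ a b, Commute z (η.θ a b)) → (∀ i, Commute z (η.x i)) →
      (∀ a b, Commute z (τ.θ a b)) ∧ ∀ i, Commute z (τ.x i) := by
  obtain ⟨G, hG⟩ : ∃ G, G = diagN σ.θ := ⟨_, rfl⟩
  obtain ⟨H, hH⟩ : ∃ H, H = diagN η.θ := ⟨_, rfl⟩
  let e : Fin (n * n') ≃ Fin n × Fin n' := finProdFinEquiv.symm
  let θ : Fin (n * n') → Fin (n * n') → D := fun a b =>
    σ.θ (e a).1 (e b).1 * η.θ (e a).2 (e b).2
  have e0 : e 0 = (0, 0) := by
    simp only [e, Equiv.symm_apply_eq]
    ext; simp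
  have hGH : Commute G H := by
    rw [hG, hH]
    exact Commute.sum_left _ _ _ fun a _ => Commute.sum_right _ _ _ fun c _ => hθ a a c c
  have hdiag : diagN θ = G * H := by
    rw [hG, hH, diagN, diagN, diagN, Finset.sum_mul_sum, ← Fintype.sum_prod_type']
    exact e.sum_comp fun p => σ.θ p.1 p.1 * η.θ p.2 p.2
  have hGσ : ∀ c d, Commute G (η.θ c d) := fun c d => by
    rw [hG]; exact Commute.sum_left _ _ _ fun a _ => hθ a a c d
  have hHσ : ∀ a b, Commute H (σ.θ a b) := fun a b => by
    rw [hH]; exact Commute.sum_left _ _ _ fun c _ => (hθ a b c c).symm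
  have hHs : ∀ a b, Commute (G * H) (θ a b) := fun a b =>
    ((((hG ▸ σ.orderZero.diagN_commute _ _) : Commute G (σ.θ (e a).1 (e b).1))).mul_left
      (hHσ _ _)).mul_right ((hGσ _ _).mul_left (hH ▸ η.orderZero.diagN_commute _ _))
  have hGs : star G = G := hG ▸ σ.orderZero.diagN_star
  have hHstar : star H = H := hH ▸ η.orderZero.diagN_star
  -- `1 - G²H² = (1 - G²) + G²(1 - H²)`
  have hG2 : G * G * (η.s * η.s) = G * G - G * H * (G * H) := by
    rw [η.mul_self_s, ← hH, mul_sub, mul_one, hGH.symm.mul_mul_mul_comm]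
  have hpos : ∃ c, star c = c ∧ c * c = G * G * (η.s * η.s) := by
    let _ : PartialOrder D := CStarAlgebra.spectralOrder D
    have : StarOrderedRing D := CStarAlgebra.spectralOrderedRing D
    have hc : Commute (G * G) (η.s * η.s) := by
      rw [η.mul_self_s, ← hH]
      exact (Commute.one_right _).sub_right
        ((hGH.mul_left hGH).mul_right (hGH.mul_left hGH))
    have h0 : 0 ≤ G * G * (η.s * η.s) := hc.mul_nonneg (IsSelfAdjoint.mul_self_nonneg hGs)
      (IsSelfAdjoint.mul_self_nonneg η.star_s)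
    exact ⟨CFC.sqrt _, (IsSelfAdjoint.of_nonneg (CFC.sqrt_nonneg _)).star_eq,
      CFC.sqrt_mul_sqrt_self _ h0⟩
  obtain ⟨c, hc, hcc⟩ := hpos
  obtain ⟨q, hq, hqq, hqc⟩ := exists_root_sum_sq (h := 1 - G * H * (G * H)) σ.star_s hc (by
    rw [hcc, hG2, σ.mul_self_s, ← hG]; abel)
  let ξ : Fin (k * k') → D := fun i =>
    σ.x (finProdFinEquiv.symm i).1 * η.x (finProdFinEquiv.symm i).2
  have hoz : OrderZeroN θ := by
    refine ⟨fun a b => ?_, fun a b c d => ?_, fun a => ?_⟩
    · simp only [θ, star_mul, σ.orderZero.star_eq, η.orderZero.star_eq]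
      exact (hθ _ _ _ _).symm.eq
    · rw [hdiag]
      simp only [θ]
      rw [(hθ _ _ _ _).symm.mul_mul_mul_comm, σ.orderZero.mul_eq, η.orderZero.mul_eq, ← hG, ← hH]
      by_cases h : b = c
      · subst h
        rw [if_pos rfl, if_pos rfl, if_pos rfl, (hHσ _ _).symm.mul_mul_mul_comm]
      · rw [if_neg h]
        by_cases h1 : (e b).1 = (e c).1
        · rw [if_pos h1, if_neg fun h2 => h (e.injective (Prod.ext h1 h2)), mul_zero]
        · rw [if_neg h1, zero_mul]
    · obtain ⟨c, hc⟩ := σ.orderZero.pos (e a).1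
      obtain ⟨d, hd⟩ := η.orderZero.pos (e a).2
      exact exists_eq_star_mul_self_mul hc hd (hθ _ _ _ _)
  refine ⟨{ θ := θ, s := q, x := ξ, orderZero := hoz, star_s := hq,
            mul_self_s := by rw [hqq, hdiag]
            comm_s := fun a b => hqc _ ((Commute.one_left _).sub_left
              ((hHs a b).mul_left (hHs a b)))
            fix_x := fun i => ?_
            sum_x := ?_ }, fun z h1 h2 h3 h4 =>
    ⟨fun a b => (h1 _ _).mul_right (h3 _ _), fun i => (h2 _).mul_right (h4 _)⟩⟩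
  · simp only [θ, ξ, e0]
    rw [(hx _ 0 0).mul_mul_mul_comm, σ.fix_x, η.fix_x]
  · have h : ∀ i : Fin k × Fin k', star (ξ (finProdFinEquiv i)) * ξ (finProdFinEquiv i) =
        star (η.x i.2) * (star (σ.x i.1) * σ.x i.1) * η.x i.2 := fun i => by
      simp only [ξ, Equiv.symm_apply_apply, star_mul, mul_assoc]
    rw [← finProdFinEquiv.sum_comp, Finset.sum_congr rfl fun i _ => h i, Fintype.sum_prod_type,
      Finset.sum_comm]
    simp only [← Finset.sum_mul, ← Finset.mul_sum, σ.sum_x, mul_one, η.sum_x]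

/-- A seed for `M₂` transported to a position. -/
lemma exists_seed_position {B : Type*} [CStarAlgebra B] {k m : ℕ} (σ : Seed B k)
    (κ : Copies B D m) (l : Fin m) : ∃ τ : SeedN D k 2,
      (∀ a b, τ.θ a b = κ.hom l (σ.θ a b)) ∧ ∀ i, τ.x i = κ.hom l (σ.x i) := by
  have hd : κ.hom l (diag σ.θ) = diagN fun a b => κ.hom l (σ.θ a b) := by
    simp [diagN, diag, Fin.sum_univ_two]
  refine ⟨{ θ := fun a b => κ.hom l (σ.θ a b), s := κ.hom l σ.s, x := fun i => κ.hom l (σ.x i)
            orderZero := ⟨(orderZero_map_hom _ σ.orderZero).star_eq, fun a b c d => ?_,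
              (orderZero_map_hom _ σ.orderZero).pos⟩
            star_s := by rw [← map_star, σ.star_s]
            mul_self_s := by rw [← map_mul, σ.mul_self_s, map_sub, map_one, map_mul, hd]
            comm_s := fun a b => (σ.comm_s a b).map _
            fix_x := fun i => by rw [← map_mul, σ.fix_x]
            sum_x := by simp only [← map_star, ← map_mul, ← map_sum, σ.sum_x, map_one] },
    fun _ _ => rfl, fun _ => rfl⟩
  rw [← hd, ← map_mul, σ.orderZero.mul_eq, apply_ite (κ.hom l), map_mul, map_zero]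

/-- The seed for `M_{2^K}` from `K` copies of a seed for `M₂`. -/
theorem seedN_of {B : Type*} [CStarAlgebra B] {k : ℕ} (σ : Seed B k) :
    ∀ {K : ℕ} (κ : Copies B D K), Nonempty (SeedN D (k ^ K) (2 ^ K)) := by
  suffices ∀ (K : ℕ) (κ : Copies B D K), ∃ τ : SeedN D (k ^ K) (2 ^ K),
      ∀ z, (∀ l b, Commute z (κ.hom l b)) →
        (∀ a b, Commute z (τ.θ a b)) ∧ ∀ i, Commute z (τ.x i) from
    fun {K} κ => ⟨(this K κ).choose⟩
  intro K
  induction K with
  | zero =>
    intro κ
    refine ⟨{ θ := fun _ _ => 1, s := 0, x := fun _ => 1,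
              orderZero := ⟨fun _ _ => star_one _, fun a b c d => ?_, fun _ => ⟨1, by simp⟩⟩
              star_s := star_zero _
              mul_self_s := by simp [diagN]
              comm_s := fun _ _ => Commute.zero_left _
              fix_x := fun _ => one_mul _
              sum_x := (Fin.sum_univ_one fun _ => star (1 : D) * 1).trans (by simp) },
      fun z _ => ⟨fun _ _ => Commute.one_right z, fun _ => Commute.one_right z⟩⟩
    have : b = c := Fin.ext (by have h1 := b.isLt.trans_eq (pow_zero 2); have h2 := c.isLt.trans_eq (pow_zero 2); omega)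
    simp [this, diagN]
  | succ K ih =>
    intro κ
    obtain ⟨τ, hτ⟩ := ih ⟨fun l => κ.hom l.castSucc, fun i j h => κ.comm _ _ (by simpa using h)⟩
    obtain ⟨η, hηθ, hηx⟩ := exists_seed_position σ κ (Fin.last K)
    have hlast : ∀ b, (∀ a c, Commute (κ.hom (Fin.last K) b) (τ.θ a c)) ∧
        ∀ i, Commute (κ.hom (Fin.last K) b) (τ.x i) := fun b =>
      hτ _ fun l b' => κ.comm _ _ (Fin.castSucc_lt_last l).ne' b b'
    obtain ⟨ρ, hρ⟩ := τ.step η
      (fun a b c d => by rw [hηθ]; exact ((hlast _).1 a b).symm)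
      (fun i c d => by rw [hηθ]; exact (hlast _).2 i)
    refine ⟨ρ, fun z hz => ?_⟩
    obtain ⟨h1, h2⟩ := hτ z fun l b => hz l.castSucc b
    exact hρ z h1 h2 (fun a b => by rw [hηθ]; exact hz _ _) fun i => by rw [hηx]; exact hz _ _

end Vale.Agent.P101.KR
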