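import Vale.Agent.P101.KR.Main
import Vale.Agent.P101.KR.PowerSeed
import Vale.Agent.P101.KR.PowerCover
import Vale.Agent.P101.KR.Polar

/-!
# P101: from one seed to the relations of `Z_{n,n+1}` for every power of two
-/

namespace Vale.Agent.P101.KR

/-- A seed for `M₂` and copies give the relations of `Z_{2^K,2^K+1}` for every `K ≥ 1`. -/
theorem powers_of_seed {F : Type} [CStarAlgebra F] (hF : HasCopies F)
    (h : ∃ s : Set F, s.Countable ∧ ∃ k, Nonempty (Seed (Cl s) k)) (K : ℕ) :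
    Nonempty (DropDataN (2 ^ (K + 1)) F) := by
  obtain ⟨s, hs, k, ⟨σ⟩⟩ := h
  obtain ⟨s', hs', κ, -⟩ := exists_generating hF hs (K + 1)
  obtain ⟨τ⟩ := seedN_of σ κ
  obtain ⟨κ'⟩ := hF s' hs' (k ^ (K + 1) * k ^ (K + 1) + 1)
  exact cover_ofN mergeN_of polar_of _ F _ _ (by
    have := Nat.one_le_two_pow (n := K); rw [pow_succ]; omega) τ κ'

end Vale.Agent.P101.KR
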