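import Vale.Agent.P101.KR.Base

/-!
# P101, step 4: a full element of square zero gives a seed

For `y² = 0` the element `A = y*y + yy*` commutes with `y`, so cut-offs of `A` turn `y` into an
order zero map of `M₂`, and the full element supplies the corner elements.
-/

namespace Vale.Agent.P101.KR

open CStarAlgebra
open scoped CStarAlgebra

variable {B : Type*} [CStarAlgebra B]

/-- A finite sum is controlled by its sum of squares. -/
lemma star_sum_mul_sum_le [PartialOrder B] [StarOrderedRing B] {ι : Type*} [Fintype ι]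
    (w : ι → B) :
    star (∑ i, w i) * ∑ i, w i ≤ (Fintype.card ι : ℝ) • ∑ i, star (w i) * w i := by
  rcases isEmpty_or_nonempty ι with h | h
  · simp
  set n : ℝ := (Fintype.card ι : ℝ) with hn
  have hn0 : 0 < n := by rw [hn]; exact_mod_cast Fintype.card_pos
  set S := ∑ i, w i with hS
  set T := ∑ i, star (w i) * w i with hT
  have key : ∑ i, star (n • w i - S) * (n • w i - S) = n • (n • T - star S * S) := by
    simp only [star_sub, star_smul, star_trivial, sub_mul, mul_sub, smul_mul_assoc, mul_smul_comm,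
      smul_smul, Finset.sum_sub_distrib, ← Finset.smul_sum, ← Finset.mul_sum, ← Finset.sum_mul,
      ← star_sum, ← hS, ← hT, Finset.sum_const, Finset.card_univ, ← Nat.cast_smul_eq_nsmul ℝ,
      ← hn, smul_sub]
    abel
  have h0 : (0 : B) ≤ n • (n • T - star S * S) :=
    key ▸ Finset.sum_nonneg fun i _ => star_mul_self_nonneg _
  have h1 := smul_le_smul_of_nonneg_left h0 (inv_nonneg.2 hn0.le)
  rw [smul_zero, inv_smul_smul₀ hn0.ne'] at h1
  exact sub_nonneg.1 h1

/-- Step 4: the seed. -/
theorem seed_of : SeedStatement := by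
  intro B _ y hyy hfull
  let _ := CStarAlgebra.spectralOrder B
  let _ := CStarAlgebra.spectralOrderedRing B
  have hyy' : star y * star y = 0 := by rw [← star_mul, hyy, star_zero]
  set p := star y * y with hp
  set q := y * star y with hq
  set A := p + q with hA
  have hAsa : IsSelfAdjoint A :=
    (IsSelfAdjoint.star_mul_self y).add (IsSelfAdjoint.mul_star_self y)
  have hpos : (0 : B) ≤ A := add_nonneg (star_mul_self_nonneg y) (mul_star_self_nonneg y)
  have hAy : Commute A y := by
    show A * y = y * A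
    simp only [hA, hp, hq, add_mul, mul_add, mul_assoc, hyy, mul_zero, zero_add]
    rw [← mul_assoc y y, hyy, zero_mul, add_zero]
  have hAy' : Commute A (star y) := by simpa [hAsa.star_eq] using hAy.star_star
  have hcy : ∀ f : ℝ → ℝ, Commute (cfc f A) y := fun f =>
    hAsa.commute_cfc hAy f
  have hcy' : ∀ f : ℝ → ℝ, Commute (cfc f A) (star y) := fun f =>
    hAsa.commute_cfc hAy' f
  have hsa : ∀ f : ℝ → ℝ, star (cfc f A) = cfc f A := fun f =>
    (cfc_predicate f A : IsSelfAdjoint _).star_eq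
  have hmul : ∀ {f g h : ℝ → ℝ}, Continuous f → Continuous g → (∀ t, f t * g t = h t) →
      cfc f A * cfc g A = cfc h A := fun {f g h} hf hg hfg => by
    rw [← cfc_mul f g A hf.continuousOn hg.continuousOn, funext hfg]
  -- the fullness estimate and the cut-offs
  obtain ⟨ι, _, a, b, z, hz, hsum⟩ := hfull.exists_sum
  simp only [Set.mem_singleton_iff] at hz
  simp only [hz] at hsum
  set M := ∑ i, ‖a i‖ * ‖b i‖ with hM
  have hM0 : 0 ≤ M := Finset.sum_nonneg fun i _ => by positivity
  set δ : ℝ := 1 / (12 * (M + 1) ^ 2) with hδ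
  have hδ0 : 0 < δ := by positivity
  let g : ℝ → ℝ := fun t => min 1 (max 0 ((t - δ) / δ))
  let K : ℝ → ℝ := fun t => min 1 (max 0 ((t - 2 * δ) / δ))
  let den : ℝ → ℝ := fun t => max t δ
  let ψ : ℝ → ℝ := fun t => g t / den t
  let φ : ℝ → ℝ := fun t => g t / Real.sqrt (den t)
  let sψ : ℝ → ℝ := fun t => Real.sqrt (ψ t)
  let σ : ℝ → ℝ := fun t => Real.sqrt (1 - g t * g t)
  have hden : ∀ t, 0 < den t := fun t => lt_max_of_lt_right hδ0
  have hgc : Continuous g := by fun_prop
  have hKc : Continuous K := by fun_prop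
  have hdc : Continuous den := by fun_prop
  have hψc : Continuous ψ := hgc.div hdc fun t => (hden t).ne'
  have hφc : Continuous φ := hgc.div hdc.sqrt fun t => (Real.sqrt_pos.2 (hden t)).ne'
  have hsψc : Continuous sψ := hψc.sqrt
  have hσc : Continuous σ := (continuous_const.sub (hgc.mul hgc)).sqrt
  have hg0 : ∀ t, 0 ≤ g t := fun t => le_min zero_le_one (le_max_left _ _)
  have hg1 : ∀ t, g t ≤ 1 := fun t => min_le_left _ _
  have htψ : ∀ t, t * ψ t = g t := fun t => by
    rcases le_or_gt t δ with h | h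
    · have : g t = 0 := by
        have : (t - δ) / δ ≤ 0 := div_nonpos_of_nonpos_of_nonneg (by linarith) hδ0.le
        simp [g, max_eq_left this]
      simp [ψ, this]
    · simp only [ψ, den, max_eq_left h.le]
      field_simp [(hδ0.trans h).ne']
  have hφφ : ∀ t, φ t * φ t = g t * ψ t := fun t => by
    simp only [φ, ψ]
    rw [div_mul_div_comm, Real.mul_self_sqrt (hden t).le, mul_div_assoc]
  have hgK : ∀ t, g t * K t = K t := fun t => by
    rcases le_or_gt t (2 * δ) with h | h
    · have : (t - 2 * δ) / δ ≤ 0 := div_nonpos_of_nonpos_of_nonneg (by linarith) hδ0.le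
      simp [K, max_eq_left this]
    · have : 1 ≤ (t - δ) / δ := by rw [le_div_iff₀ hδ0]; linarith
      simp [g, max_eq_right (zero_le_one.trans this), min_eq_left this]
  -- products
  set G := cfc g A with hG
  set Ψ := cfc ψ A with hΨ
  set Φ := cfc φ A with hΦ
  set R := cfc sψ A with hR
  have hAΨ : A * Ψ = G := by
    conv_lhs => arg 1; rw [← cfc_id' ℝ A hAsa]
    exact hmul continuous_id hψc htψ
  have hΨA : Ψ * A = G := by
    conv_lhs => arg 2; rw [← cfc_id' ℝ A hAsa]
    exact hmul hψc continuous_id fun t => by simp only [mul_comm (ψ t)]; exact htψ t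
  have hΦΦ : Φ * Φ = G * Ψ := by
    rw [hmul (h := fun t => g t * ψ t) hφc hφc hφφ, ← hmul (h := fun t => g t * ψ t) hgc hψc
      fun t => rfl]
  have hRR : R * R = Ψ :=
    hmul hsψc hsψc fun t => Real.mul_self_sqrt (div_nonneg (hg0 t) (hden t).le)
  have hΨΦ : Commute Ψ Φ := cfc_commute_cfc ψ φ A
  have hGy : Commute G y := hcy g
  have hGy' : Commute G (star y) := hcy' g
  let θ : Fin 2 → Fin 2 → B := ![![q * Ψ, y * Φ], ![Φ * star y, p * Ψ]]
  have h00 : θ 0 0 = q * Ψ := rfl
  have h01 : θ 0 1 = y * Φ := rfl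
  have h10 : θ 1 0 = Φ * star y := rfl
  have h11 : θ 1 1 = p * Ψ := rfl
  have hdiag : diag θ = G := by
    rw [diag, h00, h11, add_comm, ← add_mul, ← hA, hAΨ]
  have hcq : ∀ f : ℝ → ℝ, Commute (cfc f A) q := fun f => (hcy f).mul_right (hcy' f)
  have hcp : ∀ f : ℝ → ℝ, Commute (cfc f A) p := fun f => (hcy' f).mul_right (hcy f)
  have hstar : ∀ a b, star (θ a b) = θ b a := by
    have e0 : star (θ 0 0) = θ 0 0 := by
      rw [h00, hq, star_mul, star_mul, star_star, hsa, (hcq ψ).eq]
    have e1 : star (θ 1 1) = θ 1 1 := by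
      rw [h11, hp, star_mul, star_mul, star_star, hsa, (hcp ψ).eq]
    have e2 : star (θ 0 1) = θ 1 0 := by rw [h01, h10, star_mul, hsa]
    have e3 : star (θ 1 0) = θ 0 1 := by rw [h01, h10, star_mul, hsa, star_star]
    simp only [Fin.forall_fin_two]
    exact ⟨⟨e0, e2⟩, e3, e1⟩
  have hqA : q * q = A * q := by
    rw [hA, add_mul]
    have : p * q = 0 := by rw [hp, hq, mul_assoc, ← mul_assoc y, hyy]; simp
    rw [this, zero_add]
  have hpA : p * p = A * p := by
    rw [hA, add_mul]
    have : q * p = 0 := by rw [hp, hq, mul_assoc, ← mul_assoc (star y), hyy']; simp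
    rw [this, add_zero]
  have hqy : q * y = A * y := by
    rw [hA, add_mul, hp, mul_assoc (star y), hyy]; simp
  have hyp : y * p = A * y := by
    rw [hA, add_mul, hp, hq, mul_assoc (star y), hyy, mul_assoc]; simp
  have hpy' : p * star y = A * star y := by
    rw [hA, add_mul, hq, mul_assoc y, hyy']; simp
  have hy'q : star y * q = A * star y := by
    rw [hA, add_mul, hp, hq, mul_assoc y, hyy', mul_assoc]; simp
  have z1 : q * p = 0 := by rw [hp, hq, mul_assoc, ← mul_assoc (star y), hyy']; simp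
  have z2 : p * q = 0 := by rw [hp, hq, mul_assoc, ← mul_assoc y, hyy]; simp
  have z3 : q * star y = 0 := by rw [hq, mul_assoc, hyy', mul_zero]
  have z4 : y * q = 0 := by rw [hq, ← mul_assoc, hyy, zero_mul]
  have z5 : star y * p = 0 := by rw [hp, ← mul_assoc, hyy', zero_mul]
  have z6 : p * y = 0 := by rw [hp, mul_assoc, hyy, mul_zero]
  -- push the functions of `A` to the right
  have comb : ∀ {u v : B} (f₁ f₂ : ℝ → ℝ), Commute (cfc f₁ A) v →
      u * cfc f₁ A * (v * cfc f₂ A) = u * v * (cfc f₁ A * cfc f₂ A) := fun {u v} f₁ f₂ h => by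
    rw [mul_assoc u, ← mul_assoc (cfc f₁ A), h.eq, mul_assoc v, ← mul_assoc u v]
  have hord : ∀ a b c d, θ a b * θ c d = if b = c then diag θ * θ a d else 0 := by
    rw [hdiag]
    let V : Fin 2 → Fin 2 → B := ![![q, y], ![star y, p]]
    let H : Fin 2 → Fin 2 → B := ![![Ψ, Φ], ![Φ, Ψ]]
    have hθ : ∀ a b, θ a b = V a b * H a b := by
      simp [Fin.forall_fin_two, θ, V, H, hΦ, (hcy' φ).eq]
    have hVA : ∀ a b, Commute A (V a b) := by
      simp [Fin.forall_fin_two, V, hp, hq, hAy, hAy', hAy.mul_right hAy', hAy'.mul_right hAy]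
    have hGV : ∀ a b, Commute G (V a b) := by
      simp only [Fin.forall_fin_two]
      exact ⟨⟨hcq g, hGy⟩, hGy', hcp g⟩
    have hHV : ∀ a b c d, Commute (H a b) (V c d) := by
      simp only [Fin.forall_fin_two]
      exact ⟨⟨⟨⟨hcq ψ, hcy ψ⟩, hcy' ψ, hcp ψ⟩, ⟨hcq φ, hcy φ⟩, hcy' φ, hcp φ⟩,
        ⟨⟨hcq φ, hcy φ⟩, hcy' φ, hcp φ⟩, ⟨hcq ψ, hcy ψ⟩, hcy' ψ, hcp ψ⟩
    have low : ∀ {w : B} (h : B), Commute A w → Commute G w →
        A * w * (Ψ * h) = G * (w * h) := fun {w} h hA hG => by
      rw [hA.eq, mul_assoc, ← mul_assoc A, hAΨ, ← mul_assoc, ← hG.eq, mul_assoc]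
    intro a b c d
    rw [hθ a b, hθ c d, hθ a d, mul_assoc (V a b), ← mul_assoc (H a b), (hHV a b c d).eq,
      mul_assoc (V c d), ← mul_assoc (V a b)]
    by_cases hbc : b = c
    · subst hbc
      rw [if_pos rfl]
      fin_cases a <;> fin_cases b <;> fin_cases d
      · show q * q * (Ψ * Ψ) = G * (q * Ψ)
        rw [hqA, low (w := q) Ψ (hVA 0 0) (hGV 0 0)]
      · show q * y * (Ψ * Φ) = G * (y * Φ)
        rw [hqy, low Φ hAy hGy]
      · show y * star y * (Φ * Φ) = G * (q * Ψ)
        rw [hΦΦ, ← hq, ← mul_assoc, ← mul_assoc, show G * q = q * G from (hGV 0 0).eq]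
      · show y * p * (Φ * Ψ) = G * (y * Φ)
        rw [hyp, ← hΨΦ.eq, low Φ hAy hGy]
      · show star y * q * (Φ * Ψ) = G * (star y * Φ)
        rw [hy'q, ← hΨΦ.eq, low Φ hAy' hGy']
      · show star y * y * (Φ * Φ) = G * (p * Ψ)
        rw [hΦΦ, ← hp, ← mul_assoc, ← mul_assoc, show G * p = p * G from (hGV 1 1).eq]
      · show p * star y * (Ψ * Φ) = G * (star y * Φ)
        rw [hpy', low Φ hAy' hGy']
      · show p * p * (Ψ * Ψ) = G * (p * Ψ)
        rw [hpA, low (w := p) Ψ (hVA 1 1) (hGV 1 1)]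
    · rw [if_neg hbc]
      suffices V a b * V c d = 0 by rw [this, zero_mul]
      revert hbc
      revert a b c d
      simp [Fin.forall_fin_two, V, z1, z2, z3, z4, z5, z6, hyy, hyy']
  -- the corner elements
  set u := cfc (fun t => 1 - K t) A with hu
  have hzu : ‖y * u‖ * ‖y * u‖ ≤ 3 * δ := by
    rw [← CStarRing.norm_star_mul_self]
    have h1 : star (y * u) * (y * u) = star u * p * u := by rw [star_mul, hp]; noncomm_ring
    have h2 : star u * p * u ≤ star u * A * u :=
      star_left_conjugate_le_conjugate (le_add_of_nonneg_right (mul_star_self_nonneg y)) u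
    rw [h1]
    refine (CStarAlgebra.norm_le_norm_of_nonneg_of_le
      (star_left_conjugate_nonneg (star_mul_self_nonneg y) u) h2).trans ?_
    have hum : A * u = cfc (fun t => t * (1 - K t)) A := by
      conv_lhs => arg 1; rw [← cfc_id' ℝ A hAsa]
      exact hmul continuous_id (continuous_const.sub hKc) fun t => rfl
    rw [mul_assoc, hsa, hum, hmul (f := fun t => 1 - K t) (g := fun t => t * (1 - K t))
      (h := fun t => (1 - K t) * (t * (1 - K t)))
      (continuous_const.sub hKc) (continuous_id.mul (continuous_const.sub hKc)) fun t => rfl]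
    refine norm_cfc_le (by positivity) fun t ht => ?_
    have ht0 : 0 ≤ t := spectrum_nonneg_of_nonneg hpos ht
    have hK0 : 0 ≤ K t := le_min zero_le_one (le_max_left _ _)
    have hK1 : K t ≤ 1 := min_le_left _ _
    rw [Real.norm_eq_abs, abs_of_nonneg (mul_nonneg (by linarith) (mul_nonneg ht0 (by linarith)))]
    rcases le_or_gt (3 * δ) t with h | h
    · have h1 : 1 ≤ (t - 2 * δ) / δ := by rw [le_div_iff₀ hδ0]; linarith
      have : K t = 1 := by simp [K, max_eq_right (zero_le_one.trans h1), min_eq_left h1]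
      rw [this]; nlinarith
    · calc (1 - K t) * (t * (1 - K t)) = t * ((1 - K t) * (1 - K t)) := by ring
        _ ≤ t * 1 := by gcongr; nlinarith
        _ ≤ 3 * δ := by linarith
  have hzu' : ‖y * u‖ ≤ 1 / (2 * (M + 1)) := by
    have e : 3 * δ = (1 / (2 * (M + 1))) * (1 / (2 * (M + 1))) := by
      rw [hδ]; field_simp; ring
    rw [e] at hzu
    nlinarith [norm_nonneg (y * u), show (0:ℝ) < 1 / (2 * (M + 1)) by positivity]
  set KA := cfc K A with hKA
  have hone : u = 1 - KA := by
    rw [hu, cfc_sub (fun _ : ℝ => (1 : ℝ)) K A (hf := continuousOn_const)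
      (hg := hKc.continuousOn), cfc_const_one ℝ A hAsa]
  have hnear : ‖1 - ∑ i, a i * (y * KA) * b i‖ < 1 := by
    have : 1 - ∑ i, a i * (y * KA) * b i = ∑ i, a i * (y * u) * b i := by
      rw [← hsum, ← Finset.sum_sub_distrib, hone]
      exact Finset.sum_congr rfl fun i _ => by noncomm_ring
    rw [this]
    calc ‖∑ i, a i * (y * u) * b i‖
        ≤ ∑ i, ‖a i‖ * ‖b i‖ * (1 / (2 * (M + 1))) := by
          refine (norm_sum_le _ _).trans (Finset.sum_le_sum fun i _ => ?_)
          refine (norm_mul_le _ _).trans ((mul_le_mul_of_nonneg_right (norm_mul_le _ _)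
            (norm_nonneg _)).trans ?_)
          rw [mul_right_comm]
          gcongr
      _ = M * (1 / (2 * (M + 1))) := by rw [← Finset.sum_mul]
      _ < 1 := by rw [mul_one_div, div_lt_one (by positivity)]; linarith
  obtain ⟨v, hv⟩ := isUnit_one_sub_of_norm_lt_one hnear
  rw [sub_sub_cancel] at hv
  let w : ι → B := fun i => y * KA * b i * ↑v⁻¹
  have hw : ∑ i, a i * w i = 1 := by
    rw [← Units.mul_inv v, hv, Finset.sum_mul]
    simp [w, mul_assoc]
  set T := ∑ i, star (w i) * w i with hT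
  have hT0 : 0 ≤ T := Finset.sum_nonneg fun i _ => star_mul_self_nonneg _
  set C : ℝ := Fintype.card ι * ∑ i, ‖a i‖ ^ 2 + 1 with hC
  have hC0 : 0 < C := by positivity
  have hle : (1 : B) ≤ C • T := by
    calc (1 : B) = star (∑ i, a i * w i) * ∑ i, a i * w i := by rw [hw]; simp
      _ ≤ (Fintype.card ι : ℝ) • ∑ i, star (a i * w i) * (a i * w i) := star_sum_mul_sum_le _
      _ ≤ (Fintype.card ι : ℝ) • ∑ i, (∑ j, ‖a j‖ ^ 2) • (star (w i) * w i) := by
          refine smul_le_smul_of_nonneg_left (Finset.sum_le_sum fun i _ => ?_) (Nat.cast_nonneg _)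
          have h := star_left_conjugate_le_conjugate
            (CStarAlgebra.star_mul_le_algebraMap_norm_sq (a := a i)) (w i)
          rw [star_mul, show star (w i) * star (a i) * (a i * w i) =
            star (w i) * (star (a i) * a i) * w i by noncomm_ring]
          refine h.trans ?_
          rw [Algebra.algebraMap_eq_smul_one, mul_smul_comm, smul_mul_assoc, mul_one]
          refine smul_le_smul_of_nonneg_right ?_ (star_mul_self_nonneg _)
          exact Finset.single_le_sum (f := fun j => ‖a j‖ ^ 2) (fun j _ => by positivity)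
            (Finset.mem_univ i)
      _ = ((Fintype.card ι : ℝ) * ∑ i, ‖a i‖ ^ 2) • T := by rw [← Finset.smul_sum, smul_smul]
      _ ≤ C • T := smul_le_smul_of_nonneg_right (by linarith) hT0
  have hspec : ∀ t ∈ spectrum ℝ T, 0 < t := by
    have h : algebraMap ℝ B C⁻¹ ≤ T := by
      have := smul_le_smul_of_nonneg_left hle (inv_nonneg.2 hC0.le)
      rwa [inv_smul_smul₀ hC0.ne', ← Algebra.algebraMap_eq_smul_one] at this
    intro t ht
    exact (inv_pos.2 hC0).trans_le ((algebraMap_le_iff_le_spectrum (.of_nonneg hT0)).1 h t ht)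
  have hTsa : IsSelfAdjoint T := .of_nonneg hT0
  let is : ℝ → ℝ := fun t => (Real.sqrt t)⁻¹
  have hisc : ContinuousOn is (spectrum ℝ T) :=
    Real.continuous_sqrt.continuousOn.inv₀ fun t ht => (Real.sqrt_pos.2 (hspec t ht)).ne'
  set N := cfc is T with hN
  have hNsa : star N = N := (cfc_predicate is T : IsSelfAdjoint _).star_eq
  have hNTN : N * T * N = 1 := by
    conv_lhs => arg 1; arg 2; rw [← cfc_id' ℝ T hTsa]
    have hic : ContinuousOn (fun t => is t * t) (spectrum ℝ T) := hisc.mul continuousOn_id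
    rw [hN, ← cfc_mul is (fun t => t) T hisc continuousOn_id,
      ← cfc_mul (fun t => is t * t) is T hic hisc, ← cfc_const_one ℝ T hTsa]
    refine cfc_congr fun t ht => ?_
    have := (Real.sqrt_pos.2 (hspec t ht)).ne'
    simp only [is]
    field_simp
    rw [Real.sq_sqrt (hspec t ht).le]
  let e := (Fintype.equivFin ι).symm
  refine ⟨Fintype.card ι,
    ⟨⟨θ, cfc σ A, fun i => w (e i) * N, ⟨hstar, hord, ?_⟩, hsa σ, ?_, ?_, ?_, ?_⟩⟩⟩
  · simp only [Fin.forall_fin_two]
    refine ⟨⟨star y * R, ?_⟩, ⟨y * R, ?_⟩⟩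
    · rw [h00, star_mul, star_star, hsa, ← hRR, mul_assoc R y, ← mul_assoc y, ← hq,
        ← mul_assoc R, (hcq sψ).eq, mul_assoc q]
    · rw [h11, star_mul, hsa, ← hRR, mul_assoc R (star y), ← mul_assoc (star y), ← hp,
        ← mul_assoc R, (hcp sψ).eq, mul_assoc p]
  · rw [hdiag, hmul (h := fun t => 1 - g t * g t) hσc hσc fun t => Real.mul_self_sqrt
      (by nlinarith [hg0 t, hg1 t]),
      cfc_sub (fun _ : ℝ => (1 : ℝ)) (fun t => g t * g t) A (hf := continuousOn_const)
        (hg := (hgc.mul hgc).continuousOn), cfc_const_one ℝ A hAsa,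
      cfc_mul g g A hgc.continuousOn hgc.continuousOn]
  · simp only [Fin.forall_fin_two]
    exact ⟨⟨(hcq σ).mul_right (cfc_commute_cfc σ ψ A),
      (hcy σ).mul_right (cfc_commute_cfc σ φ A)⟩,
      (cfc_commute_cfc σ φ A).mul_right (hcy' σ),
      (hcp σ).mul_right (cfc_commute_cfc σ ψ A)⟩
  · intro i
    have : q * Ψ * (y * KA) = y * KA :=
      calc q * Ψ * (y * KA) = q * (Ψ * y) * KA := by simp only [mul_assoc]
        _ = q * y * (Ψ * KA) := by rw [show Ψ * y = y * Ψ from (hcy ψ).eq]; simp only [mul_assoc]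
        _ = y * (A * Ψ * KA) := by rw [hqy, hAy.eq]; simp only [mul_assoc]
        _ = y * KA := by rw [hAΨ, hmul hgc hKc hgK]
    simp only [h00, w, ← mul_assoc] at this ⊢
    rw [this]
  · calc ∑ i, star (w (e i) * N) * (w (e i) * N)
        = N * (∑ i, star (w (e i)) * w (e i)) * N := by
          simp only [star_mul, hNsa, Finset.mul_sum, Finset.sum_mul, mul_assoc]
      _ = 1 := by rw [e.sum_comp fun i => star (w i) * w i, ← hT, hNTN]

end Vale.Agent.P101.KR
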