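import Vale.Agent.P101.KR.DropHom

/-!
# P101: `Z_{n,n+1}` maps into every algebra containing its relations
-/

open scoped CStarAlgebra BoundedContinuousFunction ComplexOrder
open unitInterval

namespace Vale.Agent.P101.KR.DropDataN

variable {n : ℕ}

/-- The permutation matrix of the flip. -/
noncomputable def flipMatrix : DropFibre n :=
  CStarMatrix.ofMatrix fun p q => if flip p = q then 1 else 0

lemma flipMatrix_apply (p q : DropIndex n) :
    (flipMatrix : DropFibre n) p q = if flip p = q then 1 else 0 := rfl

lemma flipMatrix_mul (A : DropFibre n) (p q : DropIndex n) :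
    (flipMatrix * A : DropFibre n) p q = A (flip p) q := by
  simp [CStarMatrix.mul_apply, flipMatrix_apply]

lemma mul_flipMatrix (A : DropFibre n) (p q : DropIndex n) :
    (A * flipMatrix : DropFibre n) p q = A p (flip q) := by
  rw [CStarMatrix.mul_apply, Finset.sum_eq_single (flip q)]
  · simp [flipMatrix_apply, flip_flip]
  · intro l _ hl
    rw [flipMatrix_apply, if_neg fun e => hl (by rw [← e, flip_flip]), mul_zero]
  · simp

lemma flipMatrix_sq : (flipMatrix * flipMatrix : DropFibre n) = 1 := by
  ext p q
  rw [flipMatrix_mul, flipMatrix_apply, flip_flip, CStarMatrix.one_apply]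

lemma star_flipMatrix : star (flipMatrix : DropFibre n) = flipMatrix := by
  ext p q
  rw [CStarMatrix.star_apply, flipMatrix_apply, flipMatrix_apply]
  have : flip q = p ↔ flip p = q :=
    ⟨fun h => by rw [← h, flip_flip], fun h => by rw [← h, flip_flip]⟩
  simp only [this]
  split_ifs <;> simp

/-- `-exp (iπt)`. -/
noncomputable def phase (t : I) : ℂ := -Complex.exp ((Real.pi * (t : ℝ) : ℝ) * Complex.I)

lemma star_phase_mul (t : I) : star (phase t) * phase t = 1 := by
  rw [phase, star_neg, neg_mul_neg, Complex.star_def, ← Complex.exp_conj, map_mul,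
    Complex.conj_ofReal, Complex.conj_I, mul_neg, ← Complex.exp_add, neg_add_cancel,
    Complex.exp_zero]

/-- The path of unitaries from the flip to `1`. -/
noncomputable def turn : Paths n :=
  BoundedContinuousFunction.mkOfCompact ⟨fun t =>
    ((1 + phase t) / 2) • (1 : DropFibre n) + ((1 - phase t) / 2) • flipMatrix, by
      have : Continuous phase := by unfold phase; fun_prop
      fun_prop⟩

lemma turn_apply (t : I) :
    (turn : Paths n) t = ((1 + phase t) / 2) • (1 : DropFibre n) +
      ((1 - phase t) / 2) • flipMatrix := rfl

lemma turn_zero : (turn : Paths n) 0 = flipMatrix := by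
  simp [turn_apply, phase]

lemma turn_one : (turn : Paths n) 1 = 1 := by
  simp [turn_apply, phase, Complex.exp_pi_mul_I]

lemma turn_mul_star : (turn * star turn : Paths n) = 1 := by
  ext t : 1
  rw [BoundedContinuousFunction.mul_apply, BoundedContinuousFunction.star_apply,
    BoundedContinuousFunction.coe_one, Pi.one_apply, turn_apply]
  simp only [star_add, star_smul, star_one, star_flipMatrix, add_mul, mul_add, smul_mul_assoc,
    mul_smul_comm, one_mul, mul_one, flipMatrix_sq]
  have h := star_phase_mul t
  simp only [Complex.star_def, map_div₀, map_add, map_sub, map_one, map_ofNat] at h ⊢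
  match_scalars <;>
    first | linear_combination (1 / 2 : ℂ) * h | linear_combination (-1 / 2 : ℂ) * h

lemma star_turn_mul : (star turn * turn : Paths n) = 1 := by
  ext t : 1
  rw [BoundedContinuousFunction.mul_apply, BoundedContinuousFunction.star_apply,
    BoundedContinuousFunction.coe_one, Pi.one_apply, turn_apply]
  simp only [star_add, star_smul, star_one, star_flipMatrix, add_mul, mul_add, smul_mul_assoc,
    mul_smul_comm, one_mul, mul_one, flipMatrix_sq]
  have h := star_phase_mul t
  simp only [Complex.star_def, map_div₀, map_add, map_sub, map_one, map_ofNat] at h ⊢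
  match_scalars <;>
    first | linear_combination (1 / 2 : ℂ) * h | linear_combination (-1 / 2 : ℂ) * h

/-- Conjugation by the path. -/
noncomputable def conj (f : Paths n) : Paths n := turn * f * star turn

lemma conj_mul (f g : Paths n) : conj (f * g) = conj f * conj g := by
  simp only [conj, mul_assoc]
  rw [← mul_assoc (star turn) turn, star_turn_mul, one_mul]

variable [NeZero n]

/-- The value in `Mₙ` at the start. -/
noncomputable def startMatrix (f : Paths n) : Matrix (Fin n) (Fin n) ℂ := Matrix.of fun a b => f 0 (none, a) (none, b)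

/-- The value in `M_{n+1}` at the end. -/
noncomputable def endMatrix (f : Paths n) : Matrix (Option (Fin n)) (Option (Fin n)) ℂ :=
  Matrix.of fun j k => f 1 (j, 0) (k, 0)

lemma start_eq (f : dropAlg n) : (f : Paths n) 0 = embSmall (startMatrix f.1) := eq_embSmall f.2.1

lemma end_eq (f : dropAlg n) : (f : Paths n) 1 = embLarge (endMatrix f.1) := eq_embLarge f.2.2

/-- What is left after the two lines. -/
noncomputable def rest (f : Paths n) : Paths n :=
  conj f - lineSmall (startMatrix f) - lineLarge (endMatrix f)

lemma ends_rest (f : dropAlg n) : Ends (rest f.1) := by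
  constructor
  · have : conj f.1 0 = twisted (startMatrix f.1) := by
      ext p q
      simp only [conj, BoundedContinuousFunction.mul_apply, BoundedContinuousFunction.star_apply,
        turn_zero, star_flipMatrix, mul_flipMatrix, flipMatrix_mul, twisted_apply, start_eq]
    simp [rest, this, lineSmall, lineLarge, idC]
  · have : conj f.1 1 = embLarge (endMatrix f.1) := by
      simp [conj, turn_one, end_eq]
    simp [rest, this, lineSmall, lineLarge, idC]

lemma startMatrix_mul (f g : dropAlg n) :
    startMatrix (f * g).1 = startMatrix f.1 * startMatrix g.1 := by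
  ext a b
  show ((f.1 * g.1 : Paths n) 0) (none, a) (none, b) = _
  rw [BoundedContinuousFunction.mul_apply, start_eq, start_eq, embSmall_mul, embSmall_apply,
    if_pos rfl]

lemma endMatrix_mul (f g : dropAlg n) :
    endMatrix (f * g).1 = endMatrix f.1 * endMatrix g.1 := by
  ext j k
  show ((f.1 * g.1 : Paths n) 1) (j, 0) (k, 0) = _
  rw [BoundedContinuousFunction.mul_apply, end_eq, end_eq, embLarge_mul, embLarge_apply,
    if_pos rfl]

omit [NeZero n] in
lemma startMatrix_star (f : Paths n) : startMatrix (star f) = star (startMatrix f) := by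
  ext a b
  simp [startMatrix, Matrix.star_apply, CStarMatrix.star_apply]

lemma endMatrix_star (f : Paths n) : endMatrix (star f) = star (endMatrix f) := by
  ext j k
  simp [endMatrix, Matrix.star_apply, CStarMatrix.star_apply]

omit [NeZero n] in
lemma lineSmall_add (x x' : Matrix (Fin n) (Fin n) ℂ) :
    lineSmall (x + x') = lineSmall x + lineSmall x' := by
  have : twisted (x + x') = twisted x + twisted x' := by
    ext p q; simp only [twisted_apply, embSmall_apply, CStarMatrix.add_apply]; split_ifs <;> simp
  ext t : 1
  simp [lineSmall, this]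

omit [NeZero n] in
lemma lineLarge_add (y y' : Matrix (Option (Fin n)) (Option (Fin n)) ℂ) :
    lineLarge (y + y') = lineLarge y + lineLarge y' := by
  have : embLarge (y + y') = embLarge y + embLarge y' := by
    ext p q; simp only [embLarge_apply, CStarMatrix.add_apply]; split_ifs <;> simp
  ext t : 1
  simp [lineLarge, this]

variable {F : Type} [CStarAlgebra F] (D : DropDataN n F)

/-- The homomorphism, as a map of paths. -/
noncomputable def value (f : Paths n) : F :=
  D.φ₀ (startMatrix f) + D.φ₁ (endMatrix f) + D.mid (rest f)

lemma value_mul (f g : dropAlg n) : D.value (f * g).1 = D.value f.1 * D.value g.1 := by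
  have hr : rest (f * g).1 =
      conj f.1 * conj g.1 - lineSmall (startMatrix f.1 * startMatrix g.1) -
        lineLarge (endMatrix f.1 * endMatrix g.1) := by
    rw [rest, startMatrix_mul, endMatrix_mul, ← conj_mul]
    rfl
  set x := startMatrix f.1
  set x' := startMatrix g.1
  set y := endMatrix f.1
  set y' := endMatrix g.1
  set r := rest f.1 with hrf
  set r' := rest g.1 with hrg
  have hf : conj f.1 = lineSmall x + lineLarge y + r := by simp only [hrf, rest, x, y]; abel
  have hg : conj g.1 = lineSmall x' + lineLarge y' + r' := by simp only [hrg, rest, x', y']; abel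
  have er : Ends r := ends_rest f
  have er' : Ends r' := ends_rest g
  have e00 : Ends (lineSmall x * lineSmall x' - lineSmall (x * x')) :=
    ⟨by simp [lineSmall, idC, twisted_mul], by simp [lineSmall, idC]⟩
  have e11 : Ends (lineLarge y * lineLarge y' - lineLarge (y * y')) :=
    ⟨by simp [lineLarge, idC], by simp [lineLarge, idC, embLarge_mul]⟩
  have e01 : Ends (lineSmall x * lineLarge y') :=
    ⟨by simp [lineLarge, idC], by simp [lineSmall, idC]⟩
  have e10 : Ends (lineLarge y * lineSmall x') :=
    ⟨by simp [lineLarge, idC], by simp [lineSmall, idC]⟩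
  have hrm0 : D.mid r * D.φ₀ x' = D.mid (r * lineSmall x') := by
    have h : Ends (star r) := ⟨by simp [er.1], by simp [er.2]⟩
    have := congrArg star (D.φ₀_mul_mid (star x') h)
    simpa [D.star_mid h, D.star_mid (h.mul_left _), D.star_φ₀, star_lineSmall] using this
  have hrm1 : D.mid r * D.φ₁ y' = D.mid (r * lineLarge y') := by
    have h : Ends (star r) := ⟨by simp [er.1], by simp [er.2]⟩
    have := congrArg star (D.φ₁_mul_mid (star y') h)
    simpa [D.star_mid h, D.star_mid (h.mul_left _), D.star_φ₁, star_lineLarge] using this
  simp only [value, startMatrix_mul, endMatrix_mul, hr]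
  rw [hf, hg, show (lineSmall x + lineLarge y + r) * (lineSmall x' + lineLarge y' + r') -
      lineSmall (x * x') - lineLarge (y * y') =
      (lineSmall x * lineSmall x' - lineSmall (x * x')) +
      (lineLarge y * lineLarge y' - lineLarge (y * y')) + lineSmall x * lineLarge y' +
      lineLarge y * lineSmall x' + lineSmall x * r' + lineLarge y * r' + r * lineSmall x' +
      r * lineLarge y' + r * r' by noncomm_ring,
    D.mid_add (((((((e00.add e11).add e01).add e10).add (er'.mul_left _)).add
      (er'.mul_left _)).add (er.mul_right _)).add (er.mul_right _)) (er.mul_right _),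
    D.mid_add ((((((e00.add e11).add e01).add e10).add (er'.mul_left _)).add
      (er'.mul_left _)).add (er.mul_right _)) (er.mul_right _),
    D.mid_add (((((e00.add e11).add e01).add e10).add (er'.mul_left _)).add
      (er'.mul_left _)) (er.mul_right _),
    D.mid_add ((((e00.add e11).add e01).add e10).add (er'.mul_left _)) (er'.mul_left _),
    D.mid_add (((e00.add e11).add e01).add e10) (er'.mul_left _),
    D.mid_add ((e00.add e11).add e01) e10, D.mid_add (e00.add e11) e01, D.mid_add e00 e11]
  simp only [add_mul, mul_add, D.φ₀_mul_φ₀', D.φ₁_mul_φ₁', D.φ₀_mul_φ₁', D.φ₁_mul_φ₀',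
    D.φ₀_mul_mid _ er', D.φ₁_mul_mid _ er', hrm0, hrm1, D.mid_mul_mid er er', x, x', y, y', r, r']
  abel

lemma value_add (f g : dropAlg n) : D.value (f + g).1 = D.value f.1 + D.value g.1 := by
  have hs : startMatrix (f + g).1 = startMatrix f.1 + startMatrix g.1 := rfl
  have he : endMatrix (f + g).1 = endMatrix f.1 + endMatrix g.1 := rfl
  have hr : rest (f + g).1 = rest f.1 + rest g.1 := by
    rw [rest, hs, he, lineSmall_add, lineLarge_add, show conj (f + g).1 = conj f.1 + conj g.1 by
      simp [conj, mul_add, add_mul]]
    simp only [rest]; abel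
  simp only [value, hr, D.mid_add (ends_rest f) (ends_rest g), hs, he, φ₀, φ₁, Matrix.add_apply,
    add_smul, Finset.sum_add_distrib]
  abel

lemma value_star (f : dropAlg n) : D.value (star f).1 = star (D.value f.1) := by
  have hr : rest (star f.1) = star (rest f.1) := by
    simp [rest, conj, startMatrix_star, endMatrix_star, star_lineSmall, star_lineLarge, mul_assoc]
  simp [value, startMatrix_star, endMatrix_star, hr, D.star_φ₀, D.star_φ₁,
    D.star_mid (ends_rest f)]

lemma value_algebraMap (c : ℂ) :
    D.value (algebraMap ℂ (Paths n) c) = algebraMap ℂ F c := by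
  have hs : startMatrix (algebraMap ℂ (Paths n) c) = c • 1 := by
    ext a b
    simp [startMatrix, Algebra.algebraMap_eq_smul_one, CStarMatrix.one_apply, Matrix.one_apply]
  have he : endMatrix (algebraMap ℂ (Paths n) c) = c • 1 := by
    ext j k
    simp [endMatrix, Algebra.algebraMap_eq_smul_one, CStarMatrix.one_apply, Matrix.one_apply]
  have ht : twisted (c • 1 : Matrix (Fin n) (Fin n) ℂ) = c • 1 := by
    rw [← twisted_one]; ext p q; simp
  have hl : embLarge (c • 1 : Matrix (Option (Fin n)) (Option (Fin n)) ℂ) = c • 1 := by
    rw [← embLarge_one]; ext p q; simp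
  have hr : rest (algebraMap ℂ (Paths n) c) = 0 := by
    rw [rest, hs, he, conj, ← Algebra.commutes, mul_assoc, turn_mul_star, mul_one]
    ext t : 1
    simp only [lineSmall, lineLarge, BoundedContinuousFunction.sub_apply,
      BoundedContinuousFunction.mul_apply, sc_apply, cst_apply, ht, hl, smul_mul_assoc, one_mul,
      smul_smul]
    simp [Algebra.algebraMap_eq_smul_one, idC]
    match_scalars
    ring
  have h0 : D.φ₀ (c • 1) = c • (1 - D.τ) := by
    rw [← D.φ₀_one]; simp [φ₀, smul_smul, Finset.smul_sum]
  have h1 : D.φ₁ (c • 1) = c • D.τ := by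
    rw [← D.φ₁_one]; simp [φ₁, smul_smul, Finset.smul_sum]
  rw [value, hs, he, hr, D.mid_zero, h0, h1, add_zero, ← smul_add, sub_add_cancel,
    Algebra.algebraMap_eq_smul_one]

/-- The homomorphism `Z_{n,n+1} → F`. -/
noncomputable def toHom : dropAlg n →⋆ₐ[ℂ] F where
  toFun f := D.value f.1
  map_one' := by
    have := D.value_algebraMap 1
    rwa [map_one, map_one] at this
  map_mul' := D.value_mul
  map_zero' := by
    have := D.value_algebraMap 0
    rwa [map_zero, map_zero] at this
  map_add' := D.value_add
  commutes' := D.value_algebraMap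
  map_star' := D.value_star

end Vale.Agent.P101.KR.DropDataN

namespace Vale.Agent.P101.KR

/-- The relations of `Z_{n,n+1}` give a homomorphism out of it. -/
theorem dropHom_of : DropHomStatement := fun _ _ _ _ D => ⟨D.toHom⟩

end Vale.Agent.P101.KR
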