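import Mathlib

/-!
P101: the norm ultrapower `A_ω` as a C*-algebra.
-/

namespace Vale.Agent.P101.KR

open Filter Topology BoundedContinuousFunction

noncomputable section

variable (A : Type) [CStarAlgebra A] (ω : Ultrafilter ℕ)


variable {A ω}

/-- The limit of the norms along `ω`. -/
def omegaNorm (ω : Ultrafilter ℕ) (x : ℕ →ᵇ A) : ℝ := limUnder (ω : Filter ℕ) fun n => ‖x n‖

theorem tendsto_omegaNorm (ω : Ultrafilter ℕ) (x : ℕ →ᵇ A) :
    Tendsto (fun n => ‖x n‖) (ω : Filter ℕ) (𝓝 (omegaNorm ω x)) := by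
  refine tendsto_nhds_limUnder ?_
  obtain ⟨c, -, hc⟩ := (isCompact_Icc (a := (0 : ℝ)) (b := ‖x‖)).ultrafilter_le_nhds
    (ω.map fun n => ‖x n‖) (by
      rw [le_principal_iff, Ultrafilter.coe_map]
      exact Filter.mem_map.2 (Eventually.of_forall fun n => ⟨norm_nonneg _, x.norm_coe_le_norm n⟩))
  exact ⟨c, hc⟩

theorem omegaNorm_eq {ω : Ultrafilter ℕ} {x : ℕ →ᵇ A} {c : ℝ}
    (h : Tendsto (fun n => ‖x n‖) (ω : Filter ℕ) (𝓝 c)) : omegaNorm ω x = c :=
  tendsto_nhds_unique (tendsto_omegaNorm ω x) h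

theorem omegaNorm_nonneg (ω : Ultrafilter ℕ) (x : ℕ →ᵇ A) : 0 ≤ omegaNorm ω x :=
  ge_of_tendsto' (tendsto_omegaNorm ω x) fun _ => norm_nonneg _

theorem omegaNorm_add (ω : Ultrafilter ℕ) (x y : ℕ →ᵇ A) :
    omegaNorm ω (x + y) ≤ omegaNorm ω x + omegaNorm ω y :=
  le_of_tendsto_of_tendsto' (tendsto_omegaNorm ω (x + y))
    ((tendsto_omegaNorm ω x).add (tendsto_omegaNorm ω y)) fun n => norm_add_le (x n) (y n)

theorem omegaNorm_mul (ω : Ultrafilter ℕ) (x y : ℕ →ᵇ A) :
    omegaNorm ω (x * y) ≤ omegaNorm ω x * omegaNorm ω y :=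
  le_of_tendsto_of_tendsto' (tendsto_omegaNorm ω (x * y))
    ((tendsto_omegaNorm ω x).mul (tendsto_omegaNorm ω y)) fun n => norm_mul_le (x n) (y n)

theorem omegaNorm_neg (ω : Ultrafilter ℕ) (x : ℕ →ᵇ A) : omegaNorm ω (-x) = omegaNorm ω x :=
  omegaNorm_eq ((tendsto_omegaNorm ω x).congr fun n => by simp)

theorem omegaNorm_zero (ω : Ultrafilter ℕ) : omegaNorm ω (0 : ℕ →ᵇ A) = 0 :=
  omegaNorm_eq (by simp)

theorem omegaNorm_smul (ω : Ultrafilter ℕ) (c : ℂ) (x : ℕ →ᵇ A) :
    omegaNorm ω (c • x) = ‖c‖ * omegaNorm ω x :=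
  omegaNorm_eq (((tendsto_omegaNorm ω x).const_mul ‖c‖).congr fun n => (norm_smul c (x n)).symm)

theorem omegaNorm_star (ω : Ultrafilter ℕ) (x : ℕ →ᵇ A) : omegaNorm ω (star x) = omegaNorm ω x :=
  omegaNorm_eq ((tendsto_omegaNorm ω x).congr fun n => (norm_star (x n)).symm)

theorem omegaNorm_star_mul_self (ω : Ultrafilter ℕ) (x : ℕ →ᵇ A) :
    omegaNorm ω (star x * x) = omegaNorm ω x * omegaNorm ω x :=
  omegaNorm_eq (((tendsto_omegaNorm ω x).mul (tendsto_omegaNorm ω x)).congr fun n =>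
    (CStarRing.norm_star_mul_self (x := x n)).symm)

/-- Bounded sequences with the norm along `ω`. -/
def OSeq (A : Type) [CStarAlgebra A] (_ω : Ultrafilter ℕ) : Type := ℕ →ᵇ A

instance : Ring (OSeq A ω) := inferInstanceAs (Ring (ℕ →ᵇ A))
instance : Algebra ℂ (OSeq A ω) := inferInstanceAs (Algebra ℂ (ℕ →ᵇ A))
instance : StarRing (OSeq A ω) := inferInstanceAs (StarRing (ℕ →ᵇ A))
instance : StarModule ℂ (OSeq A ω) := inferInstanceAs (StarModule ℂ (ℕ →ᵇ A))

/-- The bounded sequence behind an element. -/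
def OSeq.toBCF : OSeq A ω →⋆ₐ[ℂ] (ℕ →ᵇ A) := StarAlgHom.id ℂ (ℕ →ᵇ A)

/-- A bounded sequence as an element. -/
def OSeq.ofBCF : (ℕ →ᵇ A) →⋆ₐ[ℂ] OSeq A ω := StarAlgHom.id ℂ (ℕ →ᵇ A)

/-- The seminorm along `ω`. -/
def omegaSeminorm (A : Type) [CStarAlgebra A] (ω : Ultrafilter ℕ) : RingSeminorm (OSeq A ω) where
  toFun x := omegaNorm ω x.toBCF
  map_zero' := omegaNorm_zero ω
  add_le' x y := omegaNorm_add ω x.toBCF y.toBCF
  neg' x := omegaNorm_neg ω x.toBCF
  mul_le' x y := omegaNorm_mul ω x.toBCF y.toBCF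

instance : SeminormedRing (OSeq A ω) :=
  { (omegaSeminorm A ω).toSeminormedRing with toRing := inferInstance }

theorem OSeq.norm_def (x : OSeq A ω) : ‖x‖ = omegaNorm ω x.toBCF := rfl

instance : NormedAlgebra ℂ (OSeq A ω) where
  norm_smul_le c x := le_of_eq (omegaNorm_smul ω c x.toBCF)

instance : NormedStarGroup (OSeq A ω) where
  norm_star_le x := le_of_eq (omegaNorm_star ω x.toBCF)

/-- Truncation does not change the class along `ω`. -/
theorem exists_small (x : OSeq A ω) {c : ℝ} (hc : ‖x‖ < c) :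
    ∃ y : OSeq A ω, ‖x - y‖ = 0 ∧ ∀ n, ‖y.toBCF n‖ ≤ c := by
  classical
  have hc0 : 0 ≤ c := (omegaNorm_nonneg ω _).trans hc.le
  have hb : ∀ n, ‖(if ‖x.toBCF n‖ ≤ c then x.toBCF n else 0)‖ ≤ c := fun n => by
    split_ifs with h
    · exact h
    · simpa using hc0
  refine ⟨OSeq.ofBCF (BoundedContinuousFunction.ofNormedAddCommGroup _
    continuous_of_discreteTopology c hb), ?_, hb⟩
  refine omegaNorm_eq (tendsto_const_nhds.congr' ?_)
  have h : ∀ᶠ n in (ω : Filter ℕ), ‖x.toBCF n‖ < c :=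
    (tendsto_omegaNorm ω x.toBCF).eventually (gt_mem_nhds hc)
  filter_upwards [h] with n hn
  show (0 : ℝ) = ‖x.toBCF n - (if ‖x.toBCF n‖ ≤ c then x.toBCF n else 0)‖
  rw [if_pos hn.le, sub_self, norm_zero]

instance : CompleteSpace (OSeq A ω) := by
  refine Metric.complete_of_convergent_controlled_sequences (fun n => (1 / 2 : ℝ) ^ n)
    (fun n => by positivity) fun u hu => ?_
  have hd : ∀ k, ∃ y : OSeq A ω, ‖(u (k + 1) - u k) - y‖ = 0 ∧
      ∀ n, ‖y.toBCF n‖ ≤ (1 / 2 : ℝ) ^ k := fun k =>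
    exists_small _ (by rw [← dist_eq_norm]; exact hu k (k + 1) k (Nat.le_succ k) le_rfl)
  choose y hy0 hyb using hd
  have hsum : Summable fun k => (y k).toBCF := by
    refine Summable.of_norm_bounded summable_geometric_two fun k => ?_
    exact (BoundedContinuousFunction.norm_le (by positivity)).2 (hyb k)
  refine ⟨u 0 + OSeq.ofBCF (∑' k, (y k).toBCF), ?_⟩
  have hpart : ∀ N, ‖u N - (u 0 + ∑ k ∈ Finset.range N, y k)‖ = 0 := by
    intro N
    have e : u N - (u 0 + ∑ k ∈ Finset.range N, y k)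
        = ∑ k ∈ Finset.range N, ((u (k + 1) - u k) - y k) := by
      rw [Finset.sum_sub_distrib, Finset.sum_range_sub]; abel
    rw [e]
    exact le_antisymm ((norm_sum_le _ _).trans (le_of_eq (Finset.sum_eq_zero fun k _ => hy0 k)))
      (norm_nonneg _)
  refine tendsto_iff_norm_sub_tendsto_zero.2 (squeeze_zero (fun N => norm_nonneg _) (fun N => ?_)
    (tendsto_iff_norm_sub_tendsto_zero.1 hsum.hasSum.tendsto_sum_nat))
  calc ‖u N - (u 0 + OSeq.ofBCF (∑' k, (y k).toBCF))‖
      ≤ ‖u N - (u 0 + ∑ k ∈ Finset.range N, y k)‖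
        + ‖(∑ k ∈ Finset.range N, y k) - OSeq.ofBCF (∑' k, (y k).toBCF)‖ := by
        refine le_of_eq_of_le ?_ (norm_add_le _ _)
        congr 1; abel
    _ ≤ _ := by
        rw [hpart, zero_add, OSeq.norm_def, map_sub, map_sum]
        exact le_of_tendsto' (tendsto_omegaNorm ω _) fun n =>
          BoundedContinuousFunction.norm_coe_le_norm _ n

/-- The ultrapower `A_ω`. -/
abbrev AOmega (A : Type) [CStarAlgebra A] (ω : Ultrafilter ℕ) : Type := SeparationQuotient (OSeq A ω)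

instance : Star (AOmega A ω) :=
  ⟨Quotient.map' star fun x y h => by
    have h' : Inseparable x y := h
    show Inseparable (star x) (star y)
    rw [Metric.inseparable_iff, dist_eq_norm] at h' ⊢
    rw [← star_sub, norm_star, h']⟩

theorem mk_star (x : OSeq A ω) :
    SeparationQuotient.mk (star x) = star (SeparationQuotient.mk x : AOmega A ω) := rfl

instance : StarRing (AOmega A ω) where
  star_involutive x := by
    obtain ⟨x, rfl⟩ := SeparationQuotient.surjective_mk x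
    rw [← mk_star, ← mk_star, star_star]
  star_mul x y := by
    obtain ⟨x, rfl⟩ := SeparationQuotient.surjective_mk x
    obtain ⟨y, rfl⟩ := SeparationQuotient.surjective_mk y
    rw [← SeparationQuotient.mk_mul, ← mk_star, ← mk_star, ← mk_star, star_mul,
      SeparationQuotient.mk_mul]
  star_add x y := by
    obtain ⟨x, rfl⟩ := SeparationQuotient.surjective_mk x
    obtain ⟨y, rfl⟩ := SeparationQuotient.surjective_mk y
    rw [← SeparationQuotient.mk_add, ← mk_star, ← mk_star, ← mk_star, star_add,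
      SeparationQuotient.mk_add]

instance : StarModule ℂ (AOmega A ω) where
  star_smul c x := by
    obtain ⟨x, rfl⟩ := SeparationQuotient.surjective_mk x
    rw [← SeparationQuotient.mk_smul, ← mk_star, ← mk_star, star_smul, SeparationQuotient.mk_smul]

instance : CStarRing (AOmega A ω) where
  norm_mul_self_le x := by
    obtain ⟨x, rfl⟩ := SeparationQuotient.surjective_mk x
    rw [← mk_star, ← SeparationQuotient.mk_mul, SeparationQuotient.norm_mk, SeparationQuotient.norm_mk]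
    exact (omegaNorm_star_mul_self ω x.toBCF).ge

instance : CStarAlgebra (AOmega A ω) where

/-- The class of a bounded sequence. -/
def cls (ω : Ultrafilter ℕ) : (ℕ →ᵇ A) →⋆ₐ[ℂ] AOmega A ω where
  toFun x := SeparationQuotient.mk (OSeq.ofBCF (ω := ω) x)
  map_one' := rfl
  map_zero' := rfl
  map_mul' _ _ := rfl
  map_add' _ _ := rfl
  commutes' _ := rfl
  map_star' _ := rfl

theorem norm_cls (x : ℕ →ᵇ A) : ‖cls ω x‖ = omegaNorm ω x := rfl

theorem cls_surjective : Function.Surjective (cls (A := A) ω) := fun z => by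
  obtain ⟨x, rfl⟩ := SeparationQuotient.surjective_mk z
  exact ⟨x.toBCF, rfl⟩

theorem cls_eq_iff {x y : ℕ →ᵇ A} :
    cls ω x = cls ω y ↔ Tendsto (fun n => ‖x n - y n‖) (ω : Filter ℕ) (𝓝 0) := by
  rw [← sub_eq_zero, ← map_sub, ← norm_eq_zero, norm_cls]
  exact ⟨fun h => h ▸ tendsto_omegaNorm ω (x - y), fun h => omegaNorm_eq h⟩

/-- The constant sequences. -/
def emb (ω : Ultrafilter ℕ) : A →⋆ₐ[ℂ] AOmega A ω :=
  (cls ω).comp
    { toFun := fun a => BoundedContinuousFunction.const ℕ a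
      map_one' := rfl
      map_zero' := rfl
      map_mul' := fun _ _ => rfl
      map_add' := fun _ _ => rfl
      commutes' := fun _ => rfl
      map_star' := fun _ => rfl }

/-- `A_ω ∩ A'`. -/
def central (A : Type) [CStarAlgebra A] (ω : Ultrafilter ℕ) : StarSubalgebra ℂ (AOmega A ω) :=
  StarSubalgebra.centralizer ℂ (Set.range (emb (A := A) ω))

theorem mem_central {x : AOmega A ω} :
    x ∈ central A ω ↔ ∀ a, emb ω a * x = x * emb ω a := by
  rw [central, StarSubalgebra.mem_centralizer_iff]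
  constructor
  · exact fun h a => (h _ ⟨a, rfl⟩).1
  · rintro h _ ⟨a, rfl⟩
    refine ⟨h a, ?_⟩
    rw [← map_star]
    exact h _

theorem cls_mem_central {x : ℕ →ᵇ A} :
    cls ω x ∈ central A ω ↔
      ∀ a : A, Tendsto (fun n => ‖a * x n - x n * a‖) (ω : Filter ℕ) (𝓝 0) := by
  rw [mem_central]
  refine forall_congr' fun a => ?_
  show cls ω _ * cls ω x = cls ω x * cls ω _ ↔ _
  rw [← map_mul, ← map_mul, cls_eq_iff]
  rfl

theorem isClosed_central : IsClosed (central A ω : Set (AOmega A ω)) := by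
  have e : (central A ω : Set (AOmega A ω)) = ⋂ a, {x | emb ω a * x = x * emb ω a} := by
    ext x
    simp [mem_central]
  rw [e]
  exact isClosed_iInter fun a =>
    isClosed_eq (continuous_const.fun_mul continuous_id) (continuous_id.fun_mul continuous_const)

end

end Vale.Agent.P101.KR
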