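import Vale.Agent.P101.KR.Defs

/-!
# P101: module interfaces for the character question
-/

namespace Vale.Agent.P101.KR

instance isClosed_Cl {F : Type*} [CStarAlgebra F] (s : Set F) : IsClosed (Cl s : Set F) :=
  StarSubalgebra.isClosed_topologicalClosure _

/-- Every separably generated unital subalgebra has any number of commuting copies. -/
def HasCopies (F : Type*) [CStarAlgebra F] : Prop :=
  ∀ s : Set F, s.Countable → ∀ m, Nonempty (Copies (Cl s) F m)

/-- The copies generate. -/
def Copies.Generates {B D : Type*} [CStarAlgebra B] [CStarAlgebra D] {m : ℕ} (κ : Copies B D m) :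
    Prop :=
  Cl (⋃ i, Set.range (κ.hom i)) = ⊤

/-- The commutators with one element. -/
def bracketSet {B : Type*} [CStarAlgebra B] (H : B) : Set B := Set.range fun c => H * c - c * H

/-- The ordered product of the roots `s` over all positions. -/
def sProd {B D : Type*} [CStarAlgebra B] [CStarAlgebra D] {k m : ℕ} (κ : Copies B D m)
    (σ : Seed B k) : D :=
  (List.ofFn fun l => κ.hom l σ.s).prod

/-- Without characters, finitely many self-adjoint elements have jointly full commutators. -/
def StartStatement : Prop :=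
  ∀ (F : Type) [CStarAlgebra F], NoCharacter F → ∃ s : Set F, s.Countable ∧
    ∃ (N : ℕ) (x : Fin N → Cl s), (∀ c, IsSelfAdjoint (x c)) ∧
      Full (⋃ c, ⋃ d, {x c * x d - x d * x c})

/-- Step 1 of the note: one element which is nowhere scalar. -/
def NonScalarStatement : Prop :=
  ∀ (B : Type) [CStarAlgebra B] (N : ℕ) (x : Fin N → B), 0 < N → (∀ c, IsSelfAdjoint (x c)) →
    Full (⋃ c, ⋃ d, {x c * x d - x d * x c}) →
    ∀ (D : Type) [CStarAlgebra D] (κ : Copies B D (2 * N)), κ.Generates →
      ∃ H : D, IsSelfAdjoint H ∧ Full (bracketSet H)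

/-- Step 2 of the note: two orthogonal full elements. -/
def OrthStatement : Prop :=
  ∀ (B : Type) [CStarAlgebra B] (H : B), IsSelfAdjoint H → Full (bracketSet H) →
    ∃ M : ℕ, ∀ (D : Type) [CStarAlgebra D] (κ : Copies B D M), κ.Generates →
      ∃ a b : D, IsSelfAdjoint a ∧ IsSelfAdjoint b ∧ a * b = 0 ∧ Full {a} ∧ Full {b}

/-- Step 3 of the note: a full element of square zero. -/
def GlimmStatement : Prop :=
  ∀ (B : Type) [CStarAlgebra B] (a b : B), IsSelfAdjoint a → IsSelfAdjoint b → a * b = 0 →
    Full {a} → Full {b} →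
    ∃ m : ℕ, ∀ (D : Type) [CStarAlgebra D] (κ : Copies B D m), κ.Generates →
      ∃ y : D, y * y = 0 ∧ Full {y}

/-- Step 4 of the note: the seed. -/
def SeedStatement : Prop :=
  ∀ (B : Type) [CStarAlgebra B] (y : B), y * y = 0 → Full {y} → ∃ k, Nonempty (Seed B k)

/-- Step 5 of the note: merging the order zero maps of all positions. -/
def MergeStatement : Prop :=
  ∀ (B D : Type) [CStarAlgebra B] [CStarAlgebra D] (k m : ℕ) (σ : Seed B k) (κ : Copies B D m),
    ∃ (P : Fin 2 → Fin 2 → D) (r : D), OrderZero P ∧ star r = r ∧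
      Commute r (sProd κ σ) ∧ 1 - diag P = sProd κ σ * sProd κ σ * (r * r) ∧
      ∀ l, ∃ U : D, (∀ l', Commute U (κ.hom l' σ.s) ∧ Commute U (κ.hom l' (diag σ.θ))) ∧
        ∀ e, κ.hom l (σ.θ 0 0) * e = e → P 0 0 * (U * e) = U * e ∧ star U * (U * e) = e

/-- The polar limit: `p² ≤ x*x` gives `w*w = p²` with `w` in the closure of `x D`. -/
def PolarStatement : Prop :=
  ∀ (D : Type) [CStarAlgebra D] (x p d : D), star p = p → star x * x - p * p = star d * d →
    ∃ w : D, star w * w = p * p ∧ ∀ l, l * x = x → l * w = w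

/-- Step 6 of the note: the covering. -/
def CoverStatement : Prop :=
  ∀ (B D : Type) [CStarAlgebra B] [CStarAlgebra D] (k : ℕ) (_ : Seed B k)
    (_ : Copies B D (k * k + 1)), Nonempty (DropData D)

/-- The theorem for an abstract algebra with copies. -/
def CoreStatement : Prop :=
  ∀ (F : Type) [CStarAlgebra F], HasCopies F → NoCharacter F → Nonempty (DropData F)

end Vale.Agent.P101.KR
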