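import Vale.Agent.P101.KR.Omega
import Vale.Agent.P101.KR.Interfaces

/-!
P101: the central sequence algebra has commuting copies of its separable subalgebras.
-/

namespace Vale.Agent.P101.KR

open Filter Topology BoundedContinuousFunction TopologicalSpace

noncomputable section

instance isClosed_central_inst (A : Type) [CStarAlgebra A] (ω : Ultrafilter ℕ) :
    IsClosed (central A ω : Set (AOmega A ω)) :=
  isClosed_central

/-- `F_ω(A) = A_ω ∩ A'`. -/
abbrev CentralAlgebra (ω : Ultrafilter ℕ) (A : Type) [CStarAlgebra A] : Type := ↥(central A ω)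

variable {A : Type} [CStarAlgebra A] {ω : Ultrafilter ℕ}

theorem norm_cls_le (x : ℕ →ᵇ A) : ‖cls ω x‖ ≤ ‖x‖ :=
  le_of_tendsto' (tendsto_omegaNorm ω x) fun n => x.norm_coe_le_norm n

theorem continuous_cls : Continuous (cls (A := A) ω) :=
  AddMonoidHomClass.continuous_of_bound (cls ω) 1 fun x => by simpa using norm_cls_le x

/-- Reindexing of bounded sequences. -/
def reindex (φ : ℕ → ℕ) : (ℕ →ᵇ A) →⋆ₐ[ℂ] (ℕ →ᵇ A) where
  toFun x := x.compContinuous ⟨φ, continuous_of_discreteTopology⟩
  map_one' := rfl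
  map_zero' := rfl
  map_mul' _ _ := rfl
  map_add' _ _ := rfl
  commutes' _ := rfl
  map_star' _ := rfl

theorem reindex_apply (φ : ℕ → ℕ) (x : ℕ →ᵇ A) (n : ℕ) : reindex φ x n = x (φ n) := rfl

theorem continuous_reindex (φ : ℕ → ℕ) : Continuous (reindex (A := A) φ) :=
  AddMonoidHomClass.continuous_of_bound (reindex φ) 1 fun x => by
    rw [one_mul]
    exact (BoundedContinuousFunction.norm_le (norm_nonneg x)).2 fun n => x.norm_coe_le_norm _

theorem tendsto_commutator {x y : ℕ →ᵇ A} (h : Commute (cls ω x) (cls ω y)) :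
    Tendsto (fun n => ‖x n * y n - y n * x n‖) (ω : Filter ℕ) (𝓝 0) := by
  have h' : cls ω (x * y) = cls ω (y * x) := by rw [map_mul, map_mul]; exact h
  exact cls_eq_iff.1 h'

theorem eventually_fine (hω : (ω : Filter ℕ) ≤ cofinite) (n : ℕ) :
    ∀ᶠ k in (ω : Filter ℕ), n ≤ k :=
  hω.trans Nat.cofinite_eq_atTop.le (eventually_ge_atTop n)

theorem exists_reindex [SeparableSpace A] [Nonempty A] (hω : (ω : Filter ℕ) ≤ cofinite)
    (d : ℕ → ℕ →ᵇ A) (hd : ∀ i, cls ω (d i) ∈ central A ω) :
    ∃ φ : ℕ → ℕ, ∀ i, ‖cls ω (reindex φ (d i))‖ = ‖cls ω (d i)‖ ∧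
      cls ω (reindex φ (d i)) ∈ central A ω ∧
      ∀ j, Commute (cls ω (reindex φ (d i))) (cls ω (d j)) := by
  set a : ℕ → A := denseSeq A with ha
  have key : ∀ n : ℕ, ∃ m : ℕ, ∀ i ≤ n,
      |‖d i m‖ - ‖cls ω (d i)‖| < 1 / (n + 1 : ℝ) ∧
      (∀ l ≤ n, ‖a l * d i m - d i m * a l‖ < 1 / (n + 1 : ℝ)) ∧
      ∀ j ≤ n, ‖d i m * d j n - d j n * d i m‖ < 1 / (n + 1 : ℝ) := by
    intro n
    have hpos : (0 : ℝ) < 1 / (n + 1 : ℝ) := by positivity
    have hev : ∀ᶠ m in (ω : Filter ℕ), ∀ i ≤ n,
        |‖d i m‖ - ‖cls ω (d i)‖| < 1 / (n + 1 : ℝ) ∧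
        (∀ l ≤ n, ‖a l * d i m - d i m * a l‖ < 1 / (n + 1 : ℝ)) ∧
        ∀ j ≤ n, ‖d i m * d j n - d j n * d i m‖ < 1 / (n + 1 : ℝ) := by
      refine (Set.finite_Iic n).eventually_all.2 fun i _ => ?_
      have hc := fun b : A => (cls_mem_central.1 (hd i) b).eventually (gt_mem_nhds hpos)
      refine Eventually.and ?_ (Eventually.and ?_ ?_)
      · have h1 := (tendsto_omegaNorm ω (d i)).sub_const ‖cls ω (d i)‖
        rw [norm_cls, sub_self] at h1
        exact (h1.abs.eventually (gt_mem_nhds (by simpa using hpos))).mono fun m hm => hm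
      · exact (Set.finite_Iic n).eventually_all.2 fun l _ => hc (a l)
      · refine (Set.finite_Iic n).eventually_all.2 fun j _ => ?_
        exact (hc (d j n)).mono fun m hm => by rwa [norm_sub_rev]
    exact hev.exists
  choose φ hφ using key
  have hsmall : Tendsto (fun n : ℕ => 1 / (n + 1 : ℝ)) (ω : Filter ℕ) (𝓝 0) :=
    tendsto_one_div_add_atTop_nhds_zero_nat.mono_left (hω.trans Nat.cofinite_eq_atTop.le)
  refine ⟨φ, fun i => ⟨?_, ?_, fun j => ?_⟩⟩
  · rw [norm_cls, norm_cls]
    refine omegaNorm_eq (tendsto_iff_norm_sub_tendsto_zero.2 ?_)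
    refine squeeze_zero' (Eventually.of_forall fun _ => norm_nonneg _) ?_ hsmall
    filter_upwards [eventually_fine hω i] with n hn
    simpa [reindex_apply, norm_cls, Real.norm_eq_abs] using ((hφ n i hn).1).le
  · refine cls_mem_central.2 fun b => ?_
    refine Metric.tendsto_nhds.2 fun ε hε => ?_
    have hB : 0 ≤ ‖d i‖ := norm_nonneg _
    obtain ⟨l, hl⟩ := (denseRange_denseSeq A).exists_dist_lt b
      (show (0 : ℝ) < ε / (4 * (‖d i‖ + 1)) by positivity)
    filter_upwards [eventually_fine hω i, eventually_fine hω l,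
      hsmall.eventually (gt_mem_nhds (show (0 : ℝ) < ε / 2 by positivity))] with n hn hln hs
    have h1 := ((hφ n i hn).2.1 l hln).trans hs
    rw [dist_zero_right, norm_norm, reindex_apply]
    set w := d i (φ n)
    have hw : ‖w‖ ≤ ‖d i‖ := (d i).norm_coe_le_norm _
    have e : b * w - w * b = (b - a l) * w - w * (b - a l) + (a l * w - w * a l) := by noncomm_ring
    rw [e]
    have hbl : ‖b - a l‖ < ε / (4 * (‖d i‖ + 1)) := by rwa [← dist_eq_norm]
    have hb' : ‖b - a l‖ * ‖w‖ ≤ ε / 4 := by
      calc ‖b - a l‖ * ‖w‖ ≤ ε / (4 * (‖d i‖ + 1)) * (‖d i‖ + 1) :=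
            mul_le_mul hbl.le (hw.trans (by linarith)) (norm_nonneg _) (by positivity)
        _ = ε / 4 := by field_simp
    calc ‖(b - a l) * w - w * (b - a l) + (a l * w - w * a l)‖
        ≤ ‖(b - a l) * w‖ + ‖w * (b - a l)‖ + ‖a l * w - w * a l‖ :=
          (norm_add_le _ _).trans (add_le_add (norm_sub_le _ _) le_rfl)
      _ < ε := by
          have h2 := norm_mul_le (b - a l) w
          have h3 := norm_mul_le w (b - a l)
          linarith [mul_comm ‖w‖ ‖b - a l‖]
  · show cls ω _ * cls ω _ = cls ω _ * cls ω _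
    rw [← map_mul, ← map_mul, cls_eq_iff]
    refine squeeze_zero' (Eventually.of_forall fun _ => norm_nonneg _) ?_ hsmall
    filter_upwards [eventually_fine hω i, eventually_fine hω j] with n hn hjn
    exact ((hφ n i hn).2.2 j hjn).le

theorem isSeparable_adjoin {B : Type*} [CStarAlgebra B] {L : Set B} (hL : L.Countable) :
    TopologicalSpace.IsSeparable (StarAlgebra.adjoin ℂ L : Set B) := by
  have h1 : (L ∪ star L).Countable :=
    hL.union (hL.preimage star_injective)
  have h2 : (Submonoid.closure (L ∪ star L) : Set B).Countable := by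
    rw [Submonoid.closure_eq_image_prod]
    refine Set.Countable.image ?_ _
    have : Countable ↥(L ∪ star L) := h1.to_subtype
    refine (Set.countable_range fun l : List ↥(L ∪ star L) => l.map Subtype.val).mono ?_
    intro l hl
    exact ⟨l.attach.map fun x => ⟨x.1, hl x.1 x.2⟩, by simp [Function.comp_def]⟩
  have h3 := h2.isSeparable.span (R := ℂ)
  rw [← Algebra.adjoin_eq_span, ← StarAlgebra.adjoin_toSubalgebra] at h3
  exact h3

theorem exists_copy [SeparableSpace A] (hω : (ω : Filter ℕ) ≤ cofinite)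
    {s : Set (CentralAlgebra ω A)} (hs : s.Countable) :
    ∃ ι : Cl s →⋆ₐ[ℂ] CentralAlgebra ω A, ∀ x y : Cl s, Commute (ι x) (y : CentralAlgebra ω A) := by
  classical
  set L : Set (ℕ →ᵇ A) := (fun z : CentralAlgebra ω A => Function.surjInv (cls_surjective (ω := ω)) z.1) '' s with hL
  set T := StarAlgebra.adjoin ℂ L with hT
  have hLc : L.Countable := Set.Countable.image hs fun z : CentralAlgebra ω A => Function.surjInv (cls_surjective (ω := ω)) z.1
  obtain ⟨c, hcT, hc, hTc⟩ := (isSeparable_adjoin hLc).exists_countable_dense_subset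
  have hθT : ∀ t ∈ T, cls ω t ∈ central A ω := by
    have hle : T ≤ (central A ω).comap (cls ω) := StarAlgebra.adjoin_le (by
      rintro _ ⟨z, -, rfl⟩
      show cls ω (Function.surjInv (cls_surjective (ω := ω)) z.1) ∈ central A ω
      rw [Function.surjInv_eq (cls_surjective (ω := ω))]
      exact z.2)
    exact fun t ht => hle ht
  have h1c : ∃ e, e ∈ c := by
    rcases c.eq_empty_or_nonempty with h | h
    · have := hTc (one_mem T)
      simp [h] at this
    · exact h
  obtain ⟨d, hd⟩ := hc.exists_eq_range h1c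
  have hdT : ∀ i, d i ∈ T := fun i => hcT (hd ▸ Set.mem_range_self i)
  obtain ⟨φ, hφ⟩ := exists_reindex hω d fun i => hθT _ (hdT i)
  set ψ : (ℕ →ᵇ A) →⋆ₐ[ℂ] AOmega A ω := (cls ω).comp (reindex φ) with hψ
  have hψc : Continuous ψ := continuous_cls.comp (continuous_reindex φ)
  have dense : ∀ P : Set (ℕ →ᵇ A), IsClosed P → (∀ i, d i ∈ P) → ∀ t ∈ T, t ∈ P :=
    fun P hP hi t ht => closure_minimal (by rw [hd]; rintro _ ⟨i, rfl⟩; exact hi i) hP (hTc ht)
  have hnorm : ∀ t ∈ T, ‖ψ t‖ = ‖cls ω t‖ :=
    dense {t | ‖ψ t‖ = ‖cls ω t‖} (isClosed_eq hψc.norm continuous_cls.norm) fun i => (hφ i).1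
  have hcen : ∀ t ∈ T, ψ t ∈ central A ω :=
    dense (ψ ⁻¹' central A ω) (isClosed_central.preimage hψc) fun i => (hφ i).2.1
  have hcomm : ∀ t ∈ T, ∀ u ∈ T, Commute (ψ t) (cls ω u) := by
    intro t ht
    refine dense {u | Commute (ψ t) (cls ω u)}
      (isClosed_eq (continuous_const.fun_mul continuous_cls) (continuous_cls.fun_mul continuous_const)) ?_
    exact fun j => dense {t | Commute (ψ t) (cls ω (d j))}
      (isClosed_eq (hψc.fun_mul continuous_const) (continuous_const.fun_mul hψc))
      (fun i => (hφ i).2.2 j) t ht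
  -- approximation of elements of `Cl s`
  have happrox : ∀ x : Cl s, ∃ t : ℕ → ℕ →ᵇ A, (∀ k, t k ∈ T) ∧
      Tendsto (fun k => cls ω (t k)) atTop (𝓝 ((x : CentralAlgebra ω A) : AOmega A ω)) := by
    intro x
    have hmem : ((x : CentralAlgebra ω A) : AOmega A ω) ∈ (T.map (cls ω)).topologicalClosure := by
      have hle : Cl s ≤ ((T.map (cls ω)).topologicalClosure).comap (central A ω).subtype := by
        refine StarSubalgebra.topologicalClosure_minimal (StarAlgebra.adjoin_le ?_) ?_
        · intro z hz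
          refine StarSubalgebra.le_topologicalClosure _ ?_
          refine ⟨Function.surjInv (cls_surjective (ω := ω)) z.1,
            StarAlgebra.subset_adjoin ℂ L ⟨z, hz, rfl⟩, Function.surjInv_eq _ z.1⟩
        · exact (StarSubalgebra.isClosed_topologicalClosure _).preimage continuous_subtype_val
      exact hle x.2
    rw [← SetLike.mem_coe, StarSubalgebra.topologicalClosure_coe, mem_closure_iff_seq_limit] at hmem
    obtain ⟨u, hu, hlim⟩ := hmem
    choose t ht htu using hu
    exact ⟨t, ht, by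
      rw [show (fun k => cls ω (t k)) = u from funext htu]
      exact hlim⟩
  choose t htT htlim using happrox
  have hcauchy : ∀ x : Cl s, ∃ z : AOmega A ω, Tendsto (fun k => ψ (t x k)) atTop (𝓝 z) := fun x => by
    refine cauchySeq_tendsto_of_complete (Metric.cauchySeq_iff.2 fun ε hε => ?_)
    obtain ⟨N, hN⟩ := Metric.cauchySeq_iff.1 (htlim x).cauchySeq ε hε
    refine ⟨N, fun m hm n hn => ?_⟩
    rw [dist_eq_norm, ← map_sub, hnorm _ (sub_mem (htT x m) (htT x n)), map_sub, ← dist_eq_norm]
    exact hN m hm n hn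
  choose z hz using hcauchy
  have uniq : ∀ (x : Cl s) (u : ℕ → ℕ →ᵇ A), (∀ k, u k ∈ T) →
      Tendsto (fun k => cls ω (u k)) atTop (𝓝 ((x : CentralAlgebra ω A) : AOmega A ω)) →
      Tendsto (fun k => ψ (u k)) atTop (𝓝 (z x)) := fun x u hu hlim => by
    have h0 : Tendsto (fun k => ψ (u k) - ψ (t x k)) atTop (𝓝 0) := by
      refine tendsto_zero_iff_norm_tendsto_zero.2 ?_
      have := tendsto_zero_iff_norm_tendsto_zero.1 (by simpa using hlim.sub (htlim x))
      refine this.congr fun k => ?_
      rw [← map_sub, ← map_sub, hnorm _ (sub_mem (hu k) (htT x k))]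
    simpa using h0.add (hz x)
  have hzmem : ∀ x, z x ∈ central A ω := fun x =>
    isClosed_central.mem_of_tendsto (hz x) (Eventually.of_forall fun k => hcen _ (htT x k))
  have zeq : ∀ (x : Cl s) (u : ℕ → ℕ →ᵇ A) {l : AOmega A ω}, (∀ k, u k ∈ T) →
      Tendsto (fun k => cls ω (u k)) atTop (𝓝 ((x : CentralAlgebra ω A) : AOmega A ω)) →
      Tendsto (fun k => ψ (u k)) atTop (𝓝 l) → z x = l := fun x u l hu h1 h2 =>
    tendsto_nhds_unique (uniq x u hu h1) h2
  have hone : z 1 = 1 := by
    refine zeq 1 (fun _ => 1) (fun _ => one_mem T) ?_ ?_ <;> simp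
  have hzero : z 0 = 0 := by
    refine zeq 0 (fun _ => 0) (fun _ => zero_mem T) ?_ ?_ <;> simp
  have halg : ∀ r : ℂ, z (algebraMap ℂ (Cl s) r) = algebraMap ℂ (AOmega A ω) r := fun r => by
    refine zeq _ (fun _ => algebraMap ℂ _ r) (fun _ => StarSubalgebra.algebraMap_mem T r) ?_ ?_
    · simp only [AlgHomClass.commutes]; exact tendsto_const_nhds
    · simp only [AlgHomClass.commutes]; exact tendsto_const_nhds
  refine ⟨
    { toFun := fun x => ⟨z x, hzmem x⟩
      map_one' := Subtype.ext hone
      map_zero' := Subtype.ext hzero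
      map_mul' := fun x y => Subtype.ext ?_
      map_add' := fun x y => Subtype.ext ?_
      commutes' := fun r => Subtype.ext (halg r)
      map_star' := fun x => Subtype.ext ?_ }, fun x y => Subtype.ext ?_⟩
  · refine zeq _ (fun k => t x k * t y k) (fun k => mul_mem (htT x k) (htT y k)) ?_ ?_
    · simp only [map_mul]; exact (htlim x).mul (htlim y)
    · simp only [map_mul]; exact (hz x).mul (hz y)
  · refine zeq _ (fun k => t x k + t y k) (fun k => add_mem (htT x k) (htT y k)) ?_ ?_
    · simp only [map_add]; exact (htlim x).add (htlim y)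
    · simp only [map_add]; exact (hz x).add (hz y)
  · have hst : Continuous (star : AOmega A ω → AOmega A ω) := continuous_star
    refine zeq _ (fun k => star (t x k)) (fun k => star_mem (htT x k)) ?_ ?_
    · simp only [map_star]; exact (hst.tendsto _).comp (htlim x)
    · simp only [map_star]; exact (hst.tendsto _).comp (hz x)
  · refine tendsto_nhds_unique ((hz x).mul (htlim y)) (((htlim y).mul (hz x)).congr fun k => ?_)
    exact (hcomm _ (htT x k) _ (htT y k)).symm

/-- The central sequence algebra has commuting copies. -/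
theorem hasCopies (A : Type) [CStarAlgebra A] [SeparableSpace A] (ω : Ultrafilter ℕ)
    (hω : (ω : Filter ℕ) ≤ cofinite) : HasCopies (CentralAlgebra ω A) := by
  intro s hs m
  induction m with
  | zero => exact ⟨⟨fun i => i.elim0, fun i => i.elim0⟩⟩
  | succ m ih =>
    obtain ⟨κ⟩ := ih
    set incl : s → Cl s := fun g =>
      ⟨g.1, StarSubalgebra.le_topologicalClosure _ (StarAlgebra.subset_adjoin ℂ s g.2)⟩
    set s2 : Set (CentralAlgebra ω A) := s ∪ ⋃ i, Set.range fun g => κ.hom i (incl g) with hs2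
    have hs2c : s2.Countable :=
      hs.union (Set.countable_iUnion fun i =>
        have : Countable s := hs.to_subtype
        Set.countable_range _)
    have hsub : Cl s ≤ Cl s2 :=
      StarSubalgebra.topologicalClosure_mono (StarAlgebra.adjoin_le
        (Set.subset_union_left.trans (StarAlgebra.subset_adjoin ℂ s2)))
    obtain ⟨ι, hι⟩ := exists_copy hω hs2c
    set last : Cl s →⋆ₐ[ℂ] CentralAlgebra ω A := ι.comp (StarSubalgebra.inclusion hsub)
    have hmem : ∀ i x, κ.hom i x ∈ Cl s2 := fun i x => by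
      have hc : Continuous (κ.hom i) :=
        AddMonoidHomClass.continuous_of_bound (κ.hom i) 1 fun y => by
          simpa using NonUnitalStarAlgHom.norm_apply_le (κ.hom i) y
      have hclosed : IsClosed ((κ.hom i) ⁻¹' (Cl s2 : Set (CentralAlgebra ω A))) :=
        (isClosed_Cl s2).preimage hc
      have hd : Dense (StarAlgebra.adjoin ℂ (Set.range incl) : Set (Cl s)) := by
        intro y
        rw [closure_subtype]
        have e : Subtype.val '' (StarAlgebra.adjoin ℂ (Set.range incl) : Set (Cl s))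
            = (StarAlgebra.adjoin ℂ s : Set (CentralAlgebra ω A)) := by
          have := StarAlgHom.map_adjoin (Cl s).subtype (Set.range incl)
          rw [← StarSubalgebra.coe_subtype, ← StarSubalgebra.coe_map, this]
          congr 2
          rw [← Set.range_comp]
          exact Subtype.range_coe
        rw [e]
        exact y.2
      refine (hclosed.closure_subset_iff.2 ?_) (hd x)
      intro y hy
      have hle : StarAlgebra.adjoin ℂ (Set.range incl) ≤ (Cl s2).comap (κ.hom i) :=
        StarAlgebra.adjoin_le (by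
          rintro _ ⟨g, rfl⟩
          exact StarSubalgebra.le_topologicalClosure _ (StarAlgebra.subset_adjoin ℂ s2
            (Or.inr (Set.mem_iUnion.2 ⟨i, g, rfl⟩))))
      exact hle hy
    refine ⟨⟨Fin.snoc κ.hom last, fun i j hij a b => ?_⟩⟩
    have hl : ∀ (i : Fin m) a b, Commute (last a) (κ.hom i b) := fun i a b =>
      hι _ ⟨κ.hom i b, hmem i b⟩
    induction i using Fin.lastCases with
    | last =>
      induction j using Fin.lastCases with
      | last => exact absurd rfl hij
      | cast j => simpa using hl j a b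
    | cast i =>
      induction j using Fin.lastCases with
      | last => simpa using (hl i b a).symm
      | cast j => simpa using κ.comm i j (fun h => hij (congrArg Fin.castSucc h)) a b

end

end Vale.Agent.P101.KR
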