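import Vale.Agent.P101.KR.SeqDefs
import Vale.Agent.P101.KR.Ultra

/-!
# P101: sequences and the algebra `CentralAlgebra`
-/

namespace Vale.Agent.P101.KR.Seq

open Filter Topology BoundedContinuousFunction

variable {A : Type} [CStarAlgebra A] {ω : Ultrafilter ℕ}

/-- A bounded sequence as a bounded continuous function. -/
noncomputable def toBdd (x : ℕ → A) (C : ℝ) (hC : ∀ n, ‖x n‖ ≤ C) : ℕ →ᵇ A :=
  BoundedContinuousFunction.ofNormedAddCommGroup x continuous_of_discreteTopology C hC

theorem cls_mem_iff (b : ℕ →ᵇ A) : cls ω b ∈ central A ω ↔ IsCentral ω (⇑b) := by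
  rw [cls_mem_central]
  refine ⟨fun h => ⟨⟨‖b‖, b.norm_coe_le_norm⟩, fun a => ?_⟩, fun h a => ?_⟩
  · exact (h a).congr fun n => norm_sub_rev _ _
  · exact (h.2 a).congr fun n => norm_sub_rev _ _

/-- The class of a central sequence; zero otherwise. -/
noncomputable def toF (ω : Ultrafilter ℕ) (x : ℕ → A) : CentralAlgebra ω A := by
  classical
  exact if h : IsCentral ω x then
    ⟨cls ω (toBdd x h.1.choose h.1.choose_spec), (cls_mem_iff _).2 h⟩ else 0

theorem toF_coe {x : ℕ → A} {b : ℕ →ᵇ A} (hx : IsCentral ω x) (hb : ∀ n, b n = x n) :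
    (toF ω x : AOmega A ω) = cls ω b := by
  classical
  rw [toF, dif_pos hx]
  exact congrArg (cls ω) (BoundedContinuousFunction.ext fun n => (hb n).symm)

theorem exists_rep (z : CentralAlgebra ω A) :
    ∃ b : ℕ →ᵇ A, IsCentral ω (⇑b) ∧ cls ω b = (z : AOmega A ω) := by
  obtain ⟨b, hb⟩ := cls_surjective (ω := ω) (z : AOmega A ω)
  exact ⟨b, (cls_mem_iff b).1 (hb ▸ z.2), hb⟩

/-- A representative of an element of `CentralAlgebra`. -/
noncomputable def rep (z : CentralAlgebra ω A) : ℕ →ᵇ A := (exists_rep z).choose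

theorem rep_central (z : CentralAlgebra ω A) : IsCentral ω (⇑(rep z)) :=
  (exists_rep z).choose_spec.1

theorem cls_rep (z : CentralAlgebra ω A) : cls ω (rep z) = (z : AOmega A ω) :=
  (exists_rep z).choose_spec.2

theorem noCharacter_of (h : ¬ HasCharacter A ω) : NoCharacter (CentralAlgebra ω A) := by
  refine ⟨fun χ => h ⟨fun x => χ (toF ω x), ?_, ?_, ?_, ?_, ?_⟩⟩
  all_goals dsimp only
  · have h1 : IsCentral ω (1 : ℕ → A) := ⟨⟨‖(1 : A)‖, fun n => le_rfl⟩, fun a => by simp⟩
    rw [show toF ω (1 : ℕ → A) = 1 from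
      Subtype.ext ((toF_coe h1 (b := 1) fun n => rfl).trans (map_one _))]
    exact map_one χ
  · intro x y hx hy
    obtain ⟨Cx, hCx⟩ := hx.1
    obtain ⟨Cy, hCy⟩ := hy.1
    set bx := toBdd x Cx hCx
    set b' := toBdd y Cy hCy
    have ex : (toF ω x : AOmega A ω) = cls ω bx := toF_coe hx fun n => rfl
    have ey : (toF ω y : AOmega A ω) = cls ω b' := toF_coe hy fun n => rfl
    have hsum : IsCentral ω (x + y) := (cls_mem_iff (bx + b')).1 (by
      rw [map_add, ← ex, ← ey]; exact add_mem (toF ω x).2 (toF ω y).2)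
    have hprod : IsCentral ω (x * y) := (cls_mem_iff (bx * b')).1 (by
      rw [map_mul, ← ex, ← ey]; exact mul_mem (toF ω x).2 (toF ω y).2)
    rw [← map_add, ← map_mul]
    refine ⟨congrArg χ (Subtype.ext ?_), congrArg χ (Subtype.ext ?_)⟩
    · rw [toF_coe hsum (b := bx + b') fun n => rfl, map_add]
      exact congrArg₂ (· + ·) ex.symm ey.symm
    · rw [toF_coe hprod (b := bx * b') fun n => rfl, map_mul]
      exact congrArg₂ (· * ·) ex.symm ey.symm
  · intro c x hx
    obtain ⟨Cx, hCx⟩ := hx.1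
    set bx := toBdd x Cx hCx
    have ex : (toF ω x : AOmega A ω) = cls ω bx := toF_coe hx fun n => rfl
    have hc : IsCentral ω (c • x) := (cls_mem_iff (c • bx)).1 (by
      rw [map_smul, ← ex]; exact SMulMemClass.smul_mem c (toF ω x).2)
    rw [← smul_eq_mul, ← map_smul]
    refine congrArg χ (Subtype.ext ?_)
    rw [toF_coe hc (b := c • bx) fun n => rfl, map_smul]
    exact congrArg (c • ·) ex.symm
  · intro x hx
    obtain ⟨Cx, hCx⟩ := hx.1
    set bx := toBdd x Cx hCx
    have ex : (toF ω x : AOmega A ω) = cls ω bx := toF_coe hx fun n => rfl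
    have hs : IsCentral ω (star x) := (cls_mem_iff (star bx)).1 (by
      rw [map_star, ← ex]; exact star_mem (toF ω x).2)
    rw [← map_star χ]
    refine congrArg χ (Subtype.ext ?_)
    rw [toF_coe hs (b := star bx) fun n => rfl, map_star]
    exact congrArg star ex.symm
  · intro x y hx hy hxy
    obtain ⟨Cx, hCx⟩ := hx.1
    obtain ⟨Cy, hCy⟩ := hy.1
    refine congrArg χ (Subtype.ext ?_)
    rw [toF_coe hx (b := toBdd x Cx hCx) fun n => rfl,
      toF_coe hy (b := toBdd y Cy hCy) fun n => rfl]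
    exact cls_eq_iff.2 hxy

theorem not_hasCharacter_of (h : NoCharacter (CentralAlgebra ω A)) : ¬ HasCharacter A ω := by
  rintro ⟨χ, h1, hop, hsmul, hstar, hwd⟩
  have hval : ∀ (z : CentralAlgebra ω A) (b : ℕ →ᵇ A), cls ω b = (z : AOmega A ω) →
      χ (⇑(rep z)) = χ (⇑b) := fun z b hb =>
    hwd _ _ (rep_central z) ((cls_mem_iff b).1 (hb ▸ z.2))
      (cls_eq_iff.1 ((cls_rep z).trans hb.symm))
  let φ : CentralAlgebra ω A →⋆ₐ[ℂ] ℂ :=
    { toFun := fun z => χ (⇑(rep z))
      map_one' := (hval 1 1 (map_one _)).trans h1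
      map_zero' := by
        refine (hval 0 ((0 : ℂ) • (1 : ℕ →ᵇ A)) (by rw [zero_smul, map_zero]; rfl)).trans ?_
        exact (hsmul 0 _ ((cls_mem_iff 1).1 (by rw [map_one]; exact one_mem _))).trans (zero_mul _)
      map_add' := fun z w => (hval _ (rep z + rep w) (by rw [map_add, cls_rep, cls_rep]; rfl)).trans
        (hop _ _ (rep_central z) (rep_central w)).1
      map_mul' := fun z w => (hval _ (rep z * rep w) (by rw [map_mul, cls_rep, cls_rep]; rfl)).trans
        (hop _ _ (rep_central z) (rep_central w)).2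
      commutes' := fun r => by
        refine (hval _ (r • (1 : ℕ →ᵇ A)) (by
          rw [map_smul, map_one, Algebra.algebraMap_eq_smul_one]; rfl)).trans ?_
        refine ((hsmul r _ ((cls_mem_iff 1).1 (by rw [map_one]; exact one_mem _))).trans ?_)
        rw [show ⇑(1 : ℕ →ᵇ A) = 1 from rfl, h1, mul_one]
        exact (Algebra.algebraMap_self_apply r).symm
      map_star' := fun z => (hval _ (star (rep z)) (by rw [map_star, cls_rep]; rfl)).trans
        (hstar _ (rep_central z)) }
  exact h.elim' φ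

theorem noCharacter_iff_not_hasCharacter :
    NoCharacter (CentralAlgebra ω A) ↔ ¬ HasCharacter A ω :=
  ⟨not_hasCharacter_of, noCharacter_of⟩

/-- Elements with the relations give sequences with the relations. -/
theorem hasDropRelations_of {k : ℕ} (P : Fin k → Fin k → CentralAlgebra ω A)
    (v : CentralAlgebra ω A) (hstar : ∀ a b, star (P a b) = P b a)
    (hmul : ∀ a b a' b', P a b * P a' b' = if b = a' then (∑ i, P i i) * P a b' else 0)
    (hpos : ∀ a, ∃ c, P a a = star c * c) (hv : star v * v = 1 - ∑ i, P i i)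
    (hfix : ∀ a : Fin k, (a : ℕ) = 0 → P a a * v = v) : HasDropRelations A ω k := by
  choose c hc using hpos
  have seq : ∀ (b : ℕ →ᵇ A) (x : ℕ → A), (∀ n, b n = x n) → ∀ (z : CentralAlgebra ω A)
      (b' : ℕ →ᵇ A) (y : ℕ → A), (∀ n, b' n = y n) → cls ω b = (z : AOmega A ω) →
      cls ω b' = (z : AOmega A ω) → SeqEq ω x y := fun b x hx z b' y hy e e' =>
    (cls_eq_iff.1 (e.trans e'.symm)).congr fun n => by rw [hx, hy]
  refine ⟨fun a b => ⇑(rep (P a b)), fun a => ⇑(rep (c a)), ⇑(rep v), fun a b => rep_central _,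
    fun a => rep_central _, rep_central _, fun a b => ?_, fun a b a' b' => ?_, fun a => ?_, ?_,
    fun a ha => ?_⟩
  · exact seq (star (rep (P a b))) _ (fun n => rfl) (P b a) (rep (P b a)) _ (fun n => rfl)
      (by rw [map_star, cls_rep, ← hstar a b]; rfl) (cls_rep _)
  · refine seq (rep (P a b) * rep (P a' b')) _ (fun n => rfl) (P a b * P a' b')
      (if b = a' then (∑ i, rep (P i i)) * rep (P a b') else 0) _ (fun n => ?_)
      (by rw [map_mul, cls_rep, cls_rep]; rfl) ?_
    · split_ifs with h <;> simp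
    · rw [hmul]
      split_ifs with h
      · rw [map_mul, map_sum, cls_rep]
        simp only [cls_rep]
        push_cast
        rfl
      · rw [map_zero]; rfl
  · exact seq (rep (P a a)) _ (fun n => rfl) (P a a) (star (rep (c a)) * rep (c a)) _
      (fun n => rfl) (cls_rep _) (by rw [map_mul, map_star, cls_rep, hc]; rfl)
  · refine seq (star (rep v) * rep v) _ (fun n => rfl) (star v * v)
      (1 - ∑ i, rep (P i i)) _ (fun n => ?_) (by rw [map_mul, map_star, cls_rep]; rfl) ?_
    · simp
    · rw [hv, map_sub, map_one, map_sum]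
      simp only [cls_rep]
      push_cast
      rfl
  · exact seq (rep (P a a) * rep v) _ (fun n => rfl) v (rep v) _ (fun n => rfl)
      (by rw [map_mul, cls_rep, cls_rep, ← MulMemClass.coe_mul, hfix a ha]) (cls_rep _)

/-- Sequences with the relations give elements with the relations. -/
theorem exists_of_hasDropRelations {k : ℕ} (h : HasDropRelations A ω k) :
    ∃ (P : Fin k → Fin k → CentralAlgebra ω A) (v : CentralAlgebra ω A),
      (∀ a b, star (P a b) = P b a) ∧
      (∀ a b a' b', P a b * P a' b' = if b = a' then (∑ i, P i i) * P a b' else 0) ∧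
      (∀ a, ∃ c, P a a = star c * c) ∧ star v * v = 1 - ∑ i, P i i ∧
      ∀ a : Fin k, (a : ℕ) = 0 → P a a * v = v := by
  obtain ⟨P, c, v, hP, hc, hv, hstar, hmul, hpos, hvv, hfix⟩ := h
  have hbdd : ∀ x : ℕ → A, IsCentral ω x → ∃ b : ℕ →ᵇ A, (∀ n, b n = x n) ∧
      cls ω b = (toF ω x : AOmega A ω) := fun x hx =>
    ⟨toBdd x _ hx.1.choose_spec, fun n => rfl, (toF_coe hx fun n => rfl).symm⟩
  choose bP hbP eP using fun a b => hbdd _ (hP a b)
  choose bc hbc ec using fun a => hbdd _ (hc a)
  obtain ⟨bv, hbv, ev⟩ := hbdd _ hv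
  have seq : ∀ (b b' : ℕ →ᵇ A) (x y : ℕ → A), (∀ n, b n = x n) → (∀ n, b' n = y n) →
      SeqEq ω x y → cls ω b = cls ω b' := fun b b' x y hx hy hxy =>
    cls_eq_iff.2 (hxy.congr fun n => by rw [hx, hy])
  refine ⟨fun a b => toF ω (P a b), toF ω v, fun a b => Subtype.ext ?_,
    fun a b a' b' => Subtype.ext ?_, fun a => ⟨toF ω (c a), Subtype.ext ?_⟩, Subtype.ext ?_,
    fun a ha => Subtype.ext ?_⟩
  · have h := seq (star (bP a b)) (bP b a) _ _ (fun n => by simp [hbP]) (hbP b a) (hstar a b)
    rw [map_star, eP, eP] at h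
    exact h
  · have h := seq (bP a b * bP a' b') (if b = a' then (∑ i, bP i i) * bP a b' else 0) _ _
      (fun n => by simp [hbP]) (fun n => by split_ifs <;> simp [hbP, *]) (hmul a b a' b')
    rw [map_mul, eP, eP] at h
    refine h.trans ?_
    dsimp only
    split_ifs with hba
    · rw [map_mul, map_sum, eP]
      simp only [eP]
      push_cast
      rfl
    · rw [map_zero]; rfl
  · have h := seq (bP a a) (star (bc a) * bc a) _ _ (hbP a a) (fun n => by simp [hbc]) (hpos a)
    rw [map_mul, map_star, eP, ec] at h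
    exact h
  · have h := seq (star bv * bv) (1 - ∑ i, bP i i) _ _ (fun n => by simp [hbv])
      (fun n => by simp [hbP]) hvv
    rw [map_mul, map_star, ev, map_sub, map_one, map_sum] at h
    simp only [eP] at h
    push_cast
    exact h
  · have h := seq (bP a a * bv) bv _ _ (fun n => by simp [hbP, hbv]) hbv (hfix a ha)
    rw [map_mul, eP, ev] at h
    exact h

end Vale.Agent.P101.KR.Seq
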