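import Vale.Agent.P101.KR.Interfaces

/-!
# P101: the covering of all colourings
-/

namespace Vale.Agent.P101.KR

/-- Expanding an ordered product of sums over all colourings. -/
theorem prod_ofFn_sum {R : Type*} [Semiring R] {k : ℕ} :
    ∀ {m : ℕ} (F : Fin m → Fin k → R),
      (List.ofFn fun j => ∑ a, F j a).prod
        = ∑ c : Fin m → Fin k, (List.ofFn fun j => F j (c j)).prod := by
  intro m
  induction m with
  | zero => intro F; simp
  | succ m ih =>
    intro F
    rw [List.ofFn_succ, List.prod_cons, ih, Finset.sum_mul_sum,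
      ← (Fin.consEquiv fun _ => Fin k).sum_comp]
    simp [Fintype.sum_prod_type, Fin.consEquiv, List.ofFn_succ]

section Tensor

variable {B D : Type} [CStarAlgebra B] [CStarAlgebra D] {m : ℕ} (κ : Copies B D m)

/-- Elementary tensors: the product over all positions. -/
noncomputable def tens : (Fin m → B) →* D :=
  MonoidHom.noncommPiCoprod (fun j => ((κ.hom j : B →⋆ₐ[ℂ] D) : B →* D))
    fun i j h a b => κ.comm i j h a b

theorem tens_single (j : Fin m) (a : B) : tens κ (Pi.mulSingle j a) = κ.hom j a :=
  MonoidHom.noncommPiCoprod_mulSingle (N := fun _ : Fin m => B)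
    (fun j => ((κ.hom j : B →⋆ₐ[ℂ] D) : B →* D)) j a

theorem tens_apply (c : Fin m → B) :
    tens κ c = (List.ofFn fun j => κ.hom j (c j)).prod := by
  have h : Finset.univ.val = ((List.finRange m : List (Fin m)) : Multiset (Fin m)) := rfl
  simp only [tens, MonoidHom.noncommPiCoprod, MonoidHom.coe_mk, OneHom.coe_mk,
    Finset.noncommProd, h]
  simp [List.ofFn_eq_map]

theorem tens_zero (c : Fin m → B) (j : Fin m) (h : c j = 0) : tens κ c = 0 := by
  rw [tens_apply]
  exact List.prod_eq_zero (List.mem_ofFn.2 ⟨j, by simp [h]⟩)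

/-- The starred map is a monoid homomorphism with the same values on one position. -/
theorem tens_star (c : Fin m → B) : star (tens κ c) = tens κ (star c) := by
  let T' : (Fin m → B) →* D :=
    { toFun := fun c => star (tens κ (star c))
      map_one' := by simp
      map_mul' := fun c d => by
        show star (tens κ (star (c * d))) = _
        rw [star_mul, map_mul, star_mul] }
  have h : T' = tens κ := MonoidHom.pi_ext fun j a => by
    show star (tens κ (star (Pi.mulSingle j a))) = _
    have e : star (Pi.mulSingle j a : Fin m → B) = Pi.mulSingle j (star a) := by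
      funext i
      rcases eq_or_ne i j with rfl | hi
      · simp
      · simp [hi]
    rw [e, tens_single, tens_single, map_star, star_star]
  have := DFunLike.congr_fun h (star c)
  simpa [T'] using this

end Tensor

/-- Step 6 of the note. -/
theorem cover_of (hM : MergeStatement) (hP : PolarStatement) : CoverStatement := by
  intro B D _ _ k σ κ
  classical
  set m := k * k + 1
  obtain ⟨P, r, hOZ, hr, hrS, hH, hU⟩ := hM B D k m σ κ
  choose U hUc hUe using hU
  have hp : sProd κ σ = tens κ (fun _ => σ.s) := (tens_apply κ _).symm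
  rw [hp] at hrS hH
  set p := tens κ (fun _ => σ.s) with hp_def
  have hps : star p = p := by
    rw [hp_def, tens_star]; congr 1; funext j; exact σ.star_s
  -- facts inside one copy
  have hOZ' := σ.orderZero
  have hθx : ∀ a, diag σ.θ * σ.x a = σ.x a := fun a => by
    have h1 : σ.θ 0 0 * σ.θ 0 0 = diag σ.θ * σ.θ 0 0 := by simpa using hOZ'.mul_eq 0 0 0 0
    conv_lhs => rw [← σ.fix_x a]
    rw [← mul_assoc, ← h1, mul_assoc, σ.fix_x, σ.fix_x]
  have hsx : ∀ a, σ.s * σ.x a = 0 := fun a => by
    refine (CStarRing.star_mul_self_eq_zero_iff _).1 ?_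
    rw [star_mul, σ.star_s, mul_assoc, ← mul_assoc σ.s, σ.mul_self_s, sub_mul, one_mul, mul_assoc,
      hθx, hθx, sub_self, mul_zero]
  -- the two letters
  let bit : Bool → Fin k → B := fun t a => if t then σ.θ 1 0 * σ.x a else σ.x a
  have hbit : ∀ t a, star (bit t a) * bit t a = star (σ.x a) * σ.x a := by
    intro t a
    cases t
    · rfl
    · simp only [bit, if_true, star_mul, hOZ'.star_eq]
      rw [mul_assoc, ← mul_assoc (σ.θ 0 1), hOZ'.mul_eq, if_pos rfl, mul_assoc (diag σ.θ),
        σ.fix_x, hθx]
  have hsbit : ∀ t a, star (bit t a) * σ.s = 0 := by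
    intro t a
    have h : σ.s * bit t a = 0 := by
      cases t
      · exact hsx a
      · simp only [bit, if_true]
        rw [← mul_assoc, (σ.comm_s 1 0).eq, mul_assoc, hsx, mul_zero]
    rw [← star_star σ.s, ← star_mul, σ.star_s, h, star_zero]
  have h01 : ∀ a b, star (bit true a) * bit false b = 0 := by
    intro a b
    simp only [bit, if_true, Bool.false_eq_true, if_false, star_mul, hOZ'.star_eq]
    rw [← σ.fix_x b, mul_assoc, ← mul_assoc (σ.θ 0 1), hOZ'.mul_eq, if_neg (by decide), zero_mul,
      mul_zero]
  -- the index set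
  let ι := {S : Finset (Fin m) // S.card = k + 1} × Fin k
  let emb : ι → (Fin (k + 1) ↪o Fin m) := fun i => i.1.1.orderEmbOfFin i.1.2
  let low : ι → Fin m := fun i => emb i 0
  let c : ι → Fin m → B := fun i j =>
    if j ∈ i.1.1 then bit (decide (j = emb i i.2.succ)) i.2 * σ.s else σ.s
  let h : Fin k → B := fun a => star (σ.x a) * σ.x a
  let x : ι → D := fun i => U (low i) * tens κ (c i)
  have hmem : ∀ i (a : Fin (k + 1)), emb i a ∈ i.1.1 := fun i a =>
    Finset.orderEmbOfFin_mem _ _ _
  have hfix : ∀ i, κ.hom (low i) (σ.θ 0 0) * tens κ (c i) = tens κ (c i) := fun i => by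
    rw [← tens_single, ← map_mul]
    congr 1
    funext j
    rcases eq_or_ne j (low i) with rfl | hj
    · have hne : low i ≠ emb i i.2.succ := fun he =>
        (Fin.succ_ne_zero _) ((emb i).injective he).symm
      simp only [Pi.mul_apply, Pi.mulSingle_eq_same, c, low, hmem, if_true]
      rw [show decide (emb i 0 = emb i i.2.succ) = false from decide_eq_false hne, ← mul_assoc]
      simp only [bit, Bool.false_eq_true, if_false, σ.fix_x]
    · simp [hj]
  have hPx : ∀ i, P 0 0 * x i = x i := fun i => (hUe (low i) _ (hfix i)).1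
  have hoff : ∀ i i', i ≠ i' → star (x i) * x i' = 0 := by
    intro i i' hne
    simp only [x]
    by_cases hS : i.1 = i'.1
    · obtain ⟨S, a⟩ := i
      obtain ⟨S', a'⟩ := i'
      obtain rfl : S = S' := hS
      have ha : a ≠ a' := fun h => hne (by rw [h])
      rw [star_mul, mul_assoc]
      have hl : low (S, a) = low (S, a') := rfl
      rw [hl, (hUe (low (S, a')) _ (hfix (S, a'))).2, tens_star, ← map_mul]
      refine tens_zero κ _ (emb (S, a) a.succ) ?_
      have hj : emb (S, a) a.succ ∈ S.1 := hmem _ _
      have hne' : emb (S, a) a.succ ≠ emb (S, a') a'.succ := fun he =>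
        ha (Fin.succ_injective _ ((emb (S, a)).injective he))
      simp only [Pi.mul_apply, Pi.star_apply, c, hj, if_true]
      rw [decide_eq_false hne']
      rw [decide_true, star_mul, mul_assoc, ← mul_assoc (star (bit true a)), h01, zero_mul, mul_zero]
    · have hsub : ¬ i.1.1 ⊆ i'.1.1 := fun hsub => hS <| Subtype.ext <|
        Finset.eq_of_subset_of_card_le hsub (by rw [i.1.2, i'.1.2])
      obtain ⟨j, hj, hj'⟩ := Finset.not_subset.1 hsub
      let R := Function.update (c i') j 1
      have hc' : c i' = Pi.mulSingle j σ.s * R := by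
        funext l
        rcases eq_or_ne l j with rfl | hl
        · simp [R, c, hj']
        · simp [R, hl]
      have hz : star (tens κ (c i)) * κ.hom j σ.s = 0 := by
        rw [tens_star, ← tens_single, ← map_mul]
        refine tens_zero κ _ j ?_
        simp [c, hj, mul_assoc, hsbit]
      have hcU := ((hUc (low i) j).1.symm)
      have hcU' := ((hUc (low i') j).1.symm)
      have hcU2 : Commute (κ.hom j σ.s) (star (U (low i))) := by
        have h2 := hcU.star_star
        rwa [← map_star, σ.star_s] at h2
      rw [hc', map_mul, tens_single, star_mul, mul_assoc, ← mul_assoc (star (U (low i))),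
        ← mul_assoc (star (U (low i)) * U (low i')),
        (hcU2.mul_right hcU').symm.eq, ← mul_assoc (star (tens κ (c i))),
        ← mul_assoc (star (tens κ (c i))), hz, zero_mul, zero_mul]
  have hdiag : ∀ i, star (x i) * x i
      = p * tens κ (fun j => if j ∈ i.1.1 then h i.2 else 1) * p := by
    intro i
    simp only [x]
    rw [star_mul, mul_assoc, (hUe (low i) _ (hfix i)).2, tens_star, hp_def, ← map_mul, ← map_mul,
      ← map_mul]
    congr 1
    funext j
    simp only [Pi.mul_apply, Pi.star_apply, c]
    split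
    · rw [star_mul, σ.star_s, mul_assoc, ← mul_assoc (star (bit _ _)), hbit]
      simp only [h, mul_assoc]
    · rw [σ.star_s, mul_one]
  -- the colourings
  let Tc : (Fin m → Fin k) → D := fun g => tens κ (fun j => h (g j))
  let mono : ι → (Fin m → Fin k) → Prop := fun i g => ∀ j ∈ i.1.1, g j = i.2
  have hexp : ∀ i, tens κ (fun j => if j ∈ i.1.1 then h i.2 else 1)
      = ∑ g, if mono i g then Tc g else 0 := by
    intro i
    let F : Fin m → Fin k → B := fun j a => if j ∈ i.1.1 → a = i.2 then h a else 0
    have e : (fun j => if j ∈ i.1.1 then h i.2 else 1) = fun j => ∑ a, F j a := by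
      funext j
      by_cases hj : j ∈ i.1.1
      · simp [F, hj]
      · simp [F, hj, h, σ.sum_x]
    rw [e, tens_apply]
    simp only [map_sum]
    rw [prod_ofFn_sum fun j a => κ.hom j (F j a)]
    refine Finset.sum_congr rfl fun g _ => ?_
    rw [← tens_apply κ fun j => F j (g j)]
    split
    · next hg => simp only [Tc]; congr 1; funext j; exact if_pos (hg j)
    · next hg =>
        simp only [mono, not_forall] at hg
        obtain ⟨j, hj, hne⟩ := hg
        exact tens_zero κ _ j (if_neg fun hh => hne (hh hj))
  have hone : ∑ g, Tc g = 1 := by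
    simp only [Tc, tens_apply]
    rw [← prod_ofFn_sum fun j a => κ.hom j (h a),
      show (fun j => ∑ a, κ.hom j (h a)) = fun _ => (1 : D) from funext fun j => by
        rw [← map_sum]; simp only [h, σ.sum_x, map_one]]
    simp
  have hcolour : ∀ g : Fin m → Fin k, ∃ i, mono i g := by
    intro g
    obtain ⟨a, ha⟩ := Fintype.exists_lt_card_fiber_of_mul_lt_card g (n := k) (by simp [m])
    obtain ⟨S, hS, hcard⟩ := Finset.exists_subset_card_eq (Nat.succ_le_of_lt ha)
    exact ⟨(⟨S, hcard⟩, a), fun j hj => (Finset.mem_filter.1 (hS hj)).2⟩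
  let _ : PartialOrder D := CStarAlgebra.spectralOrder D
  have : StarOrderedRing D := CStarAlgebra.spectralOrderedRing D
  have hT0 : ∀ g, 0 ≤ Tc g := fun g => by
    have e : Tc g = star (tens κ fun j => σ.x (g j)) * tens κ fun j => σ.x (g j) := by
      rw [tens_star, ← map_mul]; rfl
    exact e ▸ star_mul_self_nonneg _
  set X := ∑ i : ι, tens κ (fun j => if j ∈ i.1.1 then h i.2 else 1) with hX
  have hX1 : 0 ≤ X - 1 := by
    rw [sub_nonneg, hX, ← hone]
    simp only [hexp]
    rw [Finset.sum_comm]
    refine Finset.sum_le_sum fun g _ => ?_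
    obtain ⟨i, hi⟩ := hcolour g
    refine le_trans ?_ (Finset.single_le_sum (fun i' _ => ?_) (Finset.mem_univ i))
    · rw [if_pos hi]
    · split
      exacts [hT0 g, le_rfl]
  have hv : star (∑ i, x i) * ∑ i, x i = p * X * p := by
    rw [star_sum, Finset.sum_mul, hX, Finset.mul_sum, Finset.sum_mul]
    refine Finset.sum_congr rfl fun i _ => ?_
    rw [Finset.mul_sum, Finset.sum_eq_single i (fun i' _ hne => hoff i i' hne.symm)
      (fun hh => absurd (Finset.mem_univ i) hh), hdiag]
  obtain ⟨w, hw, hwl⟩ := hP D (∑ i, x i) p (CFC.sqrt (X - 1) * p) hps <| by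
    rw [hv, star_mul, (IsSelfAdjoint.of_nonneg (CFC.sqrt_nonneg (X - 1))).star_eq, hps,
      mul_assoc p (CFC.sqrt _), ← mul_assoc (CFC.sqrt _), CFC.sqrt_mul_sqrt_self _ hX1]
    noncomm_ring
  refine ⟨⟨P, w * r, hOZ, ?_, ?_⟩⟩
  · rw [star_mul, hr, mul_assoc, ← mul_assoc (star w), hw, hH, ← mul_assoc,
      (hrS.mul_right hrS).eq, mul_assoc]
  · rw [← mul_assoc, hwl (P 0 0)]
    rw [Finset.mul_sum]
    exact Finset.sum_congr rfl fun i _ => hPx i

end Vale.Agent.P101.KR
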