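import Vale.Agent.P101.KR.Interfaces

/-!
# P101: merging order zero maps of commuting positions
-/

namespace Vale.Agent.P101.KR

section Basic

variable {F : Type*} [CStarAlgebra F]

theorem diag_eq_sum_univ (P : Fin 2 → Fin 2 → F) : diag P = ∑ e, P e e :=
  (Fin.sum_univ_two fun e => P e e).symm

theorem commute_diag_of {P : Fin 2 → Fin 2 → F} {z : F} (hz : ∀ a b, Commute z (P a b)) :
    Commute z (diag P) := (hz 0 0).add_right (hz 1 1)

theorem mul_past {u v : F} (huv : Commute u v) (z : F) : u * (v * z) = v * (u * z) := by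
  rw [← mul_assoc, huv.eq, mul_assoc]

theorem OrderZero.diag_commute {P : Fin 2 → Fin 2 → F} (hP : OrderZero P) (a b : Fin 2) :
    Commute (diag P) (P a b) := by
  have h : P a b * diag P = diag P * P a b := by
    rw [diag_eq_sum_univ P, Finset.mul_sum, ← diag_eq_sum_univ P]
    simp [hP.mul_eq]
  exact h.symm

theorem OrderZero.diag_star {P : Fin 2 → Fin 2 → F} (hP : OrderZero P) :
    star (diag P) = diag P := by
  simp [diag, hP.star_eq]

/-- A self-adjoint element `p` with `p² = h p`, `h ≥ 0`, is positive. -/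
theorem exists_eq_star_mul_self {p h c d : F} (hp : star p = p) (hc : star c = c)
    (hd : star d = d) (hh : h = c * c + d * d) (hcomm : Commute h p) (he : p * p = h * p) :
    ∃ e, p = star e * e := by
  let _ : PartialOrder F := CStarAlgebra.spectralOrder F
  have : StarOrderedRing F := CStarAlgebra.spectralOrderedRing F
  have hp' : IsSelfAdjoint p := hp
  have hh0 : 0 ≤ h := hh ▸ add_nonneg (IsSelfAdjoint.mul_self_nonneg hc)
    (IsSelfAdjoint.mul_self_nonneg hd)
  set n := p⁻ with hn
  have hn0 : 0 ≤ n := CFC.negPart_nonneg p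
  have hpn : p * n = - (n * n) := by
    conv_lhs => rw [← CFC.posPart_sub_negPart p hp']
    rw [sub_mul, CFC.posPart_mul_negPart, zero_sub]
  have hcn : Commute h n := by
    rw [hn, CFC.negPart_def]
    exact (hcomm.symm.cfcₙ_real _).symm
  have h3 : n * n * n + h * (n * n) = 0 := by
    have h1 : p * p * n = n * n * n := by
      rw [mul_assoc, hpn, mul_neg, ← mul_assoc, hpn, neg_mul, neg_neg]
    rw [he, mul_assoc, hpn, mul_neg] at h1
    rw [← h1]; exact neg_add_cancel _
  have hnn : 0 ≤ n * n := IsSelfAdjoint.mul_self_nonneg (IsSelfAdjoint.of_nonneg hn0)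
  have ha : 0 ≤ n * n * n := ((Commute.refl n).mul_left (Commute.refl n)).mul_nonneg hnn hn0
  have hb : 0 ≤ h * (n * n) := (hcn.mul_right hcn).mul_nonneg hh0 hnn
  have hz : n * n * n = 0 := ((add_eq_zero_iff_of_nonneg ha hb).1 h3).1
  have hn1 : n = 0 := by
    have hs : IsSelfAdjoint n := IsSelfAdjoint.of_nonneg hn0
    have h4 : star (n * n) * (n * n) = 0 := by
      rw [star_mul, hs.star_eq, ← mul_assoc, hz, zero_mul]
    have h5 : n * n = 0 := (CStarRing.star_mul_self_eq_zero_iff _).1 h4
    exact (CStarRing.star_mul_self_eq_zero_iff _).1 (by rwa [hs.star_eq])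
  exact CStarAlgebra.nonneg_iff_eq_star_mul_self.1
    ((CFC.negPart_eq_zero_iff p hp').1 hn1)

/-- A root of `1 + h` for `h ≥ 0`. -/
theorem exists_root {h c d : F} (hc : star c = c) (hd : star d = d) (hh : h = c * c + d * d) :
    ∃ q : F, star q = q ∧ q * q = 1 + h ∧ ∀ z, Commute h z → Commute q z := by
  let _ : PartialOrder F := CStarAlgebra.spectralOrder F
  have : StarOrderedRing F := CStarAlgebra.spectralOrderedRing F
  have hh0 : 0 ≤ h := hh ▸ add_nonneg (IsSelfAdjoint.mul_self_nonneg hc)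
    (IsSelfAdjoint.mul_self_nonneg hd)
  have h1 : 0 ≤ 1 + h := add_nonneg zero_le_one hh0
  refine ⟨CFC.sqrt (1 + h), (IsSelfAdjoint.of_nonneg (CFC.sqrt_nonneg _)).star_eq,
    CFC.sqrt_mul_sqrt_self _ h1, fun z hz => ?_⟩
  rw [CFC.sqrt_eq_cfc]
  exact ((Commute.one_left z).add_left hz).cfc_nnreal _

theorem orderZero_map_hom {G : Type*} [CStarAlgebra G] (f : F →⋆ₐ[ℂ] G)
    {P : Fin 2 → Fin 2 → F} (hP : OrderZero P) : OrderZero fun a b => f (P a b) where
  star_eq a b := by simp [← map_star, hP.star_eq]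
  mul_eq a b c d := by
    simp only [diag, ← map_add, ← map_mul]
    rw [hP.mul_eq]
    split <;> simp [diag]
  pos a := (hP.pos a).imp' f fun c hc => by simp [hc, map_star]

end Basic

/-- Two commuting order zero maps, the first with its root. -/
structure Pair (D : Type*) [CStarAlgebra D] where
  θ : Fin 2 → Fin 2 → D
  s : D
  b : Fin 2 → Fin 2 → D
  hθ : OrderZero θ
  hb : OrderZero b
  star_s : star s = s
  ss : s * s = 1 - diag θ * diag θ
  sθ : ∀ a c, Commute s (θ a c)
  sb : ∀ a c, Commute s (b a c)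
  θb : ∀ a c d e, Commute (θ a c) (b d e)

namespace Pair

variable {D : Type*} [CStarAlgebra D] (π : Pair D)

/-- The unit image of the new position. -/
def G : D := diag π.θ

/-- The unit image of the earlier positions. -/
def h : D := diag π.b

/-- The first half of the swap term. -/
def A (a c : Fin 2) : D := ∑ e, π.θ a e * π.b e c

/-- The second half of the swap term. -/
def A' (a c : Fin 2) : D := ∑ e, π.θ e c * π.b a e

/-- The swap term. -/
def T (a c : Fin 2) : D := π.A a c - π.A' a c

/-- The swap element. -/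
def S : D := ∑ a, π.A a a

/-- The merged map. -/
noncomputable def P (a c : Fin 2) : D :=
  π.G * π.θ a c + π.s * π.s * π.h * π.b a c + Complex.I • (π.s * π.T a c)

/-- The intertwiner. -/
noncomputable def U : D := π.s + Complex.I • π.S

theorem ss' : π.s * π.s = 1 - π.G * π.G := π.ss

theorem comm_θb (a c d e : Fin 2) : Commute (π.θ a c) (π.b d e) := π.θb a c d e

theorem G_θ (a c : Fin 2) : Commute π.G (π.θ a c) := π.hθ.diag_commute a c

theorem h_b (a c : Fin 2) : Commute π.h (π.b a c) := π.hb.diag_commute a c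

theorem G_b (a c : Fin 2) : Commute π.G (π.b a c) :=
  (π.θb 0 0 a c).add_left (π.θb 1 1 a c)

theorem h_θ (a c : Fin 2) : Commute π.h (π.θ a c) :=
  ((π.θb a c 0 0).symm).add_left (π.θb a c 1 1).symm

theorem s_G : Commute π.s π.G := commute_diag_of π.sθ

theorem s_h : Commute π.s π.h := commute_diag_of π.sb

theorem G_h : Commute π.G π.h := commute_diag_of π.G_b

theorem comm_A {z : D} (hθ : ∀ a c, Commute z (π.θ a c)) (hb : ∀ a c, Commute z (π.b a c))
    (a c : Fin 2) : Commute z (π.A a c) ∧ Commute z (π.A' a c) :=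
  ⟨Commute.sum_right _ _ _ fun e _ => (hθ a e).mul_right (hb e c),
    Commute.sum_right _ _ _ fun e _ => (hθ e c).mul_right (hb a e)⟩

theorem s_T (a c : Fin 2) : Commute π.s (π.T a c) :=
  (π.comm_A π.sθ π.sb a c).1.sub_right (π.comm_A π.sθ π.sb a c).2

theorem G_T (a c : Fin 2) : Commute π.G (π.T a c) :=
  (π.comm_A π.G_θ π.G_b a c).1.sub_right (π.comm_A π.G_θ π.G_b a c).2

theorem h_T (a c : Fin 2) : Commute π.h (π.T a c) :=
  (π.comm_A π.h_θ π.h_b a c).1.sub_right (π.comm_A π.h_θ π.h_b a c).2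

theorem comm_P {z : D} (hθ : ∀ a c, Commute z (π.θ a c)) (hs : Commute z π.s)
    (hb : ∀ a c, Commute z (π.b a c)) (a c : Fin 2) : Commute z (π.P a c) :=
  (((commute_diag_of hθ).mul_right (hθ a c)).add_right
    (((hs.mul_right hs).mul_right (commute_diag_of hb)).mul_right (hb a c))).add_right
    ((hs.mul_right ((π.comm_A hθ hb a c).1.sub_right (π.comm_A hθ hb a c).2)).smul_right _)

theorem comm_U {z : D} (hθ : ∀ a c, Commute z (π.θ a c)) (hs : Commute z π.s)
    (hb : ∀ a c, Commute z (π.b a c)) : Commute z π.U :=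
  hs.add_right ((Commute.sum_right _ _ _ fun a _ => (π.comm_A hθ hb a a).1).smul_right _)

theorem θθ (a c d e : Fin 2) :
    π.θ a c * π.θ d e = if c = d then π.G * π.θ a e else 0 := π.hθ.mul_eq a c d e

theorem bb (a c d e : Fin 2) :
    π.b a c * π.b d e = if c = d then π.h * π.b a e else 0 := π.hb.mul_eq a c d e

/-- Products of two mixed words. -/
theorem four (a c d e p q u v : Fin 2) :
    π.θ a c * π.b d e * (π.θ p q * π.b u v)
      = if c = p then if e = u then π.G * π.h * (π.θ a q * π.b d v) else 0 else 0 := by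
  rw [(π.θb p q d e).symm.mul_mul_mul_comm, π.θθ, π.bb]
  split_ifs
  · rw [((π.h_θ a q).symm).mul_mul_mul_comm]
  all_goals simp

theorem A_mul_A (a b c d : Fin 2) :
    π.A a b * π.A c d = π.G * π.h * (π.θ a b * π.b c d) := by
  simp [A, Finset.sum_mul, Finset.mul_sum, π.four, -Fin.sum_univ_two]

theorem A'_mul_A' (a b c d : Fin 2) :
    π.A' a b * π.A' c d = π.G * π.h * (π.θ c d * π.b a b) := by
  simp [A', Finset.sum_mul, Finset.mul_sum, π.four, -Fin.sum_univ_two]

theorem A_mul_A' (a b c d : Fin 2) :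
    π.A a b * π.A' c d = if b = c then π.G * π.h * (π.θ a d * π.h) else 0 := by
  have hh : π.θ a d * π.h = ∑ e, π.θ a d * π.b e e := by
    rw [← Finset.mul_sum, ← diag_eq_sum_univ π.b]; rfl
  rw [hh]
  simp [A, A', Finset.sum_mul, Finset.mul_sum, π.four, -Fin.sum_univ_two]

theorem A'_mul_A (a b c d : Fin 2) :
    π.A' a b * π.A c d = if b = c then π.G * π.h * (π.G * π.b a d) else 0 := by
  have hh : π.G * π.b a d = ∑ e, π.θ e e * π.b a d := by
    rw [← Finset.sum_mul, ← diag_eq_sum_univ π.θ]; rfl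
  rw [hh]
  simp [A, A', Finset.sum_mul, Finset.mul_sum, π.four, -Fin.sum_univ_two]

/-- The square of the swap terms. -/
theorem T_mul_T (a b c d : Fin 2) :
    π.T a b * π.T c d = π.G * π.h * (π.θ a b * π.b c d + π.θ c d * π.b a b)
      - if b = c then π.G * π.h * (π.h * π.θ a d + π.G * π.b a d) else 0 := by
  rw [T, T, sub_mul, mul_sub, mul_sub, π.A_mul_A, π.A'_mul_A', π.A_mul_A', π.A'_mul_A,
    ← (π.h_θ a d).eq]
  split <;> (simp only [mul_add]; abel)

theorem θT (a b c d : Fin 2) :
    π.θ a b * π.T c d + π.T a b * π.θ c d = if b = c then π.G * π.T a d else 0 := by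
  have e1 : π.θ a b * π.A c d = if b = c then π.G * π.A a d else 0 := by
    simp only [A, Finset.mul_sum, ← mul_assoc, π.θθ]
    split <;> simp [*, -Fin.sum_univ_two]
  have e2 : π.θ a b * π.A' c d = π.G * (π.θ a d * π.b c b) := by
    simp [A', Finset.mul_sum, ← mul_assoc, π.θθ, -Fin.sum_univ_two]
  have hr : ∀ i j k l, π.θ i j * π.b k l * π.θ c d
      = if j = c then π.G * π.θ i d * π.b k l else 0 := by
    intro i j k l
    rw [mul_assoc, (π.θb c d k l).symm.eq, ← mul_assoc, π.θθ]
    split <;> simp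
  have e3 : π.A a b * π.θ c d = π.G * (π.θ a d * π.b c b) := by
    simp [A, Finset.sum_mul, hr, mul_assoc, -Fin.sum_univ_two]
  have e4 : π.A' a b * π.θ c d = if b = c then π.G * π.A' a d else 0 := by
    simp only [A', Finset.sum_mul, hr, Finset.mul_sum]
    split <;> simp [*, mul_assoc, -Fin.sum_univ_two]
  rw [T, T, mul_sub, sub_mul, e1, e2, e3, e4]
  split <;> first | abel1 | (simp only [T, mul_sub]; abel1)

theorem bT (a b c d : Fin 2) :
    π.b a b * π.T c d + π.T a b * π.b c d = if b = c then π.h * π.T a d else 0 := by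
  have hl : ∀ i j k l, π.b a b * (π.θ i j * π.b k l)
      = if b = k then π.h * (π.θ i j * π.b a l) else 0 := by
    intro i j k l
    rw [← mul_assoc, (π.θb i j a b).symm.eq, mul_assoc, π.bb]
    split
    · rw [← mul_assoc, ← (π.h_θ i j).eq, mul_assoc]
    · simp
  have hr : ∀ i j k l, π.θ i j * π.b k l * π.b c d
      = if l = c then π.h * (π.θ i j * π.b k d) else 0 := by
    intro i j k l
    rw [mul_assoc, π.bb]
    split
    · rw [← mul_assoc, ← (π.h_θ i j).eq, mul_assoc]
    · simp
  have e1 : π.b a b * π.A c d = π.h * (π.θ c b * π.b a d) := by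
    simp [A, Finset.mul_sum, hl, -Fin.sum_univ_two]
  have e2 : π.b a b * π.A' c d = if b = c then π.h * π.A' a d else 0 := by
    simp only [A', Finset.mul_sum, hl]
    split <;> simp [*, -Fin.sum_univ_two]
  have e3 : π.A a b * π.b c d = if b = c then π.h * π.A a d else 0 := by
    simp only [A, Finset.sum_mul, Finset.mul_sum, hr]
    split <;> simp [*, -Fin.sum_univ_two]
  have e4 : π.A' a b * π.b c d = π.h * (π.θ c b * π.b a d) := by
    simp [A', Finset.sum_mul, hr, -Fin.sum_univ_two]
  rw [T, T, mul_sub, sub_mul, e1, e2, e3, e4]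
  split <;> first | abel1 | (simp only [T, mul_sub]; abel1)

theorem diag_P : diag π.P = π.G * π.G + π.s * π.s * (π.h * π.h) := by
  have hT : π.T 0 0 + π.T 1 1 = 0 := by
    simp only [T, A, A', Fin.sum_univ_two]
    abel
  have : diag π.P = π.G * diag π.θ + π.s * π.s * π.h * diag π.b
      + Complex.I • (π.s * (π.T 0 0 + π.T 1 1)) := by
    simp only [diag, P, mul_add, smul_add]
    abel
  rw [this, hT, mul_zero, smul_zero, add_zero, mul_assoc (π.s * π.s)]
  rfl

theorem P_mul (a b c d : Fin 2) :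
    π.P a b * π.P c d = if b = c then diag π.P * π.P a d else 0 := by
  have hk : ∀ i j, Commute (π.s * π.s * π.h) (π.θ i j) ∧ Commute (π.s * π.s * π.h) (π.T i j) ∧
      Commute (π.s * π.s * π.h) (π.b i j) := fun i j =>
    ⟨((π.sθ i j).mul_left (π.sθ i j)).mul_left (π.h_θ i j),
      ((π.s_T i j).mul_left (π.s_T i j)).mul_left (π.h_T i j),
      ((π.sb i j).mul_left (π.sb i j)).mul_left (π.h_b i j)⟩
  set k := π.s * π.s * π.h with hkdef
  have hP : ∀ i j, π.P i j = π.G * π.θ i j + k * π.b i j + Complex.I • (π.s * π.T i j) :=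
    fun _ _ => rfl
  have hGs : Commute π.G π.s := π.s_G.symm
  have hks : Commute k π.s :=
    ((Commute.refl _).mul_left (Commute.refl _)).mul_left π.s_h.symm
  have hkG : Commute k π.G := ((π.s_G).mul_left π.s_G).mul_left π.G_h.symm
  have hgen : ∀ x y x' y' : D, (x + Complex.I • y) * (x' + Complex.I • y')
      = (x * x' - y * y') + Complex.I • (x * y' + y * x') := by
    intro x y x' y'
    simp only [mul_add, add_mul, mul_smul_comm, smul_mul_assoc, smul_smul, Complex.I_mul_I,
      smul_add, neg_smul, one_smul]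
    abel
  have him : (π.G * π.θ a b + k * π.b a b) * (π.s * π.T c d)
        + π.s * π.T a b * (π.G * π.θ c d + k * π.b c d)
      = π.G * π.s * (π.θ a b * π.T c d + π.T a b * π.θ c d)
        + k * π.s * (π.b a b * π.T c d + π.T a b * π.b c d) := by
    rw [add_mul, mul_add, (π.sθ a b).symm.mul_mul_mul_comm, (π.sb a b).symm.mul_mul_mul_comm,
      (π.G_T a b).symm.mul_mul_mul_comm, ((hk a b).2.1).symm.mul_mul_mul_comm, ← hGs.eq, ← hks.eq]
    simp only [mul_add]
    abel
  have hre : (π.G * π.θ a b + k * π.b a b) * (π.G * π.θ c d + k * π.b c d)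
        - π.s * π.T a b * (π.s * π.T c d)
      = π.G * π.G * (π.θ a b * π.θ c d) + k * k * (π.b a b * π.b c d)
        + π.G * k * (π.θ a b * π.b c d + π.θ c d * π.b a b)
        - π.s * π.s * (π.T a b * π.T c d) := by
    rw [add_mul, mul_add, mul_add, (π.G_θ a b).symm.mul_mul_mul_comm,
      (hk a b).1.symm.mul_mul_mul_comm, (π.G_b a b).symm.mul_mul_mul_comm,
      (hk a b).2.2.symm.mul_mul_mul_comm, (π.s_T a b).symm.mul_mul_mul_comm, hkG.eq,
      (π.θb c d a b).symm.eq]
    simp only [mul_add]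
    abel
  rw [hP a b, hP c d, hgen, him, hre, π.θθ, π.bb, π.T_mul_T, π.θT, π.bT, mul_sub,
    ← mul_assoc (π.s * π.s) (π.G * π.h), show π.s * π.s * (π.G * π.h) = π.G * k by
      rw [hkdef, ← mul_assoc, ← mul_assoc π.G, (hGs.mul_right hGs).eq]]
  split
  · rw [π.diag_P, hP a d]
    simp only [hkdef, mul_add, add_mul, mul_smul_comm, smul_add, mul_assoc, mul_past π.s_G.symm,
      mul_past π.s_h.symm, mul_past π.G_h.symm]
    abel
  · simp only [mul_zero, add_zero, sub_zero, smul_zero]
    abel

theorem star_P (a c : Fin 2) : star (π.P a c) = π.P c a := by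
  have hA : ∀ i j, star (π.A i j) = π.A' j i := fun i j => by
    simp only [A, A', star_sum, star_mul, π.hθ.star_eq, π.hb.star_eq]
    exact Finset.sum_congr rfl fun e _ => (π.θb e i j e).symm.eq
  have hT : star (π.T a c) = - π.T c a := by
    have hA' : star (π.A' a c) = π.A c a := by rw [← hA c a, star_star]
    rw [T, star_sub, hA, hA', T, neg_sub]
  have hs2 : Commute (π.b c a) (π.s * π.s * π.h) :=
    (((π.sb c a).mul_left (π.sb c a)).mul_left (π.h_b c a)).symm
  have hh : star π.h = π.h := π.hb.diag_star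
  have hG : star π.G = π.G := π.hθ.diag_star
  simp only [P, star_add, star_smul, star_mul, π.hθ.star_eq, π.hb.star_eq, π.star_s, hh, hG, hT,
    Complex.star_def, Complex.conj_I, neg_mul, neg_smul, smul_neg, neg_neg]
  rw [(π.G_θ c a).eq, (π.s_T c a).eq, ← mul_assoc π.h, ← (π.s_h).eq]
  rw [show π.s * π.h * π.s = π.s * π.s * π.h by
    rw [mul_assoc, ← π.s_h.eq, mul_assoc], hs2.eq]

theorem orderZero : OrderZero π.P where
  star_eq := π.star_P
  mul_eq := π.P_mul
  pos a := by
    have hG : star π.G = π.G := π.hθ.diag_star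
    have hsh : star (π.s * π.h) = π.s * π.h := by
      rw [star_mul, π.star_s, show star π.h = π.h from π.hb.diag_star, π.s_h.eq]
    refine exists_eq_star_mul_self (h := diag π.P) (π.star_P a a) hG hsh ?_ ?_ ?_
    · rw [π.diag_P, π.s_h.symm.mul_mul_mul_comm]
    · have h := congrArg star (π.P_mul a a a a)
      rw [if_pos rfl, star_mul, star_mul, π.star_P, diag] at h
      simp only [star_add, π.star_P] at h
      rw [← diag] at h
      exact ((π.P_mul a a a a).trans (if_pos rfl)).symm.trans h
    · rw [π.P_mul, if_pos rfl]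

/-- The merge on the place where the earlier map is `1` in the first corner. -/
theorem corner {y : D} (hy : π.b 0 0 * y = y) :
    π.P 0 0 * (π.U * y) = π.U * y ∧ star π.U * (π.U * y) = y := by
  have hh : π.h * y = y := by
    have h1 := π.bb 0 0 0 0
    rw [if_pos rfl] at h1
    conv_lhs => rw [← hy]
    rw [← mul_assoc, ← h1, mul_assoc, hy, hy]
  have hb1 : ∀ a, π.b a 1 * y = 0 := fun a => by
    conv_lhs => rw [← hy]
    rw [← mul_assoc, π.bb, if_neg (by decide), zero_mul]
  have hGG : π.s * (π.s * y) + π.G * (π.G * y) = y := by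
    rw [← mul_assoc, π.ss', sub_mul, one_mul, mul_assoc, sub_add_cancel]
  have θθ' : ∀ a c d e z, π.θ a c * (π.θ d e * z) = if c = d then π.G * (π.θ a e * z) else 0 := by
    intro a c d e z
    rw [← mul_assoc, π.θθ]
    split <;> simp [mul_assoc]
  set w := π.θ 0 1 * (π.b 1 0 * y) with hw
  have hG : π.G * (π.θ 0 0 * y) + π.G * (π.θ 1 1 * y) = π.G * (π.G * y) := by
    rw [← mul_add, ← add_mul]; rfl
  have hT : ∀ z, π.T 0 0 * z = π.θ 0 1 * (π.b 1 0 * z) - π.θ 1 0 * (π.b 0 1 * z) := by
    intro z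
    simp [T, A, A', Fin.sum_univ_two, sub_mul, mul_assoc]
  have hS : ∀ z, π.S * z = π.θ 0 0 * (π.b 0 0 * z) + π.θ 0 1 * (π.b 1 0 * z)
      + (π.θ 1 0 * (π.b 0 1 * z) + π.θ 1 1 * (π.b 1 1 * z)) := by
    intro z
    simp [S, A, Fin.sum_univ_two, add_mul, mul_assoc]
  have bw : ∀ a c, π.b a c * w = if c = 1 then π.θ 0 1 * (π.b a 0 * y) else 0 := by
    intro a c
    rw [hw, mul_past (π.θb 0 1 a c).symm, ← mul_assoc (π.b a c), π.bb]
    split
    · rw [(π.h_b a 0).eq, mul_assoc, hh]
    · simp
  have bθ : ∀ a c, π.b a c * (π.θ 0 0 * y) = π.θ 0 0 * (π.b a c * y) := fun a c =>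
    mul_past (π.θb 0 0 a c).symm y
  have hSy : π.S * y = π.θ 0 0 * y + w := by
    rw [hS, hy, hb1, hb1]; simp [hw]
  have hsS : Commute π.s π.S := Commute.sum_right _ _ _ fun i _ => (π.comm_A π.sθ π.sb i i).1
  have hU : π.U * y = π.s * y + Complex.I • (π.θ 0 0 * y + w) := by
    rw [U, add_mul, smul_mul_assoc, hSy]
  have hSS : π.S * (π.θ 0 0 * y + w) = π.G * (π.G * y) := by
    rw [mul_add, hS, hS, bθ, bθ, bθ, bθ, bw, bw, bw, bw, hb1, hb1, hy]
    simp [θθ', hG]
  constructor
  · have hPθ : π.P 0 0 * (π.θ 0 0 * y) = π.θ 0 0 * y := by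
      simp only [P, add_mul, smul_mul_assoc, mul_assoc, hT, bθ, hy, hb1, θθ']
      simp only [if_true, if_false, one_ne_zero, mul_zero, sub_self, smul_zero, add_zero]
      rw [mul_past (π.h_θ 0 0), hh, mul_past (π.sθ 0 0), mul_past (π.sθ 0 0), mul_past (π.G_θ 0 0),
        mul_past (π.G_θ 0 0), ← mul_add, add_comm, hGG]
    have hPw : π.P 0 0 * w = π.G * (π.G * w)
        + Complex.I • (π.s * -(π.G * (π.θ 1 1 * y))) := by
      simp only [P, add_mul, smul_mul_assoc, mul_assoc, hT, bw]
      simp [θθ', hw, hy]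
    have hPy : π.P 0 0 * (π.s * y) = π.s * (π.G * (π.θ 0 0 * y) + π.s * (π.s * y)
        + Complex.I • (π.s * w)) := by
      rw [← mul_past (π.comm_P π.sθ (Commute.refl _) π.sb 0 0)]
      simp only [P, add_mul, smul_mul_assoc, mul_assoc, hT, hy, hh, hb1, mul_zero, sub_zero, ← hw]
    have hw' : π.s * (π.s * w) + π.G * (π.G * w) = w := by
      rw [← mul_assoc, π.ss', sub_mul, one_mul, mul_assoc, sub_add_cancel]
    rw [hU, mul_add, mul_smul_comm, mul_add, hPy, hPθ, hPw]
    calc _ = π.s * (π.G * (π.θ 0 0 * y) + π.G * (π.θ 1 1 * y) + π.s * (π.s * y))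
          + Complex.I • (π.θ 0 0 * y + (π.s * (π.s * w) + π.G * (π.G * w))) := by
            simp only [mul_add, smul_add, smul_smul, mul_neg, smul_neg, Complex.I_mul_I, neg_smul,
              one_smul, neg_neg, mul_smul_comm]
            abel
      _ = _ := by rw [hG, add_comm (π.G * _), hGG, hw']
  · have hstS : star π.S = π.S := by
      simp only [S, A, Fin.sum_univ_two, star_add, star_mul, π.hθ.star_eq, π.hb.star_eq,
        ← (π.θb _ _ _ _).eq]
      abel
    have hstar : star π.U = π.s - Complex.I • π.S := by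
      rw [U, star_add, π.star_s, star_smul, hstS, Complex.star_def, Complex.conj_I, neg_smul,
        ← sub_eq_add_neg]
    rw [hU, hstar, sub_mul, mul_add, mul_add, smul_mul_assoc, smul_mul_assoc, mul_smul_comm,
      mul_smul_comm, hSS, mul_past hsS.symm y, hSy, smul_smul, Complex.I_mul_I]
    simp only [neg_smul, one_smul, smul_add, mul_add]
    conv_rhs => rw [← hGG]
    abel

/-- The new position: the merge fixes what its corner fixes. -/
theorem top {e : D} (he : π.θ 0 0 * e = e) : π.P 0 0 * e = e := by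
  have hG : π.G * e = e := by
    have h1 := π.θθ 0 0 0 0
    rw [if_pos rfl] at h1
    conv_lhs => rw [← he]
    rw [← mul_assoc, ← h1, mul_assoc, he, he]
  have hs : π.s * e = 0 := by
    refine (CStarRing.star_mul_self_eq_zero_iff _).1 ?_
    rw [star_mul, π.star_s, mul_assoc, ← mul_assoc π.s, π.ss', sub_mul, one_mul, mul_assoc, hG,
      hG, sub_self, mul_zero]
  have h1 : π.s * π.s * π.h * π.b 0 0 * e = 0 := by
    simp only [mul_assoc]
    rw [mul_past π.s_h, mul_past (π.sb 0 0), hs]
    simp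
  have h2 : π.s * π.T 0 0 * e = 0 := by
    rw [(π.s_T 0 0).eq, mul_assoc, hs, mul_zero]
  rw [P, add_mul, add_mul, smul_mul_assoc, h1, h2, mul_assoc, he, hG, smul_zero, add_zero,
    add_zero]

end Pair

/-- The merge of all positions. -/
theorem merge_of : MergeStatement := by
  intro B D _ _ k m σ κ
  set s : Fin m → D := fun l => κ.hom l σ.s
  set θ : Fin m → Fin 2 → Fin 2 → D := fun l a c => κ.hom l (σ.θ a c)
  have hd : ∀ l, κ.hom l (diag σ.θ) = diag (θ l) := fun l => map_add _ _ _
  have hθ : ∀ l, OrderZero (θ l) := fun l => orderZero_map_hom _ σ.orderZero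
  have css : ∀ l l', Commute (s l) (s l') := fun l l' => by
    rcases eq_or_ne l l' with rfl | h
    exacts [Commute.refl _, κ.comm l l' h _ _]
  have csθ : ∀ l l' a c, Commute (s l) (θ l' a c) := fun l l' a c => by
    rcases eq_or_ne l l' with rfl | h
    exacts [(σ.comm_s a c).map _, κ.comm l l' h _ _]
  have cGθ : ∀ l l' a c, Commute (diag (θ l)) (θ l' a c) := fun l l' a c => by
    rcases eq_or_ne l l' with rfl | h
    exacts [(hθ l).diag_commute a c, (κ.comm l l' h _ _).add_left (κ.comm l l' h _ _)]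
  -- what commutes with all the data of the first `n` positions
  let Cn : ℕ → D → Prop := fun n z =>
    ∀ l : Fin m, (l : ℕ) < n → Commute z (s l) ∧ ∀ a c, Commute z (θ l a c)
  let pr : ℕ → D := fun n => ((List.ofFn s).take n).prod
  have key : ∀ n ≤ m, ∃ (P : Fin 2 → Fin 2 → D) (r : D), OrderZero P ∧ star r = r ∧
      Commute r (pr n) ∧ 1 - diag P = pr n * pr n * (r * r) ∧
      (∀ z, Cn n z → Commute z r ∧ ∀ a c, Commute z (P a c)) ∧
      ∀ l : Fin m, (l : ℕ) < n → ∃ U : D, (∀ z, Cn n z → Commute z U) ∧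
        ∀ e, θ l 0 0 * e = e → P 0 0 * (U * e) = U * e ∧ star U * (U * e) = e := by
    intro n
    induction n with
    | zero =>
      refine fun _ => ⟨fun _ _ => 0, 1, ⟨fun _ _ => star_zero _, fun _ _ _ _ => by simp [diag],
        fun _ => ⟨0, by simp⟩⟩, star_one _, Commute.one_left _, by simp [pr, diag],
        fun z _ => ⟨Commute.one_right _, fun _ _ => Commute.zero_right _⟩,
        fun l hl => absurd hl (Nat.not_lt_zero _)⟩
    | succ n ih =>
      intro hn
      obtain ⟨b, r, hb, hr, hrpr, hH, hc, hU⟩ := ih (n.le_succ.trans hn)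
      set p : Fin m := ⟨n, hn⟩
      have hp : ∀ l : Fin m, (l : ℕ) < n → p ≠ l := fun l hl h => by
        rw [← h] at hl; exact lt_irrefl _ hl
      have hsC : ∀ q, Cn n (s q) := fun q l _ => ⟨css q l, csθ q l⟩
      have hθC : ∀ a c, Cn n (θ p a c) := fun a c l hl =>
        ⟨κ.comm p l (hp l hl) _ _, fun a' c' => κ.comm p l (hp l hl) _ _⟩
      let π : Pair D :=
        { θ := θ p
          s := s p
          b := b
          hθ := hθ p
          hb := hb
          star_s := by rw [← map_star, σ.star_s]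
          ss := by rw [← map_mul, σ.mul_self_s, map_sub, map_one, map_mul, hd]
          sθ := csθ p p
          sb := (hc _ (hsC p)).2
          θb := fun a c d e => (hc _ (hθC a c)).2 d e }
      have hG : star π.G = π.G := π.hθ.diag_star
      have hh' : star π.h = π.h := π.hb.diag_star
      -- a root of `1 + h`
      obtain ⟨c0, hc0⟩ := π.hb.pos 0
      obtain ⟨c1, hc1⟩ := π.hb.pos 1
      let _ : PartialOrder D := CStarAlgebra.spectralOrder D
      have : StarOrderedRing D := CStarAlgebra.spectralOrderedRing D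
      have hb0 : 0 ≤ π.b 0 0 := hc0 ▸ star_mul_self_nonneg _
      have hb1 : 0 ≤ π.b 1 1 := hc1 ▸ star_mul_self_nonneg _
      obtain ⟨q, hq, hqq, hqc⟩ := exists_root (h := π.h) (c := CFC.sqrt (π.b 0 0))
        (d := CFC.sqrt (π.b 1 1)) (IsSelfAdjoint.of_nonneg (CFC.sqrt_nonneg _)).star_eq
        (IsSelfAdjoint.of_nonneg (CFC.sqrt_nonneg _)).star_eq
        (by rw [CFC.sqrt_mul_sqrt_self _ hb0, CFC.sqrt_mul_sqrt_self _ hb1]; rfl)
      have hzh : ∀ z, Cn n z → Commute π.h z := fun z hz => (commute_diag_of (hc z hz).2).symm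
      have hprC : ∀ z, Cn n z → Commute z (pr n) := fun z hz => by
        refine Commute.list_prod_right _ _ fun y hy => ?_
        obtain ⟨i, hi, rfl⟩ := List.mem_take_iff_getElem.1 hy
        simp only [List.getElem_ofFn]
        exact (hz _ (by have := hi; simp at this ⊢; omega)).1
      have hhr : Commute π.h r := by
        have h1 : Commute (1 - π.h) r := by
          rw [show (1 : D) - π.h = pr n * pr n * (r * r) from hH]
          exact (hrpr.symm.mul_left hrpr.symm).mul_left
            ((Commute.refl r).mul_left (Commute.refl r))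
        have := (Commute.one_left r).sub_left h1
        rwa [sub_sub_cancel] at this
      have hhpr : Commute π.h (pr n) :=
        (Commute.list_prod_right _ _ fun y hy => by
          obtain ⟨i, rfl⟩ := List.mem_ofFn.1 (List.mem_of_mem_take hy)
          exact hzh _ (hsC i))
      have hprs : pr (n + 1) = pr n * s p := by
        simp only [pr]
        rw [List.prod_take_succ _ _ (by simpa using hn)]
        simp [p]
      have hlt : ∀ z, Cn (n + 1) z → Cn n z := fun z hz l hl => hz l (hl.trans n.lt_succ_self)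
      refine ⟨π.P, r * q, π.orderZero, ?_, ?_, ?_, ?_, ?_⟩
      · rw [star_mul, hr, hq, (hqc r hhr).eq]
      · rw [hprs]
        exact (hrpr.mul_right (hc _ (hsC p)).1.symm).mul_left
          ((hqc _ hhpr).mul_right (hqc _ (hzh _ (hsC p))))
      · have cs : Commute (s p) (pr n) := hprC _ (hsC p)
        have e1 : (1 : D) - π.h * π.h = pr n * pr n * (r * r) * (q * q) := by
          rw [hqq, ← hH, show diag b = π.h from rfl]
          noncomm_ring
        rw [π.diag_P, hprs, (show Commute r q from (hqc r hhr).symm).symm.mul_mul_mul_comm,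
          cs.mul_mul_mul_comm]
        calc _ = π.s * π.s * (1 - π.h * π.h) := by
              rw [mul_sub, mul_one, π.ss']; noncomm_ring
          _ = _ := by
              rw [e1, show π.s = s p from rfl, mul_assoc (pr n * pr n) (r * r) (q * q), ← mul_assoc,
                ((cs.mul_left cs).mul_right (cs.mul_left cs)).eq]
      · intro z hz
        obtain ⟨hzs, hzθ⟩ := hz p n.lt_succ_self
        obtain ⟨hzr, hzb⟩ := hc z (hlt z hz)
        exact ⟨hzr.mul_right (hqc z (hzh z (hlt z hz))).symm, π.comm_P hzθ hzs hzb⟩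
      · intro l hl
        rcases Nat.lt_succ_iff_lt_or_eq.1 hl with h | h
        · obtain ⟨U, hUc, hUe⟩ := hU l h
          refine ⟨π.U * U, fun z hz => ?_, fun e he => ?_⟩
          · obtain ⟨hzs, hzθ⟩ := hz p n.lt_succ_self
            exact (π.comm_U hzθ hzs (hc z (hlt z hz)).2).mul_right (hUc z (hlt z hz))
          · obtain ⟨h1, h2⟩ := hUe e he
            obtain ⟨h3, h4⟩ := π.corner h1
            rw [mul_assoc, star_mul, mul_assoc]
            exact ⟨h3, by rw [h4, h2]⟩
        · obtain rfl : l = p := Fin.ext h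
          exact ⟨1, fun z _ => Commute.one_right z, fun e he =>
            ⟨by rw [one_mul]; exact π.top he, by simp⟩⟩
  obtain ⟨P, r, hP, hr, hrpr, hH, -, hU⟩ := key m le_rfl
  have hPi : pr m = sProd κ σ := by
    simp only [pr, sProd]
    rw [List.take_of_length_le (by simp)]
  rw [hPi] at hrpr hH
  refine ⟨P, r, hP, hr, hrpr, hH, fun l => ?_⟩
  obtain ⟨U, hUc, hUe⟩ := hU l l.isLt
  refine ⟨U, fun l' => ⟨(hUc _ fun j _ => ⟨css l' j, csθ l' j⟩).symm, ?_⟩, hUe⟩
  rw [hd]
  exact (hUc _ fun j _ => ⟨(commute_diag_of fun a c => csθ j l' a c).symm, cGθ l' j⟩).symm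

end Vale.Agent.P101.KR
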