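import Vale.Agent.P101.KR.Main
import Vale.Agent.P101.KR.SeqBridge
import Vale.Agent.P101.KR.Orth
import Vale.Agent.P101.KR.Glimm
import Vale.Agent.P101.KR.Seed
import Vale.Agent.P101.KR.Merge
import Vale.Agent.P101.KR.Polar
import Vale.Agent.P101.KR.Cover

/-!
# P101: no characters on the central sequence algebra gives the relations of `Z_{2,3}` in it
-/

open TopologicalSpace

namespace Vale.Agent.P101.KR

/-- All steps together, for an algebra with commuting copies. -/
theorem core_of : CoreStatement :=
  core_of_steps orth_of glimm_of seed_of (cover_of merge_of polar_of)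

/-- No characters on `F_ω(A)` is the same as a solution of the relations of `Z_{2,3}` in it. -/
theorem noCharacter_iff (A : Type) [CStarAlgebra A] [SeparableSpace A] (ω : Ultrafilter ℕ)
    (hω : (ω : Filter ℕ) ≤ Filter.cofinite) :
    NoCharacter (CentralAlgebra ω A) ↔ Nonempty (DropData (CentralAlgebra ω A)) :=
  ⟨core_of _ (hasCopies A ω hω), fun ⟨d⟩ => d.noCharacter⟩

/-- The same in terms of sequences. -/
theorem not_hasCharacter_iff (A : Type) [CStarAlgebra A] [SeparableSpace A] (ω : Ultrafilter ℕ)
    (hω : (ω : Filter ℕ) ≤ Filter.cofinite) :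
    ¬ Seq.HasCharacter A ω ↔ Seq.HasDropRelations A ω 2 := by
  rw [← Seq.noCharacter_iff_not_hasCharacter, noCharacter_iff A ω hω]
  constructor
  · rintro ⟨d⟩
    refine Seq.hasDropRelations_of d.P d.v d.orderZero.star_eq ?_ d.orderZero.pos ?_ ?_
    · intro a b a' b'
      rw [Fin.sum_univ_two]
      exact d.orderZero.mul_eq a b a' b'
    · rw [Fin.sum_univ_two]
      exact d.star_mul_v
    · intro a ha
      rw [show a = 0 from Fin.ext ha]
      exact d.fix_v
  · intro h
    obtain ⟨P, v, hstar, hmul, hpos, hv, hfix⟩ := Seq.exists_of_hasDropRelations h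
    refine ⟨⟨P, v, ⟨hstar, fun a b c e => ?_, hpos⟩, ?_, hfix 0 rfl⟩⟩
    · rw [hmul, Fin.sum_univ_two]
      rfl
    · rw [hv, Fin.sum_univ_two]
      rfl

end Vale.Agent.P101.KR
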