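import Vale.Agent.P101.KR.Base

/-!
# P101: no characters gives finitely many jointly nowhere scalar elements
-/

open Set TwoSidedIdeal
open scoped CStarAlgebra

namespace Vale.Agent.P101.KR

variable {F : Type} [CStarAlgebra F]

section scalar

variable {I : TwoSidedIdeal F} (hI : IsMax I) (hcomm : ∀ a b : F, a * b - b * a ∈ I)
include hI hcomm

lemma mul_mem_cases {a b : F} (h : a * b ∈ I) : a ∈ I ∨ b ∈ I := by
  by_contra! hc
  obtain ⟨ha, hb⟩ := hc
  let J : TwoSidedIdeal F := .mk' {x | x * b ∈ I} (by simp)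
    (fun hx hy => show _ ∈ I by rw [add_mul]; exact I.add_mem hx hy)
    (fun hx => show _ ∈ I by rw [neg_mul]; exact I.neg_mem hx)
    (fun {x _} hy => show _ ∈ I by rw [mul_assoc]; exact I.mul_mem_left x _ hy)
    (fun {x} {y} hx => show x * y * b ∈ I by
      rw [show x * y * b = x * b * y + x * (y * b - b * y) by noncomm_ring]
      exact I.add_mem (I.mul_mem_right _ _ hx) (I.mul_mem_left _ _ (hcomm y b)))
  have hmemJ : ∀ x, x ∈ J ↔ x * b ∈ I := fun x => TwoSidedIdeal.mem_mk' _ _ _ _ _ _ _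
  refine ha (hI.maximal J (fun x hx => (hmemJ x).2 (I.mul_mem_right _ _ hx)) ?_ ((hmemJ a).2 h))
  rw [hmemJ, one_mul]
  exact hb

lemma exists_scalar_sa {a : F} (ha : IsSelfAdjoint a) : ∃ t : ℝ, a - algebraMap ℝ F t ∈ I := by
  let _ := CStarAlgebra.spectralOrder F
  let _ := CStarAlgebra.spectralOrderedRing F
  set p : ℝ → F := fun t => cfc (fun r : ℝ => max (r - t) 0) a
  set q : ℝ → F := fun t => cfc (fun r : ℝ => max (t - r) 0) a
  have hp : ∀ t, Continuous fun r : ℝ => max (r - t) 0 := fun t => by fun_prop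
  have hq : ∀ t, Continuous fun r : ℝ => max (t - r) 0 := fun t => by fun_prop
  have hlip : ∀ f : ℝ → ℝ → ℝ, (∀ t, Continuous (f t)) →
      (∀ t t' r, |f t r - f t' r| ≤ |t - t'|) → Continuous fun t => cfc (f t) a := by
    intro f hf hb
    refine LipschitzWith.continuous (K := 1) (LipschitzWith.of_dist_le_mul fun t t' => ?_)
    rw [dist_eq_norm, ← cfc_sub (f t) (f t') a (hf t).continuousOn (hf t').continuousOn,
      Real.dist_eq, NNReal.coe_one, one_mul]
    exact norm_cfc_le (abs_nonneg _) fun r _ => hb t t' r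
  have hbound : ∀ r ∈ spectrum ℝ a, |r| ≤ ‖a‖ * ‖(1 : F)‖ := fun r hr =>
    (Real.norm_eq_abs r).symm.le.trans (spectrum.norm_le_norm_mul_of_mem hr)
  set R := ‖a‖ * ‖(1 : F)‖
  have hprod : ∀ t, p t ∈ I ∨ q t ∈ I := fun t => by
    refine mul_mem_cases hI hcomm ?_
    rw [← cfc_mul _ _ a (hp t).continuousOn (hq t).continuousOn]
    convert I.zero_mem
    refine (cfc_congr fun r _ => ?_).trans (cfc_zero ℝ a)
    rcases le_total r t with h | h <;> simp [h]
  obtain ⟨t, hpt, hqt⟩ : ∃ t, p t ∈ I ∧ q t ∈ I := by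
    have hU : IsClosed {t | p t ∈ I} := hI.isClosed.preimage (hlip _ hp fun t t' r => by
      refine (abs_max_sub_max_le_abs _ _ _).trans ?_
      rw [show r - t - (r - t') = -(t - t') by ring, abs_neg])
    have hL : IsClosed {t | q t ∈ I} := hI.isClosed.preimage (hlip _ hq fun t t' r => by
      refine (abs_max_sub_max_le_abs _ _ _).trans ?_
      rw [show t - r - (t' - r) = t - t' by ring])
    have h1 : p R ∈ I := by
      convert I.zero_mem
      refine (cfc_congr fun r hr => ?_).trans (cfc_zero ℝ a)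
      simpa using (le_abs_self r).trans (hbound r hr)
    have h2 : q (-R) ∈ I := by
      convert I.zero_mem
      refine (cfc_congr fun r hr => ?_).trans (cfc_zero ℝ a)
      simpa using neg_le.1 ((neg_le_abs r).trans (hbound r hr))
    obtain ⟨t, -, h⟩ := isPreconnected_closed_iff.1 isPreconnected_univ _ _ hU hL
      (fun t _ => hprod t) ⟨R, trivial, h1⟩ ⟨-R, trivial, h2⟩
    exact ⟨t, h⟩
  refine ⟨t, ?_⟩
  have h := I.sub_mem hpt hqt
  rw [show p t - q t = cfc (fun r : ℝ => r - t) a by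
    rw [← cfc_sub _ _ a (hp t).continuousOn (hq t).continuousOn]
    refine cfc_congr fun r _ => ?_
    rcases le_total r t with h | h <;> simp [h],
    cfc_sub (fun r : ℝ => r) (fun _ => t) a, cfc_id' ℝ a, cfc_const t a] at h
  exact h

lemma exists_scalar (a : F) : ∃ z : ℂ, a - algebraMap ℂ F z ∈ I := by
  obtain ⟨s, hs⟩ := exists_scalar_sa hI hcomm (realPart a).2
  obtain ⟨t, ht⟩ := exists_scalar_sa hI hcomm (imaginaryPart a).2
  refine ⟨(s : ℂ) + Complex.I * (t : ℂ), ?_⟩
  have h := I.add_mem hs (hI.smul_mem Complex.I ht)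
  rw [show ((realPart a : F) - algebraMap ℝ F s) +
      Complex.I • ((imaginaryPart a : F) - algebraMap ℝ F t) =
      a - algebraMap ℂ F ((s : ℂ) + Complex.I * (t : ℂ)) by
    conv_rhs => arg 1; rw [← realPart_add_I_smul_imaginaryPart a]
    simp only [Algebra.algebraMap_eq_smul_one, smul_sub, add_smul, mul_smul, Complex.coe_smul]
    abel] at h
  exact h

lemma exists_character : Nonempty (F →⋆ₐ[ℂ] ℂ) := by
  choose χ hχ using exists_scalar hI hcomm
  have huniq : ∀ a z, a - algebraMap ℂ F z ∈ I → χ a = z := by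
    intro a z hz
    by_contra hne
    have h := I.sub_mem hz (hχ a)
    rw [sub_sub_sub_cancel_left, ← map_sub] at h
    have h' := hI.smul_mem (χ a - z)⁻¹ h
    rw [Algebra.smul_def, ← map_mul, inv_mul_cancel₀ (sub_ne_zero.2 hne), map_one] at h'
    exact hI.one_notMem h'
  have hmul : ∀ a b, χ (a * b) = χ a * χ b := fun a b => huniq _ _ (by
    rw [map_mul, show a * b - algebraMap ℂ F (χ a) * algebraMap ℂ F (χ b) =
      (a - algebraMap ℂ F (χ a)) * b + algebraMap ℂ F (χ a) * (b - algebraMap ℂ F (χ b)) by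
      noncomm_ring]
    exact I.add_mem (I.mul_mem_right _ _ (hχ a)) (I.mul_mem_left _ _ (hχ b)))
  have hadd : ∀ a b, χ (a + b) = χ a + χ b := fun a b => huniq _ _ (by
    rw [map_add, add_sub_add_comm]
    exact I.add_mem (hχ a) (hχ b))
  have halg : ∀ c : ℂ, χ (algebraMap ℂ F c) = c := fun c => huniq _ _ (by simp)
  let φ : F →ₐ[ℂ] ℂ :=
    { toFun := χ
      map_one' := huniq _ _ (by simp)
      map_mul' := hmul
      map_zero' := huniq _ _ (by simp)
      map_add' := hadd
      commutes' := halg }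
  exact ⟨{ φ with map_star' := fun a => map_star φ a }⟩

end scalar

/-- Step 0: without characters, finitely many self-adjoint elements have full commutators. -/
theorem start_of : StartStatement := by
  intro F _ hF
  have hfull : Full (Set.range fun p : F × F => p.1 * p.2 - p.2 * p.1) := by
    rw [full_iff]
    intro I hI
    by_contra! h
    exact hF.elim' (exists_character hI fun a b => h _ ⟨(a, b), rfl⟩).some
  obtain ⟨ι, _, a, d, z, hz, hsum⟩ := hfull.exists_sum
  choose p hp using hz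
  set s : Set F := Set.range a ∪ Set.range d ∪ Set.range (fun i => (p i).1) ∪
    Set.range fun i => (p i).2 with hs
  refine ⟨s, (((Set.countable_range _).union (Set.countable_range _)).union
    (Set.countable_range _)).union (Set.countable_range _), ?_⟩
  have hmem : ∀ i, a i ∈ Cl s ∧ d i ∈ Cl s ∧ (p i).1 ∈ Cl s ∧ (p i).2 ∈ Cl s := fun i =>
    ⟨subset_Cl _ (.inl (.inl (.inl ⟨i, rfl⟩))), subset_Cl _ (.inl (.inl (.inr ⟨i, rfl⟩))),
      subset_Cl _ (.inl (.inr ⟨i, rfl⟩)), subset_Cl _ (.inr ⟨i, rfl⟩)⟩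
  let g : ι ⊕ ι → Cl s := Sum.elim (fun i => ⟨_, (hmem i).2.2.1⟩) fun i => ⟨_, (hmem i).2.2.2⟩
  let f : (ι ⊕ ι) ⊕ (ι ⊕ ι) → Cl s :=
    Sum.elim (fun i => (realPart (g i) : Cl s)) fun i => (imaginaryPart (g i) : Cl s)
  let e := Fintype.equivFin ((ι ⊕ ι) ⊕ (ι ⊕ ι))
  refine ⟨_, fun c => f (e.symm c), fun c => ?_, ?_⟩
  · show IsSelfAdjoint (f (e.symm c))
    rcases e.symm c with i | i
    · exact (realPart (g i)).2
    · exact (imaginaryPart (g i)).2
  rw [full_iff]
  intro I hI
  by_contra! h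
  have hf : ∀ u v, f u * f v - f v * f u ∈ I := fun u v => h _ (by
    simp only [Set.mem_iUnion, Set.mem_singleton_iff]
    exact ⟨e u, e v, by simp⟩)
  have hg : ∀ u v, g u * g v - g v * g u ∈ I := by
    intro u v
    rw [← realPart_add_I_smul_imaginaryPart (g u), ← realPart_add_I_smul_imaginaryPart (g v)]
    rw [show ((realPart (g u) : Cl s) + Complex.I • (imaginaryPart (g u) : Cl s)) *
        ((realPart (g v) : Cl s) + Complex.I • (imaginaryPart (g v) : Cl s)) -
        ((realPart (g v) : Cl s) + Complex.I • (imaginaryPart (g v) : Cl s)) *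
        ((realPart (g u) : Cl s) + Complex.I • (imaginaryPart (g u) : Cl s)) =
        (f (.inl u) * f (.inl v) - f (.inl v) * f (.inl u)) +
        Complex.I • (f (.inl u) * f (.inr v) - f (.inr v) * f (.inl u)) +
        Complex.I • (f (.inr u) * f (.inl v) - f (.inl v) * f (.inr u)) +
        Complex.I • Complex.I • (f (.inr u) * f (.inr v) - f (.inr v) * f (.inr u)) by
      simp only [f, Sum.elim_inl, Sum.elim_inr, smul_sub, mul_add, add_mul, smul_mul_assoc,
        mul_smul_comm, smul_add]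
      module]
    exact I.add_mem (I.add_mem (I.add_mem (hf _ _) (hI.smul_mem _ (hf _ _)))
      (hI.smul_mem _ (hf _ _))) (hI.smul_mem _ (hI.smul_mem _ (hf _ _)))
  refine hI.one_notMem ?_
  rw [show (1 : Cl s) = ∑ i, ⟨a i, (hmem i).1⟩ *
      (g (.inl i) * g (.inr i) - g (.inr i) * g (.inl i)) * ⟨d i, (hmem i).2.1⟩ from
    Subtype.ext (by push_cast; simp only [g, Sum.elim_inl, Sum.elim_inr, hp]; exact hsum.symm)]
  exact TwoSidedIdeal.finsetSum_mem _ _ _ fun i _ =>
    I.mul_mem_right _ _ (I.mul_mem_left _ _ (hg _ _))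

end Vale.Agent.P101.KR
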