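import Mathlib

/-!
# P101: definitions for the character question of Kirchberg and Rørdam

`Copies` is the property of central sequence algebras that is used: every separable unital
subalgebra has commuting copies. `DropData` are the defining relations of the dimension drop
algebra `Z_{2,3}` (an order zero map of `M₂` and an element `v`).
-/

namespace Vale.Agent.P101.KR

variable (F : Type*) [CStarAlgebra F]

/-- No nonzero `*`-homomorphism to `ℂ`. -/
def NoCharacter : Prop := IsEmpty (F →⋆ₐ[ℂ] ℂ)

variable {F}

/-- The closed unital `*`-subalgebra generated by a set. -/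
def Cl (s : Set F) : StarSubalgebra ℂ F := (StarAlgebra.adjoin ℂ s).topologicalClosure

/-- `m` unital copies of `B` in `F` with pairwise commuting ranges. -/
structure Copies (B : Type*) [CStarAlgebra B] (F : Type*) [CStarAlgebra F] (m : ℕ) where
  hom : Fin m → (B →⋆ₐ[ℂ] F)
  comm : ∀ i j, i ≠ j → ∀ a b, Commute (hom i a) (hom j b)

/-- The two-sided ideal generated by `S` is everything. -/
def Full (S : Set F) : Prop := (1 : F) ∈ TwoSidedIdeal.span S

/-- The sum of the diagonal entries, the image of `1` under the map. -/
def diag (P : Fin 2 → Fin 2 → F) : F := P 0 0 + P 1 1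

/-- The values `P a b = φ(e_ab)` of an order zero completely positive map of `M₂`, up to the norm
bound, which `DropData` supplies. -/
structure OrderZero (P : Fin 2 → Fin 2 → F) : Prop where
  star_eq : ∀ a b, star (P a b) = P b a
  mul_eq : ∀ a b c d, P a b * P c d = if b = c then diag P * P a d else 0
  pos : ∀ a, ∃ c, P a a = star c * c

/-- The relations of `Z_{2,3}`: an order zero `φ` and `v` with `v*v = 1 - φ(1)`, `φ(e₀₀) v = v`. -/
structure DropData (F : Type*) [CStarAlgebra F] where
  P : Fin 2 → Fin 2 → F
  v : F
  orderZero : OrderZero P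
  star_mul_v : star v * v = 1 - diag P
  fix_v : P 0 0 * v = v

/-- The data of one position: an order zero `θ`, the root `s` of `1 - θ(1)²` and `k` elements in
the corner where `θ(e₀₀) = 1` whose squares sum to one. -/
structure Seed (B : Type*) [CStarAlgebra B] (k : ℕ) where
  θ : Fin 2 → Fin 2 → B
  s : B
  x : Fin k → B
  orderZero : OrderZero θ
  star_s : star s = s
  mul_self_s : s * s = 1 - diag θ * diag θ
  comm_s : ∀ a b, Commute s (θ a b)
  fix_x : ∀ c, θ 0 0 * x c = x c
  sum_x : ∑ c, star (x c) * x c = 1

end Vale.Agent.P101.KR
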