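import Vale.Agent.P101.KR.DropCols

/-!
# P101: functions of `τ`, and the part of the homomorphism vanishing at both ends

For `h ∈ C([0,1], M_{n+1} ⊗ Mₙ)`, `pre h = Σ h_pq(τ) unit p q` has norm at most a constant times
`sup ‖k h‖`, `k = t (1 - t)`, so it extends to `mid` on the paths vanishing at `0` and `1`.
-/

open scoped CStarAlgebra BoundedContinuousFunction ComplexOrder
open CStarAlgebra Filter Topology unitInterval

namespace Vale.Agent.P101.KR.DropDataN

variable {n : ℕ} [NeZero n] {F : Type} [CStarAlgebra F] (D : DropDataN n F)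

lemma τ_mul_one_sub : D.τ * (1 - D.τ) = ∑ p, D.unit p p := D.sum_unit.symm

lemma unit_nonneg (p : DropIndex n) :
    letI := CStarAlgebra.spectralOrder F; 0 ≤ D.unit p p := by
  let _ := CStarAlgebra.spectralOrder F
  let _ := CStarAlgebra.spectralOrderedRing F
  obtain ⟨c, hc⟩ := D.orderZero.pos p.2
  rw [unit, hc]
  exact star_right_conjugate_nonneg (star_mul_self_nonneg c) _

lemma unit_le (p : DropIndex n) :
    letI := CStarAlgebra.spectralOrder F; D.unit p p ≤ D.τ * (1 - D.τ) := by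
  let _ := CStarAlgebra.spectralOrder F
  let _ := CStarAlgebra.spectralOrderedRing F
  rw [τ_mul_one_sub]
  exact Finset.single_le_sum (f := fun q => D.unit q q) (fun q _ => D.unit_nonneg q)
    (Finset.mem_univ p)

lemma spectrum_τ {t : ℝ} (ht : t ∈ spectrum ℝ D.τ) : t ∈ Set.Icc (0 : ℝ) 1 := by
  let _ := CStarAlgebra.spectralOrder F
  let _ := CStarAlgebra.spectralOrderedRing F
  have hs : IsSelfAdjoint D.τ := D.star_τ
  have h : 0 ≤ cfc (fun t : ℝ => t - t * t) D.τ := by
    rw [cfc_sub (fun t : ℝ => t) (fun t => t * t) D.τ, cfc_mul (fun t : ℝ => t) (fun t => t) D.τ,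
      cfc_id' ℝ D.τ hs]
    have e : D.τ - D.τ * D.τ = D.τ * (1 - D.τ) := by rw [mul_sub, mul_one]
    exact e ▸ D.sum_unit ▸ Finset.sum_nonneg fun p _ => D.unit_nonneg p
  have := (cfc_nonneg_iff (fun t : ℝ => t - t * t) D.τ).1 h t ht
  constructor <;> nlinarith

/-- The coordinate on the spectrum of `τ`. -/
noncomputable def coord : C(spectrum ℂ D.τ, I) :=
  ⟨fun z => Set.projIcc 0 1 zero_le_one (z : ℂ).re,
    continuous_projIcc.comp (Complex.continuous_re.comp continuous_subtype_val)⟩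

/-- Functions of `τ`. -/
noncomputable def fn : C(I, ℂ) →⋆ₐ[ℂ] F :=
  (cfcHom (show IsStarNormal D.τ from IsSelfAdjoint.isStarNormal D.star_τ)).comp
    (D.coord.compStarAlgHom' ℂ ℂ)

lemma commute_fn {x : F} (h : Commute D.τ x) (u : C(I, ℂ)) : Commute (D.fn u) x :=
  Commute.cfcHom _ h (by rwa [D.star_τ]) _

lemma norm_fn_le (u : C(I, ℂ)) : ‖D.fn u‖ ≤ ‖u‖ := NonUnitalStarAlgHom.norm_apply_le D.fn u

/-- The inclusion of `[0,1]` in `ℂ`. -/
def idC : C(I, ℂ) := ⟨fun t => ((t : ℝ) : ℂ), by fun_prop⟩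

lemma fn_idC : D.fn idC = D.τ := by
  have hs : IsSelfAdjoint D.τ := D.star_τ
  have : idC.comp D.coord = (ContinuousMap.id ℂ).restrict (spectrum ℂ D.τ) := by
    ext ⟨z, hz⟩
    have hre : z = (z.re : ℂ) := hs.mem_spectrum_eq_re hz
    have hr : z.re ∈ spectrum ℝ D.τ := by
      rw [← spectrum.algebraMap_mem_iff ℂ]
      exact hre ▸ hz
    simp only [ContinuousMap.comp_apply, idC, coord, ContinuousMap.coe_mk,
      ContinuousMap.restrict_apply, ContinuousMap.id_apply]
    rw [Set.projIcc_of_mem _ (D.spectrum_τ hr)]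
    exact hre.symm
  show cfcHom _ (idC.comp D.coord) = D.τ
  rw [this]
  exact cfcHom_id _

/-- `t (1 - t)`. -/
noncomputable def kC : C(I, ℂ) := idC * (1 - idC)

lemma fn_kC : D.fn kC = D.τ * (1 - D.τ) := by simp [kC, map_mul, map_sub, D.fn_idC]

/-- Modulus of `u t (1 - t)` bounds the value on a matrix unit. -/
lemma norm_fn_mul_unit_le (u : C(I, ℂ)) (p q : DropIndex n) :
    ‖D.fn u * D.unit p q‖ ≤ ‖u * kC‖ := by
  let _ := CStarAlgebra.spectralOrder F
  let _ := CStarAlgebra.spectralOrderedRing F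
  obtain ⟨s, hs, hss⟩ : ∃ s : C(I, ℂ), star s = s ∧ s * s = kC := by
    refine ⟨⟨fun t => ((Real.sqrt ((t : ℝ) * (1 - t)) : ℝ) : ℂ), by fun_prop⟩, ?_, ?_⟩
    · ext t; simp
    · ext t
      simp only [ContinuousMap.mul_apply, ContinuousMap.coe_mk, kC, idC, ContinuousMap.sub_apply,
        ContinuousMap.one_apply]
      rw [← Complex.ofReal_mul, Real.mul_self_sqrt (mul_nonneg t.2.1 (by linarith [t.2.2]))]
      push_cast; ring
  have hk : star (kC : C(I, ℂ)) = kC := by rw [← hss, star_mul, hs]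
  have hq : ∀ v, Commute (D.fn v) (D.unit q q) := fun v => D.commute_fn (D.commute_τ_unit q q) v
  -- `X* X = w* U w` with `w = u √k`
  have h1 : star (D.fn u * D.unit p q) * (D.fn u * D.unit p q) =
      star (D.fn (u * s)) * D.unit q q * D.fn (u * s) := by
    rw [(D.commute_fn (D.commute_τ_unit p q) u).eq, star_mul, D.star_unit, ← map_star,
      show D.fn (star u) * D.unit q p * (D.unit p q * D.fn u) =
        D.fn (star u) * (D.unit q p * D.unit p q) * D.fn u by noncomm_ring, D.unit_mul_unit,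
      if_pos rfl, ← D.fn_kC, ← map_star, ← mul_assoc, ← map_mul, mul_assoc,
      ← (hq u).eq, ← mul_assoc, ← map_mul, mul_assoc (D.fn (star (u * s))), ← (hq (u * s)).eq,
      ← mul_assoc, ← map_mul, ← hss, star_mul, hs]
    congr 2
    ring
  have h2 : star (u * kC) * (u * kC) = star (u * s) * kC * (u * s) := by
    rw [star_mul, hk, ← hss, star_mul, hs]; ring
  refine (mul_self_le_mul_self_iff (norm_nonneg _) (norm_nonneg _)).2 ?_
  rw [← CStarRing.norm_star_mul_self, ← CStarRing.norm_star_mul_self, h1, h2]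
  refine (CStarAlgebra.norm_le_norm_of_nonneg_of_le
    (star_left_conjugate_nonneg (D.unit_nonneg q) _)
    (star_left_conjugate_le_conjugate (D.unit_le q) _)).trans ?_
  rw [← D.fn_kC, ← map_star, ← map_mul, ← map_mul]
  exact D.norm_fn_le _

variable (n) in
/-- The paths in the fibre. -/
abbrev Paths : Type := I →ᵇ DropFibre n

/-- An entry of a path. -/
noncomputable def entry (p q : DropIndex n) : Paths n →ₗ[ℂ] C(I, ℂ) where
  toFun h := ⟨fun t => h t p q, continuous_entry h.continuous p q⟩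
  map_add' _ _ := by ext; rfl
  map_smul' _ _ := by ext; rfl

omit [NeZero n] in
@[simp] lemma entry_apply (p q : DropIndex n) (h : Paths n) (t : I) : entry p q h t = h t p q := rfl

omit [NeZero n] in
lemma norm_entry_le (p q : DropIndex n) (h : Paths n) : ‖entry p q h‖ ≤ ‖h‖ :=
  (ContinuousMap.norm_le _ (norm_nonneg h)).2 fun t =>
    (CStarMatrix.norm_entry_le_norm (M := h t) (i := p) (j := q)).trans (h.norm_coe_le_norm t)

/-- Multiplication of paths by scalar functions. -/
noncomputable def sc (u : C(I, ℂ)) : Paths n :=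
  BoundedContinuousFunction.mkOfCompact ⟨fun t => u t • (1 : DropFibre n),
    u.continuous.smul continuous_const⟩

omit [NeZero n] in
@[simp] lemma sc_apply (u : C(I, ℂ)) (t : I) : (sc u : Paths n) t = u t • (1 : DropFibre n) := rfl

omit [NeZero n] in
lemma sc_mul_apply (u : C(I, ℂ)) (h : Paths n) (t : I) :
    (sc u * h : Paths n) t = u t • h t := by
  show u t • (1 : DropFibre n) * h t = _
  rw [smul_mul_assoc, one_mul]

omit [NeZero n] in
lemma sc_comm (u : C(I, ℂ)) (h : Paths n) : sc u * h = h * sc u := by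
  ext t : 1
  show u t • (1 : DropFibre n) * h t = h t * u t • (1 : DropFibre n)
  rw [smul_mul_assoc, one_mul, mul_smul_comm, mul_one]

omit [NeZero n] in
lemma sc_mul (u v : C(I, ℂ)) : (sc (u * v) : Paths n) = sc u * sc v := by
  ext t : 1
  rw [sc_mul_apply]
  exact mul_smul (u t) (v t) (1 : DropFibre n)

omit [NeZero n] in
lemma entry_sc_mul (u : C(I, ℂ)) (h : Paths n) (p q : DropIndex n) :
    entry p q (sc u * h) = u * entry p q h := by
  ext t
  simp

/-- The map before the extension. -/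
noncomputable def pre (h : Paths n) : F := ∑ p, ∑ q, D.fn (entry p q h) * D.unit p q

lemma pre_add (g h : Paths n) : D.pre (g + h) = D.pre g + D.pre h := by
  simp [pre, add_mul, Finset.sum_add_distrib]

lemma pre_smul (c : ℂ) (h : Paths n) : D.pre (c • h) = c • D.pre h := by
  simp [pre, Finset.smul_sum]

lemma pre_sub (g h : Paths n) : D.pre (g - h) = D.pre g - D.pre h := by
  simp [pre, sub_mul, Finset.sum_sub_distrib]

lemma norm_pre_le (h : Paths n) :
    ‖D.pre h‖ ≤ (Fintype.card (DropIndex n) : ℝ) ^ 2 * ‖sc kC * h‖ := by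
  refine (norm_sum_le _ _).trans ((Finset.sum_le_card_nsmul _ _
    ((Fintype.card (DropIndex n) : ℝ) * ‖sc kC * h‖) fun p _ => ?_).trans (le_of_eq ?_))
  · refine (norm_sum_le _ _).trans ((Finset.sum_le_card_nsmul _ _ ‖sc kC * h‖ fun q _ => ?_).trans
      (le_of_eq ?_))
    · refine (D.norm_fn_mul_unit_le _ p q).trans ?_
      rw [mul_comm, ← entry_sc_mul]
      exact norm_entry_le _ _ _
    · simp
  · simp [sq, mul_assoc]

/-- Cut-off inverses of `t (1 - t)`. -/
noncomputable def inv (m : ℕ) : C(I, ℂ) :=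
  ⟨fun t => (((max ((t : ℝ) * (1 - t)) ((m : ℝ) + 1)⁻¹)⁻¹ : ℝ) : ℂ),
    Complex.continuous_ofReal.comp ((by fun_prop : Continuous fun t : I =>
      max ((t : ℝ) * (1 - t)) ((m : ℝ) + 1)⁻¹).inv₀
        fun _ => (lt_max_of_lt_right (by positivity)).ne')⟩

omit [NeZero n] in
lemma tendsto_inv (g : Paths n) (h0 : g 0 = 0) (h1 : g 1 = 0) :
    Tendsto (fun m => ‖sc kC * (sc (inv m) * g) - g‖) atTop (𝓝 0) := by
  rw [Metric.tendsto_atTop]
  intro ε hε
  have hK : IsCompact {t : I | ε / 2 ≤ ‖g t‖} :=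
    (isClosed_le continuous_const g.continuous.norm).isCompact
  have hpos : ∀ t ∈ {t : I | ε / 2 ≤ ‖g t‖}, 0 < (t : ℝ) * (1 - t) := by
    intro t ht
    have a : t ≠ 0 := fun e => by rw [e, Set.mem_ofPred_eq, h0, norm_zero] at ht; linarith
    have b : t ≠ 1 := fun e => by rw [e, Set.mem_ofPred_eq, h1, norm_zero] at ht; linarith
    exact mul_pos (lt_of_le_of_ne t.2.1 fun e => a (Subtype.ext e.symm))
      (sub_pos.2 (lt_of_le_of_ne t.2.2 fun e => b (Subtype.ext e)))
  obtain ⟨δ, hδ, hδK⟩ : ∃ δ > 0, ∀ t ∈ {t : I | ε / 2 ≤ ‖g t‖}, δ ≤ (t : ℝ) * (1 - t) := by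
    rcases Set.eq_empty_or_nonempty {t : I | ε / 2 ≤ ‖g t‖} with he | hne
    · exact ⟨1, one_pos, fun t ht => absurd ht (by rw [he]; exact Set.notMem_empty t)⟩
    · obtain ⟨t₀, ht₀, hmin⟩ := hK.exists_isMinOn hne
        (f := fun t : I => (t : ℝ) * (1 - t)) (by fun_prop)
      exact ⟨_, hpos t₀ ht₀, fun t ht => hmin ht⟩
  obtain ⟨N, hN⟩ := exists_nat_gt δ⁻¹
  refine ⟨N, fun m hm => ?_⟩
  rw [Real.dist_eq, sub_zero, abs_norm]
  refine lt_of_le_of_lt ((BoundedContinuousFunction.norm_le (by positivity)).2 fun t => ?_)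
    (half_lt_self hε)
  have hk0 : 0 ≤ (t : ℝ) * (1 - t) := mul_nonneg t.2.1 (by linarith [t.2.2])
  set k := (t : ℝ) * (1 - t)
  set M := max k ((m : ℝ) + 1)⁻¹
  have hM : 0 < M := lt_max_of_lt_right (by positivity)
  have e : (sc kC * (sc (inv m) * g) - g : Paths n) t = ((k * M⁻¹ - 1 : ℝ) : ℂ) • g t := by
    rw [BoundedContinuousFunction.sub_apply, sc_mul_apply, sc_mul_apply, smul_smul]
    simp [kC, idC, inv, sub_smul, k, M]
  rw [e, norm_smul, Complex.norm_real, Real.norm_eq_abs]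
  by_cases ht : ε / 2 ≤ ‖g t‖
  · have : ((m : ℝ) + 1)⁻¹ ≤ k := by
      refine le_trans ?_ (hδK t ht)
      have hm' : (N : ℝ) ≤ m := Nat.cast_le.2 hm
      rw [inv_le_comm₀ (by positivity) hδ]
      linarith
    have hMk : M = k := max_eq_left this
    rw [hMk, mul_inv_cancel₀ (hpos t ht).ne', sub_self, abs_zero, zero_mul]
    positivity
  · push Not at ht
    have h01 : |k * M⁻¹ - 1| ≤ 1 := by
      have h1 : k * M⁻¹ ≤ 1 := by
        rw [mul_inv_le_iff₀ hM, one_mul]; exact le_max_left _ _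
      have h2 : 0 ≤ k * M⁻¹ := mul_nonneg hk0 (inv_nonneg.2 hM.le)
      rw [abs_le]; constructor <;> linarith
    calc |k * M⁻¹ - 1| * ‖g t‖ ≤ 1 * ‖g t‖ := by gcongr
      _ ≤ ε / 2 := by linarith

/-- The extension. -/
noncomputable def mid (g : Paths n) : F := limUnder atTop fun m => D.pre (sc (inv m) * g)

lemma tendsto_pre (g : Paths n) (h0 : g 0 = 0) (h1 : g 1 = 0) :
    Tendsto (fun m => D.pre (sc (inv m) * g)) atTop (𝓝 (D.mid g)) := by
  refine tendsto_nhds_limUnder (cauchySeq_tendsto_of_complete ?_)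
  rw [Metric.cauchySeq_iff]
  intro ε hε
  set C : ℝ := (Fintype.card (DropIndex n) : ℝ) ^ 2 + 1
  obtain ⟨N, hN⟩ := Metric.tendsto_atTop.1 (tendsto_inv g h0 h1) (ε / (2 * C)) (by positivity)
  refine ⟨N, fun a ha b hb => ?_⟩
  have ha' := hN a ha
  have hb' := hN b hb
  rw [Real.dist_eq, sub_zero, abs_norm] at ha' hb'
  rw [dist_eq_norm, ← D.pre_sub]
  refine lt_of_le_of_lt (D.norm_pre_le _) ?_
  have : ‖sc kC * (sc (inv a) * g - sc (inv b) * g)‖ ≤ ε / (2 * C) + ε / (2 * C) := by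
    rw [mul_sub]
    calc _ = ‖(sc kC * (sc (inv a) * g) - g) - (sc kC * (sc (inv b) * g) - g)‖ := by abel_nf
      _ ≤ _ := (norm_sub_le _ _).trans (add_le_add ha'.le hb'.le)
  have e : C * (ε / (2 * C) + ε / (2 * C)) = ε := by
    have : C ≠ 0 := ne_of_gt (by positivity)
    field_simp; ring
  have hpos : 0 < ε / (2 * C) + ε / (2 * C) := by positivity
  nlinarith [norm_nonneg (sc kC * (sc (inv a) * g - sc (inv b) * g))]

/-- The extension is seen along every approximating sequence. -/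
lemma eq_mid {g : Paths n} (h0 : g 0 = 0) (h1 : g 1 = 0) {h : ℕ → Paths n} {L : F}
    (hh : Tendsto (fun m => ‖sc kC * h m - g‖) atTop (𝓝 0))
    (hL : Tendsto (fun m => D.pre (h m)) atTop (𝓝 L)) : L = D.mid g := by
  have hz : Tendsto (fun m => D.pre (h m - sc (inv m) * g)) atTop (𝓝 0) := by
    have hb := (hh.add (tendsto_inv g h0 h1)).const_mul
      ((Fintype.card (DropIndex n) : ℝ) ^ 2)
    rw [add_zero, mul_zero] at hb
    refine squeeze_zero_norm (fun m => (D.norm_pre_le _).trans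
      (mul_le_mul_of_nonneg_left ?_ (by positivity))) hb
    rw [mul_sub]
    calc _ = ‖(sc kC * h m - g) - (sc kC * (sc (inv m) * g) - g)‖ := by abel_nf
      _ ≤ _ := norm_sub_le _ _
  have := hL.sub (D.tendsto_pre g h0 h1)
  simp only [← D.pre_sub] at this
  exact sub_eq_zero.1 (tendsto_nhds_unique this hz)

lemma mid_kC_mul (h : Paths n) : D.mid (sc kC * h) = D.pre h :=
  (D.eq_mid (by simp [kC, idC]) (by simp [kC, idC]) (h := fun _ => h)
    (by simp) tendsto_const_nhds).symm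

end Vale.Agent.P101.KR.DropDataN
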