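import Vale.Agent.P101.KR.DropAlg

/-!
# P101: matrix units inside a family with the relations of `Z_{n,n+1}`

The columns `c (some b) = P b 0 * v` and `c none = √(1 - φ(1))` satisfy `c j* c k = δ (1 - φ(1))`.
Their sum of squares `τ` is central, `φ₁(e_jk) = c j (c k)*` and `φ₀(e_ab) = P a b - c a (c b)*`
are order zero of weights `τ` and `1 - τ`, and `c j (P a b) (c k)*` is order zero on the
`M_{n+1} ⊗ Mₙ` of weight `τ (1 - τ)`.
-/

open scoped CStarAlgebra
open CStarAlgebra

namespace Vale.Agent.P101.KR.DropDataN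

variable {n : ℕ} [NeZero n] {F : Type} [CStarAlgebra F] (D : DropDataN n F)

/-- `φ(1)`. -/
def h : F := diagN D.P

/-- `1 - φ(1) = v*v`. -/
def e : F := 1 - D.h

lemma star_P (a b : Fin n) : star (D.P a b) = D.P b a := D.orderZero.star_eq a b

lemma P_mul_P (a b c d : Fin n) :
    D.P a b * D.P c d = if b = c then D.h * D.P a d else 0 := D.orderZero.mul_eq a b c d

lemma star_h : star D.h = D.h := by simp [h, diagN, D.star_P]

lemma commute_h (a b : Fin n) : Commute D.h (D.P a b) := by
  have := congrArg star (D.P_mul_P b b b a)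
  simp only [if_true, star_mul, D.star_P, D.star_h] at this
  rw [D.P_mul_P a b b b, if_pos rfl] at this
  exact this

lemma commute_e (a b : Fin n) : Commute D.e (D.P a b) :=
  (Commute.one_left _).sub_left (D.commute_h a b)

lemma star_e : star D.e = D.e := by simp [e, D.star_h]

lemma star_v_mul_v : star D.v * D.v = D.e := D.star_mul_v

lemma P_mul_v (a b : Fin n) : D.P a b * D.v = if b = 0 then D.h * (D.P a 0 * D.v) else 0 := by
  conv_lhs => rw [← D.fix_v, ← mul_assoc, D.P_mul_P]
  split_ifs <;> simp [mul_assoc]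

lemma h_mul_v : D.h * D.v = D.v := by
  rw [h, diagN, Finset.sum_mul, Finset.sum_eq_single 0 (fun a _ ha => by
    rw [D.P_mul_v, if_neg ha]) (fun h => absurd (Finset.mem_univ _) h), D.fix_v]

lemma e_mul_v : D.e * D.v = 0 := by rw [e, sub_mul, one_mul, D.h_mul_v, sub_self]

lemma P_mul_v' (a b : Fin n) : D.P a b * D.v = if b = 0 then D.P a 0 * D.v else 0 := by
  rw [D.P_mul_v, ← mul_assoc, (D.commute_h a 0).eq, mul_assoc, D.h_mul_v]

/-- `√(1 - φ(1))`. -/
noncomputable def r : F := cfc Real.sqrt D.e

lemma e_nonneg : letI := CStarAlgebra.spectralOrder F; 0 ≤ D.e := by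
  let _ := CStarAlgebra.spectralOrder F
  let _ := CStarAlgebra.spectralOrderedRing F
  exact D.star_v_mul_v ▸ star_mul_self_nonneg _

lemma star_r : star D.r = D.r := (cfc_predicate Real.sqrt D.e : IsSelfAdjoint _).star_eq

lemma r_mul_r : D.r * D.r = D.e := by
  let _ := CStarAlgebra.spectralOrder F
  let _ := CStarAlgebra.spectralOrderedRing F
  have hs : IsSelfAdjoint D.e := D.star_e
  rw [r, ← cfc_mul Real.sqrt Real.sqrt D.e Real.continuous_sqrt.continuousOn
    Real.continuous_sqrt.continuousOn]
  conv_rhs => rw [← cfc_id' ℝ D.e hs]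
  exact cfc_congr fun t ht => Real.mul_self_sqrt (spectrum_nonneg_of_nonneg D.e_nonneg ht)

lemma commute_r {x : F} (h : Commute D.e x) : Commute D.r x :=
  (show IsSelfAdjoint D.e from D.star_e).commute_cfc h Real.sqrt

lemma r_mul_v : D.r * D.v = 0 := by
  rw [← CStarRing.star_mul_self_eq_zero_iff, star_mul, D.star_r,
    show star D.v * D.r * (D.r * D.v) = star D.v * (D.r * D.r * D.v) by noncomm_ring, D.r_mul_r,
    D.e_mul_v, mul_zero]

/-- The columns. -/
noncomputable def col : Option (Fin n) → F
  | some b => D.P b 0 * D.v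
  | none => D.r

lemma P_mul_col_some (a b c : Fin n) :
    D.P a b * D.col (some c) = if b = c then D.col (some a) else 0 := by
  simp only [col]
  rw [← mul_assoc, D.P_mul_P]
  split_ifs
  · rw [(D.commute_h a 0).eq, mul_assoc, D.h_mul_v]
  · simp

lemma P_mul_col_none (a b : Fin n) : D.P a b * D.col none = D.col none * D.P a b :=
  (D.commute_r (D.commute_e a b)).eq.symm

lemma star_col_mul_col (j k : Option (Fin n)) :
    star (D.col j) * D.col k = if j = k then D.e else 0 := by
  have cross : ∀ b, D.col none * D.col (some b) = 0 := fun b => by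
    simp only [col]
    rw [← mul_assoc, (D.commute_r (D.commute_e b 0)).eq, mul_assoc, D.r_mul_v, mul_zero]
  cases j with
  | none =>
    cases k with
    | none => simp [col, D.star_r, D.r_mul_r]
    | some b => simpa [col, D.star_r] using cross b
  | some a =>
    cases k with
    | none =>
      rw [if_neg (by simp)]
      simpa [col, D.star_r] using congrArg star (cross a)
    | some b =>
      rw [show star (D.col (some a)) = star D.v * D.P 0 a by simp [col, D.star_P], mul_assoc,
        D.P_mul_col_some]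
      simp only [col, Option.some.injEq]
      split_ifs
      · rw [D.fix_v, D.star_v_mul_v]
      · simp

/-- The central parameter. -/
noncomputable def τ : F := ∑ j, D.col j * star (D.col j)

lemma star_τ : star D.τ = D.τ := by simp [τ]

lemma τ_mul_col (j : Option (Fin n)) : D.τ * D.col j = D.col j * D.e := by
  simp only [τ, Finset.sum_mul, mul_assoc, D.star_col_mul_col, mul_ite, mul_zero]
  simp

lemma star_col_mul_τ (j : Option (Fin n)) : star (D.col j) * D.τ = D.e * star (D.col j) := by
  simpa [D.star_τ, D.star_e] using congrArg star (D.τ_mul_col j)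

lemma one_sub_τ_mul_col (j : Option (Fin n)) : (1 - D.τ) * D.col j = D.col j * D.h := by
  rw [sub_mul, one_mul, D.τ_mul_col, e, mul_sub, mul_one, sub_sub_cancel]

lemma P_mul_τ (a b : Fin n) :
    D.P a b * D.τ = D.e * D.P a b + D.col (some a) * star (D.col (some b)) := by
  rw [τ, Fintype.sum_option, mul_add, Finset.mul_sum]
  congr 1
  · simp only [col, D.star_r]
    rw [D.r_mul_r, ← (D.commute_e a b).eq]
  · simp only [← mul_assoc, D.P_mul_col_some, ite_mul, zero_mul]
    simp

lemma τ_mul_P (a b : Fin n) :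
    D.τ * D.P a b = D.e * D.P a b + D.col (some a) * star (D.col (some b)) := by
  have := congrArg star (D.P_mul_τ b a)
  simpa [D.star_τ, D.star_P, D.star_e, (D.commute_e a b).eq] using this

lemma commute_τ_P (a b : Fin n) : Commute D.τ (D.P a b) := (D.τ_mul_P a b).trans (D.P_mul_τ a b).symm

/-- The unit matrices of `M_{n+1}`, of weight `τ`. -/
noncomputable def large (j k : Option (Fin n)) : F := D.col j * star (D.col k)

lemma commute_τ_large (j k : Option (Fin n)) : Commute D.τ (D.large j k) := by
  show D.τ * _ = _ * D.τ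
  rw [large, ← mul_assoc, D.τ_mul_col, mul_assoc, mul_assoc, D.star_col_mul_τ]

lemma large_mul_col (j k l : Option (Fin n)) :
    D.large j k * D.col l = if k = l then D.τ * D.col j else 0 := by
  rw [large, mul_assoc, D.star_col_mul_col]
  split_ifs <;> simp [D.τ_mul_col]

lemma large_mul_large (j k l m : Option (Fin n)) :
    D.large j k * D.large l m = if k = l then D.τ * D.large j m else 0 := by
  nth_rw 2 [large]
  rw [← mul_assoc, D.large_mul_col]
  split_ifs <;> simp [large, mul_assoc]

/-- The unit matrices of `Mₙ`, of weight `1 - τ`. -/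
noncomputable def small (a b : Fin n) : F := D.P a b - D.large (some a) (some b)

lemma commute_τ_small (a b : Fin n) : Commute D.τ (D.small a b) :=
  (D.commute_τ_P a b).sub_right (D.commute_τ_large _ _)

lemma star_small (a b : Fin n) : star (D.small a b) = D.small b a := by
  simp [small, large, D.star_P]

lemma small_mul_col_some (a b c : Fin n) :
    D.small a b * D.col (some c) = if b = c then D.col (some a) * D.h else 0 := by
  rw [small, sub_mul, D.P_mul_col_some, D.large_mul_col]
  simp only [Option.some.injEq]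
  split_ifs
  · rw [← D.one_sub_τ_mul_col, sub_mul, one_mul]
  · simp

lemma small_mul_col_none (a b : Fin n) : D.small a b * D.col none = D.col none * D.P a b := by
  rw [small, sub_mul, D.P_mul_col_none, D.large_mul_col]
  simp

lemma small_mul_small (a b c d : Fin n) :
    D.small a b * D.small c d = if b = c then (1 - D.τ) * D.small a d else 0 := by
  nth_rw 2 [small]
  rw [mul_sub, large, ← mul_assoc (D.small a b), D.small_mul_col_some, small, sub_mul, D.P_mul_P,
    large, mul_assoc (D.col (some a)), show star (D.col (some b)) * D.P c d =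
      star (D.P d c * D.col (some b)) by simp [D.star_P], D.P_mul_col_some]
  by_cases hbc : b = c
  · subst hbc
    simp only [if_true]
    rw [sub_mul, one_mul, small, mul_sub, D.τ_mul_P, large, ← mul_assoc D.τ, D.τ_mul_col]
    simp only [e, sub_mul, one_mul, mul_sub, mul_one]
    abel
  · simp [hbc, Ne.symm hbc]

lemma sum_small : ∑ a, D.small a a = 1 - D.τ := by
  simp only [small, large, Finset.sum_sub_distrib, τ, Fintype.sum_option]
  rw [show ∑ a, D.P a a = D.h from rfl]
  simp only [col, D.star_r, D.r_mul_r, e]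
  abel

lemma sum_large : ∑ j, D.large j j = D.τ := rfl

/-- The matrix units of the whole fibre, of weight `τ (1 - τ)`. -/
noncomputable def unit (p q : DropIndex n) : F := D.col p.1 * D.P p.2 q.2 * star (D.col q.1)

lemma star_unit (p q : DropIndex n) : star (D.unit p q) = D.unit q p := by
  simp [unit, mul_assoc, D.star_P]

lemma commute_τ_unit (p q : DropIndex n) : Commute D.τ (D.unit p q) := by
  show D.τ * _ = _ * D.τ
  rw [unit, ← mul_assoc, ← mul_assoc, D.τ_mul_col, mul_assoc (D.col _), (D.commute_e _ _).eq,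
    mul_assoc _ (star _), D.star_col_mul_τ, ← mul_assoc, ← mul_assoc]

lemma unit_mul_unit (p q q' s : DropIndex n) :
    D.unit p q * D.unit q' s = if q = q' then D.τ * (1 - D.τ) * D.unit p s else 0 := by
  rw [unit, unit, show D.col p.1 * D.P p.2 q.2 * star (D.col q.1) *
      (D.col q'.1 * D.P q'.2 s.2 * star (D.col s.1)) =
      D.col p.1 * (D.P p.2 q.2 * (star (D.col q.1) * D.col q'.1) * D.P q'.2 s.2) *
        star (D.col s.1) by noncomm_ring, D.star_col_mul_col]
  obtain ⟨j, a⟩ := q
  obtain ⟨k, b⟩ := q'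
  by_cases hjk : j = k
  · subst hjk
    simp only [if_true]
    rw [← (D.commute_e _ _).eq, mul_assoc D.e, D.P_mul_P]
    by_cases hab : a = b
    · subst hab
      simp only [if_true]
      rw [mul_assoc D.τ, unit, ← mul_assoc, ← mul_assoc, ← mul_assoc, ← mul_assoc, ← mul_assoc,
        mul_assoc D.τ, D.one_sub_τ_mul_col, ← mul_assoc, D.τ_mul_col]
    · simp [hab]
  · simp [hjk]

lemma sum_unit : ∑ p, D.unit p p = D.τ * (1 - D.τ) := by
  simp only [unit, Fintype.sum_prod_type, ← Finset.sum_mul, ← Finset.mul_sum]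
  rw [show ∑ a, D.P a a = D.h from rfl]
  simp only [← D.one_sub_τ_mul_col, mul_assoc, ← Finset.mul_sum]
  rw [show ∑ j, D.col j * star (D.col j) = D.τ from rfl]
  noncomm_ring

/-- The transposition of the two indices of `Mₙ ⊗ Mₙ ⊆ M_{n+1} ⊗ Mₙ`. -/
def flip : DropIndex n → DropIndex n
  | (some b, a) => (some a, b)
  | (none, a) => (none, a)

/-- The copy of `Mₙ` acting on the first index where it can. -/
def twisted (x : Matrix (Fin n) (Fin n) ℂ) : DropFibre n :=
  CStarMatrix.ofMatrix fun p q => embSmall x (flip p) (flip q)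

omit [NeZero n] in
@[simp] lemma twisted_apply (x : Matrix (Fin n) (Fin n) ℂ) (p q : DropIndex n) :
    twisted x p q = embSmall x (flip p) (flip q) := rfl

/-- `φ₀`. -/
noncomputable def φ₀ (x : Matrix (Fin n) (Fin n) ℂ) : F := ∑ a, ∑ b, x a b • D.small a b

/-- `φ₁`. -/
noncomputable def φ₁ (y : Matrix (Option (Fin n)) (Option (Fin n)) ℂ) : F :=
  ∑ j, ∑ k, y j k • D.large j k

lemma φ₀_mul_col (x : Matrix (Fin n) (Fin n) ℂ) (j : Option (Fin n)) :
    D.φ₀ x * D.col j = ∑ s : DropIndex n, ∑ e, twisted x s (j, e) • (D.col s.1 * D.P s.2 e) := by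
  simp only [φ₀, Finset.sum_mul, smul_mul_assoc, Fintype.sum_prod_type, Fintype.sum_option]
  cases j with
  | none =>
    simp [flip, D.small_mul_col_none]
  | some c =>
    simp [flip, D.small_mul_col_some, smul_ite, ite_smul, h, diagN, Finset.mul_sum,
      Finset.smul_sum]

lemma φ₀_mul_large (x : Matrix (Fin n) (Fin n) ℂ) (j k : Option (Fin n)) :
    D.φ₀ x * D.large j k = ∑ s : DropIndex n, ∑ e, twisted x s (j, e) • D.unit s (k, e) := by
  simp only [large, ← mul_assoc, D.φ₀_mul_col, Finset.sum_mul, smul_mul_assoc, unit]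

lemma φ₀_mul_unit (x : Matrix (Fin n) (Fin n) ℂ) (p q : DropIndex n) :
    D.φ₀ x * D.unit p q = (1 - D.τ) * ∑ s, twisted x s p • D.unit s q := by
  obtain ⟨j, a⟩ := p
  rw [Finset.mul_sum, unit, ← mul_assoc, ← mul_assoc, D.φ₀_mul_col, Finset.sum_mul,
    Finset.sum_mul]
  refine Finset.sum_congr rfl fun s _ => ?_
  rw [Finset.sum_mul, Finset.sum_mul, Finset.sum_eq_single a (fun e _ he => by
    rw [smul_mul_assoc, mul_assoc (D.col s.1), D.P_mul_P, if_neg he]; simp)
    (fun h => absurd (Finset.mem_univ _) h)]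
  simp only [smul_mul_assoc, mul_smul_comm, unit]
  rw [mul_assoc (D.col s.1), D.P_mul_P, if_pos rfl, ← mul_assoc, ← D.one_sub_τ_mul_col]
  simp only [mul_assoc]

lemma φ₁_mul_col (y : Matrix (Option (Fin n)) (Option (Fin n)) ℂ) (j : Option (Fin n)) :
    D.φ₁ y * D.col j = D.τ * ∑ l, y l j • D.col l := by
  rw [φ₁, Finset.sum_mul, Finset.mul_sum]
  refine Finset.sum_congr rfl fun l _ => ?_
  rw [Finset.sum_mul, Finset.sum_eq_single j (fun k _ hk => by
    rw [smul_mul_assoc, D.large_mul_col, if_neg hk, smul_zero])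
    (fun h => absurd (Finset.mem_univ _) h), smul_mul_assoc, D.large_mul_col, if_pos rfl,
    mul_smul_comm]

lemma φ₁_mul_unit (y : Matrix (Option (Fin n)) (Option (Fin n)) ℂ) (p q : DropIndex n) :
    D.φ₁ y * D.unit p q = D.τ * ∑ s, embLarge y s p • D.unit s q := by
  obtain ⟨j, a⟩ := p
  rw [unit, ← mul_assoc, ← mul_assoc, D.φ₁_mul_col, mul_assoc, mul_assoc, Fintype.sum_prod_type]
  congr 1
  rw [Finset.sum_mul]
  refine Finset.sum_congr rfl fun l _ => ?_
  simp [unit, ite_smul, mul_assoc]

omit [NeZero n] in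
/-- Weighted matrix units multiply as matrices. -/
lemma mulUnits {ι : Type*} [Fintype ι] [DecidableEq ι] {E : ι → ι → F} {w : F}
    (hE : ∀ a b c d, E a b * E c d = if b = c then w * E a d else 0) (x x' : Matrix ι ι ℂ) :
    (∑ a, ∑ b, x a b • E a b) * ∑ c, ∑ d, x' c d • E c d = w * ∑ a, ∑ d, (x * x') a d • E a d := by
  rw [Finset.sum_mul, Finset.mul_sum]
  refine Finset.sum_congr rfl fun a _ => ?_
  calc (∑ b, x a b • E a b) * ∑ c, ∑ d, x' c d • E c d
      = ∑ b, ∑ d, (x a b * x' b d) • (w * E a d) := by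
        rw [Finset.sum_mul]
        refine Finset.sum_congr rfl fun b _ => ?_
        rw [Finset.mul_sum, Finset.sum_eq_single b (fun c _ hc => by
          rw [Finset.mul_sum]
          exact Finset.sum_eq_zero fun d _ => by simp [hE, Ne.symm hc])
          (fun h => absurd (Finset.mem_univ _) h), Finset.mul_sum]
        refine Finset.sum_congr rfl fun d _ => ?_
        rw [smul_mul_assoc, mul_smul_comm, hE, if_pos rfl, smul_smul]
    _ = w * ∑ d, (x * x') a d • E a d := by
        rw [Finset.mul_sum, Finset.sum_comm]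
        refine Finset.sum_congr rfl fun d _ => ?_
        rw [mul_smul_comm, ← Finset.sum_smul, Matrix.mul_apply]

lemma φ₁_mul_φ₁ (y y' : Matrix (Option (Fin n)) (Option (Fin n)) ℂ) :
    D.φ₁ y * D.φ₁ y' = D.τ * D.φ₁ (y * y') := mulUnits D.large_mul_large y y'

lemma φ₀_mul_φ₀ (x x' : Matrix (Fin n) (Fin n) ℂ) :
    D.φ₀ x * D.φ₀ x' = (1 - D.τ) * D.φ₀ (x * x') := mulUnits D.small_mul_small x x'

lemma star_φ₀ (x : Matrix (Fin n) (Fin n) ℂ) : star (D.φ₀ x) = D.φ₀ (star x) := by
  simp only [φ₀, star_sum, star_smul, D.star_small, Matrix.star_apply]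
  rw [Finset.sum_comm]

lemma star_φ₁ (y : Matrix (Option (Fin n)) (Option (Fin n)) ℂ) :
    star (D.φ₁ y) = D.φ₁ (star y) := by
  simp only [φ₁, star_sum, star_smul, large, star_mul, star_star, Matrix.star_apply]
  rw [Finset.sum_comm]

lemma φ₁_one : D.φ₁ 1 = D.τ := by simp [φ₁, Matrix.one_apply, D.sum_large]

lemma φ₀_one : D.φ₀ 1 = 1 - D.τ := by simp [φ₀, Matrix.one_apply, D.sum_small]

end Vale.Agent.P101.KR.DropDataN
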