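import Vale.Agent.P101.KR.DropCalc

/-!
# P101: the homomorphism out of `Z_{n,n+1}`

After conjugation by a path of unitaries from the flip to `1`, a path starts in the twisted copy of
`Mₙ` and ends in `M_{n+1} ⊗ 1`. It is `E₀ x + E₁ y + g` with `g` vanishing at both ends, and goes
to `φ₀ x + φ₁ y + mid g`.
-/

open scoped CStarAlgebra BoundedContinuousFunction ComplexOrder
open CStarAlgebra Filter Topology unitInterval

namespace Vale.Agent.P101.KR.DropDataN

variable {n : ℕ}

/-- A constant path. -/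
noncomputable def cst (A : DropFibre n) : Paths n := BoundedContinuousFunction.const I A

@[simp] lemma cst_apply (A : DropFibre n) (t : I) : cst A t = A := rfl

/-- Vanishing at both ends. -/
def Ends (g : Paths n) : Prop := g 0 = 0 ∧ g 1 = 0

lemma Ends.add {g g' : Paths n} (h : Ends g) (h' : Ends g') : Ends (g + g') :=
  ⟨by simp [h.1, h'.1], by simp [h.2, h'.2]⟩

lemma Ends.mul_left {g : Paths n} (h : Ends g) (E : Paths n) : Ends (E * g) :=
  ⟨by simp [h.1], by simp [h.2]⟩

lemma Ends.mul_right {g : Paths n} (h : Ends g) (E : Paths n) : Ends (g * E) :=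
  ⟨by simp [h.1], by simp [h.2]⟩

lemma ends_kC_mul (h : Paths n) : Ends (sc kC * h) :=
  ⟨by simp [kC, idC], by simp [kC, idC]⟩

/-- `t ↦ (1 - t) x` in the twisted copy. -/
noncomputable def lineSmall (x : Matrix (Fin n) (Fin n) ℂ) : Paths n :=
  sc (1 - idC) * cst (twisted x)

/-- `t ↦ t y`. -/
noncomputable def lineLarge (y : Matrix (Option (Fin n)) (Option (Fin n)) ℂ) : Paths n :=
  sc idC * cst (embLarge y)

lemma flip_flip (p : DropIndex n) : flip (flip p) = p := by
  obtain ⟨_ | b, a⟩ := p <;> rfl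

/-- The flip as a bijection. -/
def flipEquiv : DropIndex n ≃ DropIndex n := ⟨flip, flip, flip_flip, flip_flip⟩

lemma twisted_mul (x x' : Matrix (Fin n) (Fin n) ℂ) :
    twisted x * twisted x' = twisted (x * x') := by
  ext p q
  rw [twisted_apply, ← embSmall_mul, CStarMatrix.mul_apply, CStarMatrix.mul_apply]
  exact flipEquiv.sum_comp fun l => embSmall x (flip p) l * embSmall x' l (flip q)

lemma star_twisted (x : Matrix (Fin n) (Fin n) ℂ) : star (twisted x) = twisted (star x) := by
  ext p q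
  rw [CStarMatrix.star_apply, twisted_apply, twisted_apply, ← star_embSmall,
    CStarMatrix.star_apply]

lemma embLarge_one : embLarge (1 : Matrix (Option (Fin n)) (Option (Fin n)) ℂ) = 1 := by
  simpa using embLarge_algebraMap (n := n) 1

lemma twisted_one : twisted (1 : Matrix (Fin n) (Fin n) ℂ) = 1 := by
  have h : embSmall (1 : Matrix (Fin n) (Fin n) ℂ) = 1 := by
    simpa using embSmall_algebraMap (n := n) 1
  ext p q
  rw [twisted_apply, h, CStarMatrix.one_apply, CStarMatrix.one_apply]
  exact if_congr (flipEquiv.apply_eq_iff_eq) rfl rfl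

variable [NeZero n] {F : Type} [CStarAlgebra F] (D : DropDataN n F)

lemma pre_eq (h : Paths n) :
    D.pre h = ∑ q, ∑ p, D.fn (entry p q h) * D.unit p q := Finset.sum_comm

omit [NeZero n] in
lemma entry_mul (g h : Paths n) (p q : DropIndex n) :
    entry p q (g * h) = ∑ l, entry p l g * entry l q h := by
  ext t
  simp [CStarMatrix.mul_apply]

lemma pre_mul_pre (g h : Paths n) : D.pre g * D.pre h = D.pre (sc kC * (g * h)) := by
  simp only [pre, Finset.sum_mul]
  refine Finset.sum_congr rfl fun p _ => ?_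
  have e : ∀ q, D.fn (entry p q g) * D.unit p q * (∑ l, ∑ s, D.fn (entry l s h) * D.unit l s) =
      ∑ s, D.fn (kC * (entry p q g * entry q s h)) * D.unit p s := fun q => by
    rw [Finset.mul_sum, Finset.sum_eq_single q (fun l _ hl => by
      rw [Finset.mul_sum]
      exact Finset.sum_eq_zero fun s _ => by
        rw [mul_assoc (D.fn _) (D.unit p q), ← mul_assoc (D.unit p q),
          ← (D.commute_fn (D.commute_τ_unit p q) _).eq, mul_assoc _ (D.unit p q), D.unit_mul_unit,
          if_neg (Ne.symm hl)]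
        simp) (fun h => absurd (Finset.mem_univ _) h), Finset.mul_sum]
    refine Finset.sum_congr rfl fun s _ => ?_
    rw [mul_assoc (D.fn _) (D.unit p q), ← mul_assoc (D.unit p q),
      ← (D.commute_fn (D.commute_τ_unit p q) _).eq, mul_assoc _ (D.unit p q), D.unit_mul_unit,
      if_pos rfl, ← D.fn_kC, ← mul_assoc, ← mul_assoc, ← map_mul, ← map_mul, mul_comm kC]
  simp only [e, entry_sc_mul]
  simp only [entry_mul, Finset.mul_sum, map_sum, Finset.sum_mul]
  rw [Finset.sum_comm]

lemma fn_const (z : ℂ) : D.fn (algebraMap ℂ C(I, ℂ) z) = z • 1 := by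
  rw [AlgHomClass.commutes, Algebra.algebraMap_eq_smul_one]

omit [NeZero n] in
lemma entry_cst (A : DropFibre n) (p q : DropIndex n) :
    entry p q (cst A) = algebraMap ℂ C(I, ℂ) (A p q) := by
  ext t
  simp

lemma fn_scaled (u v : C(I, ℂ)) (z : ℂ) :
    D.fn (u * (algebraMap ℂ C(I, ℂ) z * v)) = z • (D.fn u * D.fn v) := by
  rw [map_mul, map_mul, D.fn_const, smul_mul_assoc, one_mul, mul_smul_comm]

lemma φ₀_mul_pre (x : Matrix (Fin n) (Fin n) ℂ) (h : Paths n) :
    D.φ₀ x * D.pre h = D.pre (lineSmall x * h) := by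
  rw [pre_eq, pre_eq, Finset.mul_sum]
  refine Finset.sum_congr rfl fun q _ => ?_
  have e : ∀ p, D.φ₀ x * (D.fn (entry p q h) * D.unit p q) =
      ∑ s, D.fn ((1 - idC) * (algebraMap ℂ C(I, ℂ) (twisted x s p) * entry p q h)) *
        D.unit s q := fun p => by
    have hc : Commute D.τ (D.φ₀ x) := by
      exact Commute.sum_right _ _ _ fun a _ => Commute.sum_right _ _ _ fun b _ =>
        (D.commute_τ_small a b).smul_right _
    rw [← mul_assoc, ← (D.commute_fn hc _).eq, mul_assoc, D.φ₀_mul_unit, Finset.mul_sum,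
      Finset.mul_sum]
    refine Finset.sum_congr rfl fun s _ => ?_
    rw [D.fn_scaled, ← D.fn_idC, ← map_one D.fn, ← map_sub, mul_smul_comm, mul_smul_comm,
      smul_mul_assoc, ← mul_assoc, ((Commute.all (entry p q h) (1 - idC)).map D.fn).eq]
  simp only [Finset.mul_sum, e]
  rw [Finset.sum_comm]
  refine Finset.sum_congr rfl fun s _ => ?_
  rw [lineSmall, mul_assoc, entry_sc_mul, entry_mul, Finset.mul_sum, map_sum, Finset.sum_mul]
  simp only [entry_cst]

lemma φ₁_mul_pre (y : Matrix (Option (Fin n)) (Option (Fin n)) ℂ) (h : Paths n) :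
    D.φ₁ y * D.pre h = D.pre (lineLarge y * h) := by
  rw [pre_eq, pre_eq, Finset.mul_sum]
  refine Finset.sum_congr rfl fun q _ => ?_
  have e : ∀ p, D.φ₁ y * (D.fn (entry p q h) * D.unit p q) =
      ∑ s, D.fn (idC * (algebraMap ℂ C(I, ℂ) (embLarge y s p) * entry p q h)) *
        D.unit s q := fun p => by
    have hc : Commute D.τ (D.φ₁ y) := by
      exact Commute.sum_right _ _ _ fun a _ => Commute.sum_right _ _ _ fun b _ =>
        (D.commute_τ_large a b).smul_right _
    rw [← mul_assoc, ← (D.commute_fn hc _).eq, mul_assoc, D.φ₁_mul_unit, Finset.mul_sum,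
      Finset.mul_sum]
    refine Finset.sum_congr rfl fun s _ => ?_
    rw [D.fn_scaled, ← D.fn_idC, mul_smul_comm, mul_smul_comm, smul_mul_assoc, ← mul_assoc,
      ((Commute.all (entry p q h) idC).map D.fn).eq]
  simp only [Finset.mul_sum, e]
  rw [Finset.sum_comm]
  refine Finset.sum_congr rfl fun s _ => ?_
  rw [lineLarge, mul_assoc, entry_sc_mul, entry_mul, Finset.mul_sum, map_sum, Finset.sum_mul]
  simp only [entry_cst]

lemma φ₀_mul_φ₁ (x : Matrix (Fin n) (Fin n) ℂ) (y : Matrix (Option (Fin n)) (Option (Fin n)) ℂ) :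
    D.φ₀ x * D.φ₁ y = D.pre (cst (twisted x * embLarge y)) := by
  have r : ∀ s, ∑ q, (twisted x * embLarge y) s q • D.unit s q =
      ∑ j, ∑ k, y j k • ∑ e, twisted x s (j, e) • D.unit s (k, e) := fun s => by
    rw [Fintype.sum_prod_type, Finset.sum_comm (s := (Finset.univ : Finset (Option (Fin n))))
      (t := (Finset.univ : Finset (Option (Fin n))))]
    refine Finset.sum_congr rfl fun k _ => ?_
    simp only [Finset.smul_sum, smul_smul]
    rw [Finset.sum_comm]
    refine Finset.sum_congr rfl fun e _ => ?_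
    rw [← Finset.sum_smul]
    congr 1
    rw [CStarMatrix.mul_apply, Fintype.sum_prod_type]
    refine Finset.sum_congr rfl fun j _ => ?_
    rw [Finset.sum_eq_single e (fun a _ ha => by simp [ha]) (fun h => absurd (Finset.mem_univ _) h)]
    simp [mul_comm]
  simp only [pre, entry_cst, D.fn_const, smul_mul_assoc, one_mul, r, φ₁, Finset.mul_sum,
    mul_smul_comm, D.φ₀_mul_large, Finset.smul_sum]
  rw [Finset.sum_comm (s := (Finset.univ : Finset (DropIndex n)))]
  refine Finset.sum_congr rfl fun j _ => ?_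
  rw [Finset.sum_comm (s := (Finset.univ : Finset (DropIndex n)))]

lemma mid_add {g g' : Paths n} (hg : Ends g) (hg' : Ends g') :
    D.mid (g + g') = D.mid g + D.mid g' := by
  refine (D.eq_mid (hg.add hg').1 (hg.add hg').2 (h := fun m => sc (inv m) * (g + g'))
    (tendsto_inv _ (hg.add hg').1 (hg.add hg').2) ?_).symm
  simpa only [mul_add, D.pre_add] using
    (D.tendsto_pre g hg.1 hg.2).add (D.tendsto_pre g' hg'.1 hg'.2)

lemma mid_smul (c : ℂ) {g : Paths n} (hg : Ends g) : D.mid (c • g) = c • D.mid g := by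
  have h : Ends (c • g) := ⟨by simp [hg.1], by simp [hg.2]⟩
  refine (D.eq_mid h.1 h.2 (h := fun m => sc (inv m) * (c • g))
    (tendsto_inv _ h.1 h.2) ?_).symm
  simpa only [mul_smul_comm, D.pre_smul] using (D.tendsto_pre g hg.1 hg.2).const_smul c

lemma mid_zero : D.mid (0 : Paths n) = 0 := by
  simpa using D.mid_smul 0 (g := 0) ⟨rfl, rfl⟩

lemma star_pre (h : Paths n) : star (D.pre h) = D.pre (star h) := by
  have hst : ∀ p q, star (entry p q h) = entry q p (star h) := fun p q => by
    ext t; simp [CStarMatrix.star_apply]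
  simp only [pre, star_sum, star_mul, ← map_star, D.star_unit, hst,
    ← (D.commute_fn (D.commute_τ_unit _ _) _).eq]
  rw [Finset.sum_comm]

omit [NeZero n] in
lemma star_sc (u : C(I, ℂ)) : star (sc u : Paths n) = sc (star u) := by
  ext t : 1
  simp [star_smul]

lemma star_mid {g : Paths n} (hg : Ends g) : star (D.mid g) = D.mid (star g) := by
  have h : Ends (star g) := ⟨by simp [hg.1], by simp [hg.2]⟩
  refine D.eq_mid h.1 h.2 (h := fun m => sc (inv m) * star g) (tendsto_inv _ h.1 h.2) ?_
  have hinv : ∀ m, star (inv m) = inv m := fun m => by ext t; simp [inv]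
  have := (D.tendsto_pre g hg.1 hg.2).star
  simpa [D.star_pre, star_mul, star_sc, hinv, sc_comm] using this

lemma φ₀_mul_mid (x : Matrix (Fin n) (Fin n) ℂ) {g : Paths n} (hg : Ends g) :
    D.φ₀ x * D.mid g = D.mid (lineSmall x * g) := by
  refine D.eq_mid (hg.mul_left _).1 (hg.mul_left _).2
    (h := fun m => lineSmall x * (sc (inv m) * g)) ?_ ?_
  · refine squeeze_zero (fun m => norm_nonneg _) (fun m => ?_)
      (by simpa using (tendsto_inv g hg.1 hg.2).const_mul ‖lineSmall x‖)
    rw [← mul_assoc, sc_comm, mul_assoc, ← mul_sub]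
    exact norm_mul_le _ _
  · simpa only [D.φ₀_mul_pre] using (D.tendsto_pre g hg.1 hg.2).const_mul (D.φ₀ x)

lemma φ₁_mul_mid (y : Matrix (Option (Fin n)) (Option (Fin n)) ℂ) {g : Paths n} (hg : Ends g) :
    D.φ₁ y * D.mid g = D.mid (lineLarge y * g) := by
  refine D.eq_mid (hg.mul_left _).1 (hg.mul_left _).2
    (h := fun m => lineLarge y * (sc (inv m) * g)) ?_ ?_
  · refine squeeze_zero (fun m => norm_nonneg _) (fun m => ?_)
      (by simpa using (tendsto_inv g hg.1 hg.2).const_mul ‖lineLarge y‖)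
    rw [← mul_assoc, sc_comm, mul_assoc, ← mul_sub]
    exact norm_mul_le _ _
  · simpa only [D.φ₁_mul_pre] using (D.tendsto_pre g hg.1 hg.2).const_mul (D.φ₁ y)

lemma mid_mul_mid {g g' : Paths n} (hg : Ends g) (hg' : Ends g') :
    D.mid g * D.mid g' = D.mid (g * g') := by
  refine D.eq_mid (hg.mul_right _).1 (hg.mul_right _).2
    (h := fun m => sc kC * (sc (inv m) * g * (sc (inv m) * g'))) ?_ ?_
  · have hz : ∀ {f : Paths n}, Ends f →
        Tendsto (fun m => sc kC * (sc (inv m) * f)) atTop (𝓝 f) := fun {f} hf =>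
      tendsto_iff_norm_sub_tendsto_zero.2 (tendsto_inv f hf.1 hf.2)
    have := tendsto_iff_norm_sub_tendsto_zero.1 ((hz hg).mul (hz hg'))
    refine this.congr fun m => ?_
    congr 2
    simp only [← mul_assoc]
    rw [mul_assoc (sc kC * sc (inv m)) g (sc kC), ← sc_comm kC g]
    simp only [mul_assoc]
    rw [← mul_assoc (sc (inv m)) (sc kC), ← sc_comm, mul_assoc]
  · simpa only [D.pre_mul_pre] using (D.tendsto_pre g hg.1 hg.2).mul (D.tendsto_pre g' hg'.1 hg'.2)

omit [NeZero n] in
lemma lineSmall_mul_lineLarge (x : Matrix (Fin n) (Fin n) ℂ)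
    (y : Matrix (Option (Fin n)) (Option (Fin n)) ℂ) :
    lineSmall x * lineLarge y = sc kC * cst (twisted x * embLarge y) := by
  ext t : 1
  simp [lineSmall, lineLarge, kC, smul_smul]

lemma φ₀_mul_φ₁' (x : Matrix (Fin n) (Fin n) ℂ) (y : Matrix (Option (Fin n)) (Option (Fin n)) ℂ) :
    D.φ₀ x * D.φ₁ y = D.mid (lineSmall x * lineLarge y) := by
  rw [lineSmall_mul_lineLarge, D.mid_kC_mul, D.φ₀_mul_φ₁]

omit [NeZero n] in
lemma star_lineSmall (x : Matrix (Fin n) (Fin n) ℂ) :
    star (lineSmall x) = lineSmall (star x) := by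
  ext t : 1
  simp [lineSmall, idC, star_smul, star_twisted]

omit [NeZero n] in
lemma star_lineLarge (y : Matrix (Option (Fin n)) (Option (Fin n)) ℂ) :
    star (lineLarge y) = lineLarge (star y) := by
  ext t : 1
  simp [lineLarge, idC, star_smul, star_embLarge]

lemma φ₁_mul_φ₀' (y : Matrix (Option (Fin n)) (Option (Fin n)) ℂ) (x : Matrix (Fin n) (Fin n) ℂ) :
    D.φ₁ y * D.φ₀ x = D.mid (lineLarge y * lineSmall x) := by
  have h : Ends (lineSmall (star x) * lineLarge (star y)) := by
    rw [lineSmall_mul_lineLarge]; exact ends_kC_mul _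
  have := congrArg star (D.φ₀_mul_φ₁' (star x) (star y))
  simpa [D.star_mid h, D.star_φ₀, D.star_φ₁, star_lineSmall, star_lineLarge] using this

lemma φ₀_mul_φ₀' (x x' : Matrix (Fin n) (Fin n) ℂ) :
    D.φ₀ x * D.φ₀ x' =
      D.φ₀ (x * x') + D.mid (lineSmall x * lineSmall x' - lineSmall (x * x')) := by
  have e : lineSmall x * lineSmall x' - lineSmall (x * x') =
      sc kC * ((-1 : ℂ) • cst (twisted (x * x') * embLarge 1)) := by
    ext t : 1
    simp only [lineSmall, BoundedContinuousFunction.sub_apply, BoundedContinuousFunction.mul_apply,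
      BoundedContinuousFunction.smul_apply, sc_apply, cst_apply, kC, idC, smul_mul_assoc, one_mul,
      mul_smul_comm, smul_smul, twisted_mul, embLarge_one, mul_one, ← sub_smul,
      ContinuousMap.mul_apply, ContinuousMap.sub_apply, ContinuousMap.one_apply]
    congr 1
    simp
    ring
  have hc : Commute D.τ (D.φ₀ (x * x')) :=
    Commute.sum_right _ _ _ fun a _ => Commute.sum_right _ _ _ fun b _ =>
      (D.commute_τ_small a b).smul_right _
  rw [D.φ₀_mul_φ₀, e, D.mid_kC_mul, D.pre_smul, ← D.φ₀_mul_φ₁, φ₁_one, ← hc.eq, sub_mul,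
    one_mul, neg_one_smul, ← sub_eq_add_neg]

lemma φ₁_mul_φ₁' (y y' : Matrix (Option (Fin n)) (Option (Fin n)) ℂ) :
    D.φ₁ y * D.φ₁ y' =
      D.φ₁ (y * y') + D.mid (lineLarge y * lineLarge y' - lineLarge (y * y')) := by
  have e : lineLarge y * lineLarge y' - lineLarge (y * y') =
      sc kC * ((-1 : ℂ) • cst (twisted 1 * embLarge (y * y'))) := by
    ext t : 1
    simp only [lineLarge, BoundedContinuousFunction.sub_apply, BoundedContinuousFunction.mul_apply,
      BoundedContinuousFunction.smul_apply, sc_apply, cst_apply, kC, idC, smul_mul_assoc, one_mul,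
      mul_smul_comm, smul_smul, twisted_one, embLarge_mul, ← sub_smul,
      ContinuousMap.mul_apply, ContinuousMap.sub_apply, ContinuousMap.one_apply]
    congr 1
    simp
    ring
  rw [D.φ₁_mul_φ₁, e, D.mid_kC_mul, D.pre_smul, ← D.φ₀_mul_φ₁, D.φ₀_one, sub_mul, one_mul,
    neg_one_smul]
  abel

end Vale.Agent.P101.KR.DropDataN
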