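import Mathlib

/-!
# P101: the central sequence algebra in terms of sequences

`A_ω ∩ A'` is the algebra of the sequences in `IsCentral ω`, taken up to `SeqEq ω`.
-/

namespace Vale.Agent.P101.KR.Seq

open Filter Topology

variable {A : Type} [CStarAlgebra A]

/-- Bounded sequences that asymptotically commute in norm with every element of `A` along `ω`. -/
def IsCentral (ω : Ultrafilter ℕ) (x : ℕ → A) : Prop :=
  (∃ C : ℝ, ∀ n, ‖x n‖ ≤ C) ∧
    ∀ a : A, Tendsto (fun n => ‖x n * a - a * x n‖) (ω : Filter ℕ) (𝓝 0)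

/-- Equality in `A_ω`: the difference is null along `ω`. -/
def SeqEq (ω : Ultrafilter ℕ) (x y : ℕ → A) : Prop :=
  Tendsto (fun n => ‖x n - y n‖) (ω : Filter ℕ) (𝓝 0)

/-- A character of `A_ω ∩ A'`. -/
def HasCharacter (A : Type) [CStarAlgebra A] (ω : Ultrafilter ℕ) : Prop :=
  ∃ χ : (ℕ → A) → ℂ, χ 1 = 1 ∧
    (∀ x y, IsCentral ω x → IsCentral ω y → χ (x + y) = χ x + χ y ∧ χ (x * y) = χ x * χ y) ∧
    (∀ (c : ℂ) x, IsCentral ω x → χ (c • x) = c * χ x) ∧
    (∀ x, IsCentral ω x → χ (star x) = star (χ x)) ∧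
    ∀ x y, IsCentral ω x → IsCentral ω y → SeqEq ω x y → χ x = χ y

/-- The relations of the dimension drop algebra `Z_{k,k+1}` hold in `A_ω ∩ A'`: an order zero
positive map of `M_k`, given on matrix units by `P`, and `v` with `v*v = 1 - h` and `P₀₀ v = v`,
where `h` is the sum of the `P a a`. -/
def HasDropRelations (A : Type) [CStarAlgebra A] (ω : Ultrafilter ℕ) (k : ℕ) : Prop :=
  ∃ (P : Fin k → Fin k → ℕ → A) (c : Fin k → ℕ → A) (v : ℕ → A),
    (∀ a b, IsCentral ω (P a b)) ∧ (∀ a, IsCentral ω (c a)) ∧ IsCentral ω v ∧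
    (∀ a b, SeqEq ω (star (P a b)) (P b a)) ∧
    (∀ a b a' b', SeqEq ω (P a b * P a' b')
      (if b = a' then (∑ i, P i i) * P a b' else 0)) ∧
    (∀ a, SeqEq ω (P a a) (star (c a) * c a)) ∧
    SeqEq ω (star v * v) (1 - ∑ i, P i i) ∧
    ∀ a : Fin k, (a : ℕ) = 0 → SeqEq ω (P a a * v) v

end Vale.Agent.P101.KR.Seq
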